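import Vale.Agent.P073.H196.Theta2

/-!
# P073, H196: vertical maps in two directions commute; gluing of local Lipschitz bounds
-/

open Set Metric Topology Filter

namespace P073.H196

open P073 P073.H236

variable {n : ℕ} {γ : Type*} {Λ : Set (Fin n → ℝ)}

theorem bmp_update_full {j : Fin n} {lo hi r : Fin n → ℝ} (hr : ∀ i, 0 < r i) (C : ℝ)
    {y : Fin n → ℝ} {i : Fin n} {t : ℝ} (h1 : lo i ≤ y i) (h2 : y i ≤ hi i) (h3 : lo i ≤ t)
    (h4 : t ≤ hi i) : bmp j lo hi r C (Function.update y i t) = bmp j lo hi r C y := by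
  unfold bmp
  congr 2
  refine Finset.inf'_congr _ rfl fun l _ => ?_
  unfold gi
  split_ifs with h
  · rfl
  · by_cases hl : l = i
    · subst hl
      rw [Function.update_self]
      have hrl := hr l
      have e : ∀ s, lo l ≤ s → s ≤ hi l →
          min 1 (min (1 + (s - lo l) / r l) (1 + (hi l - s) / r l)) = 1 := by
        intro s a b
        have c1 : 0 ≤ (s - lo l) / r l := div_nonneg (by linarith) hrl.le
        have c2 : 0 ≤ (hi l - s) / r l := div_nonneg (by linarith) hrl.le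
        exact min_eq_left (le_min (by linarith) (by linarith))
      rw [e t h3 h4, e (y l) h1 h2]
    · rw [Function.update_of_ne hl]

/-- the maps of two boxes with different directions commute, if the window of each is in the full
zone of the other one -/
theorem HX.comm {X Y : HX n} (hne : X.j ≠ Y.j) (hX : Y.lo X.j ≤ X.al ∧ X.be ≤ Y.hi X.j)
    (hY : X.lo Y.j ≤ Y.al ∧ Y.be ≤ X.hi Y.j) (y : Fin n → ℝ) :
    X.H.toFun (Y.H.toFun y) = Y.H.toFun (X.H.toFun y) := by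
  have key : ∀ X Y : HX n, X.j ≠ Y.j → (X.lo Y.j ≤ Y.al ∧ Y.be ≤ X.hi Y.j) →
      X.m (Y.H.toFun y) = X.m y := by
    intro X Y hne hY
    rw [Y.H_toFun]
    unfold vc
    by_cases hw : Y.al ≤ y Y.j ∧ y Y.j ≤ Y.be
    · have h1 := cl_mono Y.l1.km.monotone (Y.m y) hw.1
      have h2 := cl_mono Y.l1.km.monotone (Y.m y) hw.2
      have m0 : 0 ≤ Y.m y := Y.vd.m0 y
      rw [cl_fix m0 (Y.l1.out _ (Or.inl le_rfl))] at h1
      rw [cl_fix m0 (Y.l1.out _ (Or.inr le_rfl))] at h2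
      exact bmp_update_full X.hr X.D (hY.1.trans hw.1) (hw.2.trans hY.2) (hY.1.trans h1)
        (h2.trans hY.2)
    · have hw' : y Y.j ≤ Y.al ∨ Y.be ≤ y Y.j := by
        by_contra hcon
        push Not at hcon
        exact hw ⟨hcon.1.le, hcon.2.le⟩
      rw [cl_fix (Y.vd.m0 y) (Y.l1.out _ hw'), Function.update_eq_self]
  have e1 := key X Y hne hY
  have e2 := key Y X hne.symm hX
  have f : ∀ (X : HX n) (z : Fin n → ℝ), X.H.toFun z =
      Function.update z X.j (cl X.k (X.m z) (z X.j)) := fun X z => by rw [X.H_toFun]; rfl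
  rw [f X (Y.H.toFun y), f Y (X.H.toFun y), e1, e2]
  have g1 : Y.H.toFun y X.j = y X.j := Y.ne hne y
  have g2 : X.H.toFun y Y.j = y Y.j := X.ne hne.symm y
  rw [g1, g2, f Y y, f X y, Function.update_comm hne]

/-- the glued map in a region which meets only one box -/
theorem IsH.eq_H {F : HFam n γ Λ} {S : ConHomeo Λ Λ} (hS : F.IsH S) {P : γ → Set (Fin n → ℝ)}
    (hK : ∀ b, (F.X b).K ⊆ P b) (hd : ∀ b b', b ≠ b' → Disjoint (P b) (P b')) {b : γ}
    {y : Fin n → ℝ} (hy : y ∈ P b) : S.toFun y = (F.X b).H.toFun y := by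
  by_cases h : y ∈ (F.X b).K
  · exact hS.on b y h
  · rw [(F.X b).supp.id y h]
    refine hS.off y fun b' hb' => ?_
    have hbb : b = b' := by
      by_contra hcon
      exact Set.disjoint_left.1 (hd b b' hcon) hy (hK b' hb')
    subst hbb
    exact h hb'

theorem IsH.mem_P {F : HFam n γ Λ} {S : ConHomeo Λ Λ} (hS : F.IsH S) {P : γ → Set (Fin n → ℝ)}
    (hK : ∀ b, (F.X b).K ⊆ P b) (hd : ∀ b b', b ≠ b' → Disjoint (P b) (P b')) {b : γ}
    {y : Fin n → ℝ} (hy : y ∈ P b) : S.toFun y ∈ P b := by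
  rw [IsH.eq_H hS hK hd hy]
  by_cases h : y ∈ (F.X b).K
  · exact hK b ((F.X b).supp.maps h)
  · rw [(F.X b).supp.id y h]; exact hy

theorem IsH.off_P {F : HFam n γ Λ} {S : ConHomeo Λ Λ} (hS : F.IsH S) {P : γ → Set (Fin n → ℝ)}
    (hK : ∀ b, (F.X b).K ⊆ P b) {y : Fin n → ℝ} (hy : ∀ b, y ∉ P b) : S.toFun y = y :=
  hS.off y fun b hb => hy b (hK b hb)

/-- **the glued maps of two families commute** -/
theorem IsH.comm {F F' : HFam n γ Λ} {S S' : ConHomeo Λ Λ} (hS : F.IsH S) (hS' : F'.IsH S')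
    {P : γ → Set (Fin n → ℝ)} (hK : ∀ b, (F.X b).K ⊆ P b) (hK' : ∀ b, (F'.X b).K ⊆ P b)
    (hd : ∀ b b', b ≠ b' → Disjoint (P b) (P b')) (hne : ∀ b, (F.X b).j ≠ (F'.X b).j)
    (h1 : ∀ b, (F'.X b).lo (F.X b).j ≤ (F.X b).al ∧ (F.X b).be ≤ (F'.X b).hi (F.X b).j)
    (h2 : ∀ b, (F.X b).lo (F'.X b).j ≤ (F'.X b).al ∧ (F'.X b).be ≤ (F.X b).hi (F'.X b).j)
    (y : Fin n → ℝ) : S.toFun (S'.toFun y) = S'.toFun (S.toFun y) := by
  by_cases hy : ∃ b, y ∈ P b
  · obtain ⟨b, hb⟩ := hy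
    rw [IsH.eq_H hS hK hd (IsH.mem_P hS' hK' hd hb), IsH.eq_H hS' hK' hd hb,
      IsH.eq_H hS' hK' hd (IsH.mem_P hS hK hd hb), IsH.eq_H hS hK hd hb]
    exact HX.comm (hne b) (h1 b) (h2 b) y
  · push Not at hy
    rw [IsH.off_P hS' hK' hy, IsH.off_P hS hK hy, IsH.off_P hS' hK' hy]

/-- **gluing of local Lipschitz bounds** -/
theorem local_lip_glue {E : Type*} [NormedAddCommGroup E] {Λ : Set E} {G : E → E} {P : γ → Set E}
    (hP : ∀ b, IsClosed (P b)) (hΛ : IsOpen Λ) (hG : ContinuousOn G Λ) {C : ℝ} (hC : 1 ≤ C)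
    (lf : ∀ z ∈ Λ, ∃ U ∈ 𝓝 z, {b | (P b ∩ U).Nonempty}.Finite)
    (hbox : ∀ b, ∀ z ∈ P b, ∀ z' ∈ P b, ‖G z' - G z‖ ≤ C * ‖z' - z‖)
    (off : ∀ y, (∀ b, y ∉ P b) → G y = y) {y : E} (hy : y ∈ Λ) :
    ∀ᶠ y' in 𝓝 y, ‖G y' - G y‖ ≤ C * ‖y' - y‖ := by
  classical
  obtain ⟨U, hU, hfin⟩ := lf y hy
  have hev : ∀ᶠ y' in 𝓝 y, ∀ b, y' ∈ P b → y ∈ P b := by
    have h1 : ∀ b ∈ {b | (P b ∩ U).Nonempty}, ∀ᶠ y' in 𝓝 y, y' ∈ P b → y ∈ P b := by
      intro b _
      by_cases hb : y ∈ P b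
      · exact Eventually.of_forall fun _ _ => hb
      · have h2 : (P b)ᶜ ∈ 𝓝 y := (hP b).isOpen_compl.mem_nhds hb
        filter_upwards [h2] with y' hy' hy''
        exact absurd hy'' hy'
    have h2 := (hfin.eventually_all).2 h1
    filter_upwards [h2, hU] with y' h3 hyU b hb
    exact h3 b ⟨y', hb, hyU⟩ hb
  have hΛy : Λ ∈ 𝓝 y := hΛ.mem_nhds hy
  by_cases hcl : ∀ᶠ y' in 𝓝 y, ∃ b, y' ∈ P b
  · filter_upwards [hev, hcl] with y' h1 ⟨b, hb⟩
    exact hbox b y (h1 b hb) y' hb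
  · have hfr : ∃ᶠ y' in 𝓝 y, ∀ b, y' ∉ P b := by
      intro hcon
      exact hcl (hcon.mono fun y' h => by push Not at h; exact h)
    have hGy : G y = y := by
      have hc : ContinuousAt G y := hG.continuousAt hΛy
      by_contra hne
      have h3 : ∀ᶠ y' in 𝓝 y, G y' ≠ y' := by
        have h4 : Tendsto (fun y' => (G y', y')) (𝓝 y) (𝓝 (G y, y)) := hc.prodMk_nhds tendsto_id
        have h5 : {p : E × E | p.1 ≠ p.2} ∈ 𝓝 (G y, y) :=
          (isOpen_ne_fun continuous_fst continuous_snd).mem_nhds hne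
        exact h4 h5
      obtain ⟨y', h4, h5⟩ := (hfr.and_eventually h3).exists
      exact h5 (off y' h4)
    filter_upwards [hev] with y' h1
    by_cases hb : ∃ b, y' ∈ P b
    · obtain ⟨b, hb⟩ := hb
      exact hbox b y (h1 b hb) y' hb
    · push Not at hb
      rw [hGy, off y' hb]
      nlinarith [norm_nonneg (y' - y)]

end P073.H196
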