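import Vale.Agent.P073.H196.ThetaP
import Vale.Agent.P073.H196.Comm

/-!
# P073, H196, **[THETA-P], [PROT-P]**: estimates for `S_P ∘ Θ`

`SΘ = T true ∘ T false ∘ Θ true ∘ Θ false`: normal coordinates are unchanged, the tangential
coordinates move with the slope `A` plus a small multiple of the distance; Lipschitz locally and
on convex sets.
-/

open Set Metric Topology Filter

namespace P073.H196

open _root_.P073 _root_.P073.Net _root_.P073.PA691 _root_.P073.H236 _root_.P073.H579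
  _root_.P073.H345 _root_.P073.H880
open Vale.Agent.P073.St (V)
open Vale.Agent.P073.H471 Vale.Agent.P073.H267 Vale.Agent.P073.H267.Geo

variable {Ω Λ : Set V} {v : V} {K : BoxCx Λ v} {S : Rad K} {W : Wid K S} {B : Boxes W}
  {G : Geo B}

theorem isClosed_PK (G : Geo B) (s : K.S) : IsClosed (PK G s) := by
  have : PK G s = (⋂ j, ⋂ (_ : j ≠ K.nrm s), ({y : V | K.slo s j + 3 / 4 * G.p s ≤ y j} ∩
      {y : V | y j ≤ K.shi s j - 3 / 4 * G.p s})) ∩
      {y : V | |y (K.nrm s) - K.slo s (K.nrm s)| ≤ 3 / 2 * B.τ s} := by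
    ext y; simp [PK]
  rw [this]
  refine IsClosed.inter (isClosed_iInter fun j => isClosed_iInter fun _ => ?_) ?_
  · exact (isClosed_le continuous_const (continuous_apply j)).inter
      (isClosed_le (continuous_apply j) continuous_const)
  · exact isClosed_le ((continuous_apply _).sub continuous_const).abs continuous_const

theorem lf_PK_sub (G : Geo B) (S₀ : Set K.S) :
    ∀ z ∈ Λ, ∃ U ∈ 𝓝 z, {s : S₀ | (PK G s.1 ∩ U).Nonempty}.Finite := by
  intro z hz
  obtain ⟨U, hU, h⟩ := lf_ss W z hz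
  refine ⟨U, hU, (h.preimage (f := fun s : S₀ => s.1) Subtype.val_injective.injOn).subset ?_⟩
  rintro s ⟨x, hx, hxU⟩
  exact ⟨x, PK_sub_ss s.1 hx, hxU⟩

theorem PK_disj (G : Geo B) (S₀ : Set K.S) (s s' : S₀) (h : s ≠ s') :
    Disjoint (PK G s.1) (PK G s'.1) :=
  Set.disjoint_left.2 fun _ hy hy' => h (Subtype.ext (PK_unique hy hy'))

theorem PK_sub_Λ (G : Geo B) (s : K.S) : PK G s ⊆ Λ := fun _ hy =>
  ss_subset (W := W) s (PK_sub_ss s hy)

/-! ### `Θ` in the plates -/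

section

variable {L : PLev G} {c : K.S → Bool → ℝ} {h0 : ∀ s β, 0 < c s β}
  {h1 : ∀ s β, c s β ≤ L.c s β} {hΛ : IsOpen Λ} {S₀ : Set K.S} {Θ : ConHomeo Λ Λ} {y : V}
  {β : Bool}

theorem thP_K_sub (b : S₀) : ((thP L c h0 h1 hΛ S₀ β).X b).K ⊆ PK G b.1 := by
  intro y hy
  have hy' : y ∈ (L.bx β b.1).K := by
    rwa [show ((thP L c h0 h1 hΛ S₀ β).X b).K = (L.bx β b.1).K from thetaX_K] at hy
  exact (PLev.mem_bxK.1 hy').1

/-- `Θ β` in the full zone of the plate -/
theorem theta_full (hΘ : (thP L c h0 h1 hΛ S₀ β).IsH Θ) (s : S₀) (hy : y ∈ G.PB (7 / 8) s.1) :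
    Θ.toFun y = Function.update y (tg s.1 β)
      (th (L.lvs s.1 β).L (L.c s.1 β) (lamP L c s.1 β) (y (tg s.1 β))) := by
  have hyP : y ∈ PK G s.1 := PB_sub_PK (by norm_num) s.1 hy
  rw [IsH.eq_H hΘ (thP_K_sub (β := β)) (PK_disj G S₀) (b := s) hyP]
  have hF := PLev.PB_full (L := L) (β := β) hy
  refine ((thP L c h0 h1 hΛ S₀ β).X s).full fun i hi => ?_
  have h2 := hF i hi
  have hr := (L.bx β s.1).hr i
  show (L.bx β s.1).lo i - (L.bx β s.1).r i / 2 ≤ y i ∧ y i ≤
    (L.bx β s.1).hi i + (L.bx β s.1).r i / 2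
  constructor <;> linarith [h2.1, h2.2]

theorem theta_mem_PK (hΘ : (thP L c h0 h1 hΛ S₀ β).IsH Θ) (s : S₀) (hy : y ∈ PK G s.1) :
    Θ.toFun y ∈ PK G s.1 :=
  IsH.mem_P hΘ (thP_K_sub (β := β)) (PK_disj G S₀) hy

theorem theta_off (hΘ : (thP L c h0 h1 hΛ S₀ β).IsH Θ) (hy : ∀ s ∈ S₀, y ∉ PK G s) :
    Θ.toFun y = y :=
  IsH.off_P (P := fun s : S₀ => PK G s.1) hΘ (thP_K_sub (β := β)) fun b => hy b.1 b.2

/-- `th` of a plate preserves the sides of the windows -/
theorem th_win_iff (s : K.S) {x t : ℝ} (hx : x ≤ K.slo s (tg s β) + G.a s ∨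
    K.shi s (tg s β) - G.a s ≤ x) (h1 : ∀ s β, c s β ≤ L.c s β) (h0 : ∀ s β, 0 < c s β) :
    (x ≤ th (L.lvs s β).L (L.c s β) (lamP L c s β) t ↔ x ≤ t) ∧
    (th (L.lvs s β).L (L.c s β) (lamP L c s β) t ≤ x ↔ t ≤ x) := by
  have hm := th_strictMono (L.lvs s β).c0.le (L.lvs s β).sepd (lamP_pos h0 s β) (lamP_le h1 s β)
  have hf : th (L.lvs s β).L (L.c s β) (lamP L c s β) x = x := th_out (L.lvs s β) hx
  constructor
  · conv_lhs => rw [← hf]
    exact hm.le_iff_le
  · conv_lhs => rw [← hf]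
    exact hm.le_iff_le

theorem theta_PB_iff (h0 : ∀ s β, 0 < c s β) (h1 : ∀ s β, c s β ≤ L.c s β) {d : ℝ} (hd : d ≤ 2)
    (s : K.S) (y : V) : Function.update y (tg s β)
      (th (L.lvs s β).L (L.c s β) (lamP L c s β) (y (tg s β))) ∈ G.PB d s ↔ y ∈ G.PB d s := by
  have hp := Geo.p_pos (G := G) s
  have hpa := Geo.p_a (G := G) s
  have hcp : d * G.p s ≤ 2 * G.p s := mul_le_mul_of_nonneg_right hd hp.le
  rw [Geo.mem_PB, Geo.mem_PB, Function.update_of_ne (tg_ne s β).symm]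
  refine and_congr_left fun _ => forall_congr' fun k => imp_congr_right fun hk => ?_
  by_cases hkb : k = tg s β
  · subst hkb
    rw [Function.update_self,
      (th_win_iff s (Or.inl (by linarith)) h1 h0).1, (th_win_iff s (Or.inr (by linarith)) h1 h0).2]
  · rw [Function.update_of_ne hkb]

end

/-- **both `Θ` in the full zone of the plate** -/
theorem theta2_full {L : PLev G} {c : K.S → Bool → ℝ} {h0 : ∀ s β, 0 < c s β}
    {h1 : ∀ s β, c s β ≤ L.c s β} {hΛ : IsOpen Λ} {S₀ : Set K.S} {Θ : Bool → ConHomeo Λ Λ}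
    (hΘ : ∀ β, (thP L c h0 h1 hΛ S₀ β).IsH (Θ β)) (s : S₀) {y : V} (hy : y ∈ G.PB (7 / 8) s.1)
    (j : Fin 3) : (Θ true).toFun ((Θ false).toFun y) j = θP L c s.1 j (y j) := by
  have e1 := theta_full (hΘ false) s hy
  have hy1 : (Θ false).toFun y ∈ G.PB (7 / 8) s.1 := by
    rw [e1]; exact (theta_PB_iff h0 h1 (by norm_num) s.1 y).2 hy
  have e2 := theta_full (hΘ true) s hy1
  rw [e2]
  by_cases h : j = K.nrm s.1
  · rw [h, Function.update_of_ne (tg_ne s.1 true).symm, e1,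
      Function.update_of_ne (tg_ne s.1 false).symm, θP_nrm]
    rfl
  · rcases tg_cases s.1 true h with h | h
    · rw [h, Function.update_self, θP_tg, e1,
        Function.update_of_ne (show tg s.1 true ≠ tg s.1 false from tg_ne_not s.1 true)]
    · have h' : j = tg s.1 false := h
      rw [h', Function.update_of_ne (show tg s.1 false ≠ tg s.1 true from tg_ne_not s.1 false), e1,
        Function.update_self, θP_tg]

/-! ### staircases after `Θ` -/

namespace ThP

variable {L : PLev G} {c : K.S → Bool → ℝ} {h0 : ∀ s β, 0 < c s β}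
  {h1 : ∀ s β, c s β ≤ L.c s β} {hΛ : IsOpen Λ} {S₀ : Set K.S} {F : Bool → BFam 3 S₀ Λ}
  {T Θ : Bool → ConHomeo Λ Λ} {A : ℝ} (H : ThP L c h0 h1 hΛ S₀ F T Θ A)

include H

theorem F_K_sub (β : Bool) (b : S₀) : ((F β).hfam.X b).K ⊆ PK G b.1 := fun _ hy =>
  (PLev.mem_bxK.1 ((H.shape β).K_sub b hy)).1

/-- **`T false` and `Θ true` commute** -/
theorem comm (y : V) : (T false).toFun ((Θ true).toFun y) = (Θ true).toFun ((T false).toFun y) := by
  refine IsH.comm (BFam.isH (H.isS false)) (H.isΘ true) (P := fun s : S₀ => PK G s.1)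
    (H.F_K_sub false) (thP_K_sub (β := true)) (PK_disj G S₀) (fun b => ?_) (fun b => ?_)
    (fun b => ?_) y
  · show ((F false).B b).j ≠ tg b.1 true
    rw [(H.shape false).j]
    exact tg_ne_not b.1 false
  · have hp := Geo.p_pos (G := G) b.1
    have hpa := Geo.p_a (G := G) b.1
    have hj : ((F false).hfam.X b).j = tg b.1 false := (H.shape false).j b
    have hal : ((F false).hfam.X b).al = K.slo b.1 (tg b.1 false) + G.a b.1 := (H.shape false).al b
    have hbe : ((F false).hfam.X b).be = K.shi b.1 (tg b.1 false) - G.a b.1 := (H.shape false).be b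
    rw [hj, hal, hbe]
    show (if tg b.1 false = K.nrm b.1 then _ else _) -
        (if tg b.1 false = K.nrm b.1 then _ else _) / 2 ≤ _ ∧
      _ ≤ (if tg b.1 false = K.nrm b.1 then _ else _) +
        (if tg b.1 false = K.nrm b.1 then _ else _) / 2
    rw [if_neg (tg_ne b.1 false), if_neg (tg_ne b.1 false), if_neg (tg_ne b.1 false)]
    constructor <;> linarith
  · have hp := Geo.p_pos (G := G) b.1
    have hpa := Geo.p_a (G := G) b.1
    show ((F false).B b).lo (tg b.1 true) ≤ K.slo b.1 (tg b.1 true) + G.a b.1 ∧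
      K.shi b.1 (tg b.1 true) - G.a b.1 ≤ ((F false).B b).hi (tg b.1 true)
    rw [(H.shape false).lo, (H.shape false).hi]
    show (if tg b.1 true = K.nrm b.1 then _ else _) ≤ _ ∧
      _ ≤ (if tg b.1 true = K.nrm b.1 then _ else _)
    rw [if_neg (tg_ne b.1 true), if_neg (tg_ne b.1 true)]
    constructor <;> linarith

/-- one direction -/
theorem step_eq (β : Bool) (s : S₀) {y : V} (hy : y ∈ PK G s.1) :
    (T β).toFun ((Θ β).toFun y) = Function.update y (tg s.1 β)
      (φΘ (fun s : S₀ => L.bx β s.1) (fun s => lamP L c s.1 β) (fun s => lamP_pos h0 s.1 β)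
        (fun s => lamP_le h1 s.1 β) (F β) s y (y (tg s.1 β))) := by
  have hy1 := theta_mem_PK (H.isΘ β) s hy
  rw [IsH.eq_H (BFam.isH (H.isS β)) (H.F_K_sub β) (PK_disj G S₀) (b := s) hy1,
    IsH.eq_H (H.isΘ β) (thP_K_sub (β := β)) (PK_disj G S₀) (b := s) hy]
  have e1 : ((thP L c h0 h1 hΛ S₀ β).X s).H.toFun y = Function.update y (tg s.1 β)
      (cl (th (L.lvs s.1 β).L (L.c s.1 β) (lamP L c s.1 β))
        (((thP L c h0 h1 hΛ S₀ β).X s).m y) (y (tg s.1 β))) := by
    rw [HX.H_toFun]; rfl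
  rw [e1]
  have hj : ((F β).hfam.X s).j = tg s.1 β := (H.shape β).j s
  have e2 : ∀ z : V, ((F β).hfam.X s).H.toFun z = Function.update z (tg s.1 β)
      (cl ((F β).σ s) (((F β).hfam.X s).m z) (z (tg s.1 β))) := by
    intro z
    rw [HX.H_toFun, vc, hj]; rfl
  rw [e2, Function.update_self, Function.update_idem]
  have e3 : ((F β).hfam.X s).m (Function.update y (tg s.1 β)
      (cl (th (L.lvs s.1 β).L (L.c s.1 β) (lamP L c s.1 β))
        (((thP L c h0 h1 hΛ S₀ β).X s).m y) (y (tg s.1 β)))) = ((F β).hfam.X s).m y := by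
    have := ((F β).hfam.X s).vd.mj y (cl (th (L.lvs s.1 β).L (L.c s.1 β) (lamP L c s.1 β))
        (((thP L c h0 h1 hΛ S₀ β).X s).m y) (y (tg s.1 β)))
    rwa [hj] at this
  rw [e3]
  rfl

theorem step_mem (β : Bool) (s : S₀) {y : V} (hy : y ∈ PK G s.1) :
    (T β).toFun ((Θ β).toFun y) ∈ PK G s.1 :=
  IsH.mem_P (BFam.isH (H.isS β)) (H.F_K_sub β) (PK_disj G S₀) (theta_mem_PK (H.isΘ β) s hy)

/-- **one direction, the tangential coordinate** -/
theorem step_le (β : Bool) (s : S₀) {y y' : V} (hy : y ∈ PK G s.1) (hy' : y' ∈ PK G s.1) :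
    |(T β).toFun ((Θ β).toFun y) (tg s.1 β) - (T β).toFun ((Θ β).toFun y') (tg s.1 β)| ≤
      A * |y (tg s.1 β) - y' (tg s.1 β)| +
        (3 * (F β).D s + L.c s.1 β) * (4 / B.τ s.1) * ‖y - y'‖ := by
  have hτ := B.τ_pos s.1
  have hp := G.τ_p s.1
  have hr : ∀ i, B.τ s.1 / 4 ≤ (L.bx β s.1).r i / 2 := fun i => by
    show B.τ s.1 / 4 ≤ (if i = K.nrm s.1 then B.τ s.1 / 2 else G.p s.1 / 8) / 2
    split_ifs <;> linarith
  have hd : ∀ i, i ≠ (L.bx β s.1).j → |y i - y' i| ≤ ‖y - y'‖ := fun i _ => by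
    have := norm_le_pi_norm (y - y') i
    rwa [Pi.sub_apply, Real.norm_eq_abs] at this
  have hρ : 0 < B.τ s.1 / 4 := by positivity
  have e := @SShape.abs_φ_sub_le 3 S₀ Λ (fun s : S₀ => L.bx β s.1) (fun s => lamP L c s.1 β)
    (fun s => lamP_pos h0 s.1 β) (fun s => lamP_le h1 s.1 β) (F β) (H.shape β) s A H.A2
    (H.slope β s) (B.τ s.1 / 4) ‖y - y'‖ hρ hr y y' hd (norm_nonneg _)
    (y (tg s.1 β)) (y' (tg s.1 β))
  have h2 : ‖y - y'‖ / (B.τ s.1 / 4) = 4 / B.τ s.1 * ‖y - y'‖ := by field_simp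
  rw [h2] at e
  have e2 : |(T β).toFun ((Θ β).toFun y) (tg s.1 β) - (T β).toFun ((Θ β).toFun y') (tg s.1 β)| ≤
      A * |y (tg s.1 β) - y' (tg s.1 β)| +
        (3 * (F β).D s + L.c s.1 β) * (4 / B.τ s.1 * ‖y - y'‖) := by
    rw [H.step_eq β s hy, H.step_eq β s hy', Function.update_self, Function.update_self]
    exact e
  rwa [← mul_assoc] at e2

theorem step_ne (β : Bool) (s : S₀) {y : V} (hy : y ∈ PK G s.1) {i : Fin 3} (hi : i ≠ tg s.1 β) :
    (T β).toFun ((Θ β).toFun y) i = y i := by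
  rw [H.step_eq β s hy, Function.update_of_ne hi]

/-- one direction, all coordinates -/
theorem step_norm_le (β : Bool) (s : S₀) {ε : ℝ}
    (hε : (3 * (F β).D s + L.c s.1 β) * (4 / B.τ s.1) ≤ ε) {y y' : V} (hy : y ∈ PK G s.1)
    (hy' : y' ∈ PK G s.1) :
    ‖(T β).toFun ((Θ β).toFun y) - (T β).toFun ((Θ β).toFun y')‖ ≤ (A + ε) * ‖y - y'‖ := by
  have hA := H.A2
  have hτ := B.τ_pos s.1
  have hc := (L.lvs s.1 β).c0
  have hD := (F β).D0 s
  have hN := norm_nonneg (y - y')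
  have hε0 : 0 ≤ ε := le_trans (by positivity) hε
  have hle : ∀ i, |y i - y' i| ≤ ‖y - y'‖ := fun i => by
    have := norm_le_pi_norm (y - y') i
    rwa [Pi.sub_apply, Real.norm_eq_abs] at this
  rw [pi_norm_le_iff_of_nonneg (by positivity)]
  intro i
  rw [Pi.sub_apply, Real.norm_eq_abs]
  by_cases hi : i = tg s.1 β
  · subst hi
    refine (H.step_le β s hy hy').trans ?_
    have h2 : A * |y (tg s.1 β) - y' (tg s.1 β)| ≤ A * ‖y - y'‖ :=
      mul_le_mul_of_nonneg_left (hle _) (by linarith)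
    have h3 := mul_le_mul_of_nonneg_right hε hN
    linarith
  · rw [H.step_ne β s hy hi, H.step_ne β s hy' hi]
    have h2 := hle i
    have h3 : 1 * ‖y - y'‖ ≤ (A + ε) * ‖y - y'‖ :=
      mul_le_mul_of_nonneg_right (by linarith) hN
    linarith

/-- **the composition** -/
theorem map_eq (y : V) : (T true).toFun ((T false).toFun ((Θ true).toFun ((Θ false).toFun y))) =
    (T true).toFun ((Θ true).toFun ((T false).toFun ((Θ false).toFun y))) := by
  rw [H.comm]

theorem map_mem (s : S₀) {y : V} (hy : y ∈ PK G s.1) :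
    (T true).toFun ((T false).toFun ((Θ true).toFun ((Θ false).toFun y))) ∈ PK G s.1 := by
  rw [H.map_eq]
  exact H.step_mem true s (H.step_mem false s hy)

theorem map_off {y : V} (hy : ∀ s ∈ S₀, y ∉ PK G s) :
    (T true).toFun ((T false).toFun ((Θ true).toFun ((Θ false).toFun y))) = y := by
  have h2 : ∀ β, (T β).toFun y = y := fun β =>
    IsH.off_P (P := fun s : S₀ => PK G s.1) (BFam.isH (H.isS β)) (H.F_K_sub β)
      fun b => hy b.1 b.2
  rw [theta_off (H.isΘ false) hy, theta_off (H.isΘ true) hy, h2, h2]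

/-- the normal coordinate -/
theorem map_nrm (s : S₀) {y : V} (hy : y ∈ PK G s.1) :
    (T true).toFun ((T false).toFun ((Θ true).toFun ((Θ false).toFun y))) (K.nrm s.1) =
      y (K.nrm s.1) := by
  rw [H.map_eq, H.step_ne true s (H.step_mem false s hy) (tg_ne s.1 true).symm,
    H.step_ne false s hy (tg_ne s.1 false).symm]

/-- **the tangential coordinates** -/
theorem map_tg_le (s : S₀) {ε : ℝ}
    (hε : ∀ β, (3 * (F β).D s + L.c s.1 β) * (4 / B.τ s.1) ≤ ε) {y y' : V} (hy : y ∈ PK G s.1)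
    (hy' : y' ∈ PK G s.1) (β : Bool) :
    |(T true).toFun ((T false).toFun ((Θ true).toFun ((Θ false).toFun y))) (tg s.1 β) -
      (T true).toFun ((T false).toFun ((Θ true).toFun ((Θ false).toFun y'))) (tg s.1 β)| ≤
      A * |y (tg s.1 β) - y' (tg s.1 β)| + ε * (A + ε) * ‖y - y'‖ := by
  have hA := H.A2
  have hτ := B.τ_pos s.1
  have hc := (L.lvs s.1 false).c0
  have hD := (F false).D0 s
  have hN := norm_nonneg (y - y')
  have hε0 : 0 ≤ ε := le_trans (by positivity) (hε false)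
  have m := H.step_mem false s hy
  have m' := H.step_mem false s hy'
  rw [H.map_eq, H.map_eq]
  cases β with
  | false =>
    rw [H.step_ne true s m (show tg s.1 false ≠ tg s.1 true from tg_ne_not s.1 false),
      H.step_ne true s m' (show tg s.1 false ≠ tg s.1 true from tg_ne_not s.1 false)]
    refine (H.step_le false s hy hy').trans ?_
    have h3 := mul_le_mul_of_nonneg_right (hε false) hN
    have h4 : ε * ‖y - y'‖ ≤ ε * (A + ε) * ‖y - y'‖ := by
      refine mul_le_mul_of_nonneg_right ?_ hN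
      nlinarith
    linarith
  | true =>
    refine (H.step_le true s m m').trans ?_
    rw [H.step_ne false s hy (show tg s.1 true ≠ tg s.1 false from tg_ne_not s.1 true),
      H.step_ne false s hy' (show tg s.1 true ≠ tg s.1 false from tg_ne_not s.1 true)]
    have h3 := H.step_norm_le false s (hε false) hy hy'
    have h4 := mul_le_mul_of_nonneg_right (hε true)
      (norm_nonneg ((T false).toFun ((Θ false).toFun y) - (T false).toFun ((Θ false).toFun y')))
    have h5 := mul_le_mul_of_nonneg_left h3 hε0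
    have h6 : ε * ((A + ε) * ‖y - y'‖) = ε * (A + ε) * ‖y - y'‖ := by ring
    linarith

/-- **Lipschitz in the support of one plate** -/
theorem map_le (s : S₀) {ε : ℝ}
    (hε : ∀ β, (3 * (F β).D s + L.c s.1 β) * (4 / B.τ s.1) ≤ ε) {y y' : V} (hy : y ∈ PK G s.1)
    (hy' : y' ∈ PK G s.1) :
    ‖(T true).toFun ((T false).toFun ((Θ true).toFun ((Θ false).toFun y))) -
      (T true).toFun ((T false).toFun ((Θ true).toFun ((Θ false).toFun y')))‖ ≤
      (A + ε * (A + ε)) * ‖y - y'‖ := by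
  have hA := H.A2
  have hτ := B.τ_pos s.1
  have hc := (L.lvs s.1 false).c0
  have hD := (F false).D0 s
  have hN := norm_nonneg (y - y')
  have hε0 : 0 ≤ ε := le_trans (by positivity) (hε false)
  have hle : ∀ i, |y i - y' i| ≤ ‖y - y'‖ := fun i => by
    have := norm_le_pi_norm (y - y') i
    rwa [Pi.sub_apply, Real.norm_eq_abs] at this
  rw [pi_norm_le_iff_of_nonneg (by positivity)]
  intro i
  rw [Pi.sub_apply, Real.norm_eq_abs]
  by_cases hi : i = K.nrm s.1
  · subst hi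
    rw [H.map_nrm s hy, H.map_nrm s hy']
    have h2 := hle (K.nrm s.1)
    have h3 : 1 * ‖y - y'‖ ≤ (A + ε * (A + ε)) * ‖y - y'‖ :=
      mul_le_mul_of_nonneg_right (by nlinarith) hN
    linarith
  · obtain ⟨β, rfl⟩ : ∃ β, i = tg s.1 β := ⟨bt s.1 i, (tg_bt s.1 hi).symm⟩
    refine (H.map_tg_le s hε hy hy' β).trans ?_
    have h2 : A * |y (tg s.1 β) - y' (tg s.1 β)| ≤ A * ‖y - y'‖ :=
      mul_le_mul_of_nonneg_left (hle _) (by linarith)
    linarith

omit H in
theorem map_cont : ContinuousOn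
    (fun y => (T true).toFun ((T false).toFun ((Θ true).toFun ((Θ false).toFun y)))) Λ :=
  (T true).cont.comp ((T false).cont.comp ((Θ true).cont.comp (Θ false).cont (Θ false).mapsTo)
    ((Θ true).mapsTo.comp (Θ false).mapsTo)) ((T false).mapsTo.comp ((Θ true).mapsTo.comp
    (Θ false).mapsTo))

/-- **locally Lipschitz everywhere** -/
theorem map_local {ε : ℝ}
    (hε : ∀ (s : S₀) β, (3 * (F β).D s + L.c s.1 β) * (4 / B.τ s.1) ≤ ε) (hε0 : 0 ≤ ε) {y : V}
    (hy : y ∈ Λ) : ∀ᶠ y' in 𝓝 y,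
    ‖(T true).toFun ((T false).toFun ((Θ true).toFun ((Θ false).toFun y'))) -
      (T true).toFun ((T false).toFun ((Θ true).toFun ((Θ false).toFun y)))‖ ≤
      (A + ε * (A + ε)) * ‖y' - y‖ := by
  have hA := H.A2
  exact local_lip_glue (P := fun s : S₀ => PK G s.1) (fun s => isClosed_PK G s.1) hΛ map_cont
    (by nlinarith) (lf_PK_sub G S₀) (fun s z hz z' hz' => H.map_le s (hε s) hz' hz)
    (fun z hz => H.map_off fun s hs => hz ⟨s, hs⟩) hy

/-- **Lipschitz on convex sets** -/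
theorem map_convex {ε : ℝ}
    (hε : ∀ (s : S₀) β, (3 * (F β).D s + L.c s.1 β) * (4 / B.τ s.1) ≤ ε) (hε0 : 0 ≤ ε)
    {C : Set V} (hC : Convex ℝ C) (hCΛ : C ⊆ Λ) {y y' : V} (hy : y ∈ C) (hy' : y' ∈ C) :
    ‖(T true).toFun ((T false).toFun ((Θ true).toFun ((Θ false).toFun y))) -
      (T true).toFun ((T false).toFun ((Θ true).toFun ((Θ false).toFun y')))‖ ≤
      (A + ε * (A + ε)) * ‖y - y'‖ :=
  P073.H142.lip_of_local hC (fun _ hx => (H.map_local hε hε0 (hCΛ hx)).filter_mono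
    nhdsWithin_le_nhds) y hy y' hy'

/-- **[PROT-P]** on a set with convex image -/
theorem prot {ε : ℝ}
    (hε : ∀ (s : S₀) β, (3 * (F β).D s + L.c s.1 β) * (4 / B.τ s.1) ≤ ε) (hε0 : 0 ≤ ε)
    {g : ConHomeo Ω Λ} {X : Set V} (hX : X ⊆ Ω) (hC : Convex ℝ (g.toFun '' X)) {x x' : V}
    (hx : x ∈ X) (hx' : x' ∈ X) :
    ‖(T true).toFun ((T false).toFun ((Θ true).toFun ((Θ false).toFun (g.toFun x)))) -
      (T true).toFun ((T false).toFun ((Θ true).toFun ((Θ false).toFun (g.toFun x'))))‖ ≤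
      (A + ε * (A + ε)) * ‖g.toFun x - g.toFun x'‖ :=
  H.map_convex hε hε0 hC (by rintro _ ⟨z, hz, rfl⟩; exact g.mapsTo (hX hz)) ⟨x, hx, rfl⟩
    ⟨x', hx', rfl⟩

end ThP

end P073.H196
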