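import Vale.Agent.P073.H196.Croft1

/-!
# P073, block A14.6 [CROFT], the one-dimensional part: uniform cells, levels, slivers

Cut `[lo, hi]` into cells of length `δ`, throw away the cells which meet one of the intervals
`T` (slivers), and choose in each of the others a level `a k ∈ θ + ℚ` close to the midpoint.
-/

open Set Metric Topology

namespace P073.Croft

/-- Cells `[x k, x k + δ]`, `k < n`, of the grid `lo + ℕ δ` in `[lo, hi]`, disjoint from the
slivers, with levels `a k` close to the midpoints; target cells `[lo + k δ, lo + (k + 1) δ]`. -/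
structure Cells (lo hi θ δ η : ℝ) (T : Finset (ℝ × ℝ)) (n : ℕ) (x a : ℕ → ℝ) : Prop where
  /-- cells of the grid -/
  grid : ∀ k, ∃ j : ℕ, x k = lo + j * δ
  /-- ordered, with disjoint interiors -/
  succ : ∀ k, k + 1 < n → x k + δ ≤ x (k + 1)
  ge : ∀ k < n, lo ≤ x k
  le : ∀ k < n, x k + δ ≤ hi
  /-- the cells do not meet the interiors of the slivers -/
  sliver : ∀ k < n, ∀ p ∈ T, x k + δ ≤ p.1 ∨ p.2 ≤ x k
  mid : ∀ k, |a k - (x k + δ / 2)| < η * δ
  rat : ∀ k, ∃ r : ℚ, a k = θ + r
  /-- displacement to the right with respect to the uniform target cell -/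
  disp_nonneg : ∀ k < n, lo + k * δ ≤ x k
  disp_le : ∀ k < n, x k ≤ lo + k * δ + (∑ p ∈ T, (p.2 - p.1) + 2 * T.card * δ)
  num_le : n * δ ≤ hi - lo
  le_num : hi - lo ≤ n * δ + (∑ p ∈ T, (p.2 - p.1) + (2 * T.card + 1) * δ)

theorem exists_cells {lo hi δ η : ℝ} (θ : ℝ) (hlh : lo ≤ hi) (hδ : 0 < δ) (hη : 0 < η)
    (T : Finset (ℝ × ℝ)) (hT : ∀ p ∈ T, p.1 ≤ p.2) :
    ∃ (n : ℕ) (x a : ℕ → ℝ), Cells lo hi θ δ η T n x a := by
  classical
  set N : ℕ := ⌊(hi - lo) / δ⌋₊ with hN
  set p : ℕ → Prop := fun j => j < N ∧ ∀ q ∈ T, lo + (j + 1) * δ ≤ q.1 ∨ q.2 ≤ lo + j * δ with hp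
  have hpf : (Set.ofPred p).Finite := (Set.finite_lt_nat N).subset fun j hj => hj.1
  set n : ℕ := hpf.toFinset.card with hn
  -- the number of bad cells
  have hbad : ∀ m : ℕ, m ≤ N → (m : ℝ) * δ ≤ Nat.count p m * δ +
      (∑ q ∈ T, (q.2 - q.1) + 2 * T.card * δ) := by
    intro m hm
    have h1 : (m : ℝ) = Nat.count p m + ((Finset.range m).filter (fun j => ¬ p j)).card := by
      rw [Nat.count_eq_card_filter_range]
      have := Finset.card_filter_add_card_filter_not (s := Finset.range m) (p := p)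
      rw [Finset.card_range] at this
      exact_mod_cast this.symm
    have h2 : (Finset.range m).filter (fun j => ¬ p j) ⊆ T.biUnion fun q =>
        (Finset.range m).filter (fun j => q.1 < lo + (j + 1) * δ ∧ lo + j * δ < q.2) := by
      intro j hj
      rw [Finset.mem_filter, Finset.mem_range] at hj
      have h3 : ¬ ∀ q ∈ T, lo + (j + 1) * δ ≤ q.1 ∨ q.2 ≤ lo + j * δ := fun h =>
        hj.2 ⟨hj.1.trans_le hm, h⟩
      push Not at h3
      obtain ⟨q, hq, h3⟩ := h3
      rw [Finset.mem_biUnion]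
      exact ⟨q, hq, Finset.mem_filter.2 ⟨Finset.mem_range.2 hj.1, h3⟩⟩
    have h3 : ∀ q ∈ T, ((((Finset.range m).filter
        (fun j : ℕ => q.1 < lo + (j + 1) * δ ∧ lo + j * δ < q.2)).card : ℕ) : ℝ) * δ ≤
        (q.2 - q.1) + 2 * δ := by
      intro q hq
      set A := (Finset.range m).filter
        (fun j : ℕ => q.1 < lo + (j + 1) * δ ∧ lo + j * δ < q.2) with hA
      have hinj : InjOn (fun j : ℕ => lo + j * δ) (A : Set ℕ) := by
        intro i _ j _ hij
        have : (i : ℝ) * δ = j * δ := by simpa using hij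
        exact_mod_cast mul_right_cancel₀ hδ.ne' this
      have hc := card_sep_fin (S := (fun j : ℕ => lo + j * δ) '' (A : Set ℕ)) (a := q.1 - δ)
        (b := q.2) hδ (by linarith [hT q hq]) (by
          rintro _ ⟨j, hj, rfl⟩
          rw [Finset.mem_coe, hA, Finset.mem_filter] at hj
          constructor
          · have := hj.2.1; simp only; linarith
          · exact hj.2.2.le) (by
          rintro _ ⟨i, -, rfl⟩ _ ⟨j, -, rfl⟩ hij
          simp only at hij ⊢
          have h4 : (i : ℝ) < j := by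
            by_contra hh
            push Not at hh
            have := mul_le_mul_of_nonneg_right hh hδ.le
            linarith
          have h5 : (i : ℝ) + 1 ≤ j := by exact_mod_cast (show i < j by exact_mod_cast h4)
          nlinarith)
      have := hc.2
      rw [hinj.ncard_image, ncard_coe_finset] at this
      linarith
    have h4 : (((Finset.range m).filter (fun j => ¬ p j)).card : ℝ) * δ ≤
        ∑ q ∈ T, (q.2 - q.1) + 2 * T.card * δ := by
      calc (((Finset.range m).filter (fun j => ¬ p j)).card : ℝ) * δ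
          ≤ (∑ q ∈ T, (((Finset.range m).filter
              (fun j : ℕ => q.1 < lo + (j + 1) * δ ∧ lo + j * δ < q.2)).card : ℝ)) * δ := by
            gcongr
            have := (Finset.card_le_card h2).trans Finset.card_biUnion_le
            exact_mod_cast this
        _ = ∑ q ∈ T, (((Finset.range m).filter
              (fun j : ℕ => q.1 < lo + (j + 1) * δ ∧ lo + j * δ < q.2)).card : ℝ) * δ := by
            rw [Finset.sum_mul]
        _ ≤ ∑ q ∈ T, ((q.2 - q.1) + 2 * δ) := Finset.sum_le_sum h3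
        _ = ∑ q ∈ T, (q.2 - q.1) + 2 * T.card * δ := by
            rw [Finset.sum_add_distrib, Finset.sum_const, nsmul_eq_mul]; ring
    rw [h1, add_mul]
    linarith
  have hcN : Nat.count p N = n := by
    rw [Nat.count_eq_card_filter_range, hn]
    congr 1
    ext j
    rw [Finset.mem_filter, Finset.mem_range, Finite.mem_toFinset]
    exact ⟨fun h => h.2, fun h => ⟨h.1, h⟩⟩
  set y : ℕ → ℕ := Nat.nth p with hy
  have hlt : ∀ k < n, ∀ hf : (Set.ofPred p).Finite, k < hf.toFinset.card := by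
    intro k hk hf; exact hk
  have hmem : ∀ k < n, p (y k) := fun k hk => Nat.nth_mem k (hlt k hk)
  have hcount : ∀ k < n, Nat.count p (y k) = k := fun k hk => Nat.count_nth (hlt k hk)
  have hNle : (N : ℝ) * δ ≤ hi - lo := by
    have := Nat.floor_le (show 0 ≤ (hi - lo) / δ from div_nonneg (by linarith) hδ.le)
    rw [← hN] at this
    calc (N : ℝ) * δ ≤ (hi - lo) / δ * δ := by gcongr
      _ = hi - lo := by field_simp
  have hNge : hi - lo ≤ (N + 1) * δ := by
    have := (Nat.lt_floor_add_one ((hi - lo) / δ)).le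
    rw [← hN] at this
    calc hi - lo = (hi - lo) / δ * δ := by field_simp
      _ ≤ (N + 1) * δ := by gcongr
  -- levels
  have hlev : ∀ k : ℕ, ∃ r : ℚ, |(θ + r) - (lo + y k * δ + δ / 2)| < η * δ := by
    intro k
    obtain ⟨r, hr1, hr2⟩ := exists_rat_btwn (show lo + y k * δ + δ / 2 - θ - η * δ <
      lo + y k * δ + δ / 2 - θ + η * δ by nlinarith [mul_pos hη hδ])
    refine ⟨r, ?_⟩
    rw [abs_lt]
    constructor <;> linarith
  choose r hr using hlev
  refine ⟨n, fun k => lo + y k * δ, fun k => θ + r k, ?_⟩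
  refine ⟨fun k => ⟨y k, rfl⟩, ?_, ?_, ?_, ?_, hr, fun k => ⟨r k, rfl⟩, ?_, ?_, ?_, ?_⟩
  · intro k hk
    have h1 : y k < y (k + 1) := Nat.nth_lt_nth' (Nat.lt_succ_self k) (hlt _ hk)
    have h2 : (y k : ℝ) + 1 ≤ y (k + 1) := by exact_mod_cast h1
    nlinarith
  · intro k _
    have : 0 ≤ (y k : ℝ) * δ := by positivity
    linarith
  · intro k hk
    have h1 : (y k : ℝ) + 1 ≤ N := by exact_mod_cast (hmem k hk).1
    nlinarith
  · intro k hk q hq
    rcases (hmem k hk).2 q hq with h | h
    · left; linarith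
    · right; exact h
  · intro k hk
    have h1 : k ≤ y k := by
      have := Nat.count_le (p := p) (n := y k)
      rwa [hcount k hk] at this
    have : (k : ℝ) ≤ y k := by exact_mod_cast h1
    nlinarith
  · intro k hk
    have := hbad (y k) (hmem k hk).1.le
    rw [hcount k hk] at this
    linarith
  · have h1 : (n : ℝ) ≤ N := by
      rw [← hcN]; exact_mod_cast Nat.count_le (p := p) (n := N)
    nlinarith
  · have := hbad N le_rfl
    rw [hcN] at this
    linarith

variable {lo hi θ δ η : ℝ} {T : Finset (ℝ × ℝ)} {n : ℕ} {x a : ℕ → ℝ}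

/-- the set of levels -/
def levs (n : ℕ) (a : ℕ → ℝ) : Set ℝ := {t | ∃ k < n, t = a k}

theorem finite_levs (n : ℕ) (a : ℕ → ℝ) : (levs n a).Finite :=
  ((Set.finite_lt_nat n).image a).subset fun _ ⟨k, hk, h⟩ => ⟨k, hk, h.symm⟩

theorem Cells.add_le (H : Cells lo hi θ δ η T n x a) (hδ : 0 < δ) {k l : ℕ} (hkl : k < l)
    (hl : l < n) : x k + δ ≤ x l := by
  induction l, hkl using Nat.le_induction with
  | base => exact H.succ k hl
  | succ l hkl ih =>
    have := H.succ l hl
    have := ih (by omega)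
    linarith

theorem Cells.lt_a (H : Cells lo hi θ δ η T n x a) (hδ : 0 < δ) (hη : η ≤ 1 / 4) (k : ℕ) :
    x k + δ / 4 < a k ∧ a k < x k + 3 / 4 * δ := by
  have h1 := abs_lt.1 (H.mid k)
  have h2 : η * δ ≤ 1 / 4 * δ := by gcongr
  constructor <;> linarith [h1.1, h1.2]

theorem Cells.sep (H : Cells lo hi θ δ η T n x a) (hδ : 0 < δ) {k l : ℕ}
    (hkl : k < l) (hl : l < n) : (1 - 2 * η) * δ ≤ a l - a k := by
  have h0 := H.add_le hδ hkl hl
  have h1 := abs_lt.1 (H.mid k)
  have h2 := abs_lt.1 (H.mid l)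
  linarith [h1.1, h1.2, h2.1, h2.2]

theorem Cells.sepL (H : Cells lo hi θ δ η T n x a) (hδ : 0 < δ) (hη : η ≤ 1 / 4) :
    SepL ((1 - 2 * η) * δ) (levs n a) := by
  rintro _ ⟨k, hk, rfl⟩ _ ⟨l, hl, rfl⟩ hlt
  rcases lt_trichotomy k l with h | h | h
  · exact H.sep hδ h hl
  · subst h; exact absurd hlt (lt_irrefl _)
  · have := H.sep hδ h hk
    have h3 : 0 < (1 - 2 * η) * δ := mul_pos (by linarith) hδ
    linarith

/-- without slivers the cells are the target cells -/
theorem Cells.eq_of_empty (H : Cells lo hi θ δ η ∅ n x a) {k : ℕ} (hk : k < n) :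
    x k = lo + k * δ := by
  have h1 := H.disp_nonneg k hk
  have h2 := H.disp_le k hk
  simp at h2
  linarith

end P073.Croft
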