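import Vale.Agent.P073.H196.PFix
import Vale.Agent.P073.H236.HFam
import Vale.Agent.P073.H345.QT
import Vale.Agent.P073.H936.K3In

/-!
# P073, H196, (T7) [THETA]: sets which are invariant under moves inside cells

`MvInv A j C R`: the set `A` is invariant under moving the coordinate `j` inside `C`, at points of
`R`. Then every map which moves points vertically, inside the cells, preserves `A`: the glued maps
`IsH` of H236, the insertion maps `IsQ`, `kap` of H345. So the preimage of `h (F)` under the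
insertion map is `h (F)`, and `Θ ∘ h` is a homeomorphism of `F` onto it.
-/

open Set Metric Topology Filter

namespace P073.H196

open P073 P073.H236

variable {n : ℕ}

/-- `A` is invariant under moving the coordinate `j` inside `C`, at points of `R` -/
def MvInv (A : Set (Fin n → ℝ)) (j : Fin n) (C : Set ℝ) (R : Set (Fin n → ℝ)) : Prop :=
  ∀ y ∈ R, y j ∈ C → ∀ t ∈ C, (Function.update y j t ∈ A ↔ y ∈ A)

theorem MvInv.mono {A : Set (Fin n → ℝ)} {j : Fin n} {C C' : Set ℝ} {R R' : Set (Fin n → ℝ)}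
    (h : MvInv A j C R) (hC : C' ⊆ C) (hR : R' ⊆ R) : MvInv A j C' R' :=
  fun y hy hyj t ht => h y (hR hy) (hC hyj) t (hC ht)

theorem MvInv.inter {A B : Set (Fin n → ℝ)} {j : Fin n} {C : Set ℝ} {R : Set (Fin n → ℝ)}
    (h : MvInv A j C R) (h' : MvInv B j C R) : MvInv (A ∩ B) j C R :=
  fun y hy hyj t ht => and_congr (h y hy hyj t ht) (h' y hy hyj t ht)

theorem MvInv.union {A B : Set (Fin n → ℝ)} {j : Fin n} {C : Set ℝ} {R : Set (Fin n → ℝ)}
    (h : MvInv A j C R) (h' : MvInv B j C R) : MvInv (A ∪ B) j C R :=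
  fun y hy hyj t ht => or_congr (h y hy hyj t ht) (h' y hy hyj t ht)

/-- rectangles whose ends are not in the cell -/
theorem mvInv_icc {lo hi : Fin n → ℝ} {j : Fin n} {C : Set ℝ} (hC : C.OrdConnected)
    (h1 : lo j ∉ C) (h2 : hi j ∉ C) (R : Set (Fin n → ℝ)) : MvInv (Icc lo hi) j C R := by
  intro y _ hyj t ht
  have key : (lo j ≤ t ∧ t ≤ hi j) ↔ (lo j ≤ y j ∧ y j ≤ hi j) := by
    have e : ∀ v, v ∉ C → (v ≤ t ↔ v ≤ y j) ∧ (t ≤ v ↔ y j ≤ v) := by
      intro v hv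
      have a1 : v < t ∨ t < v := lt_or_gt_of_ne (fun h => hv (h ▸ ht))
      have a2 : v < y j ∨ y j < v := lt_or_gt_of_ne (fun h => hv (h ▸ hyj))
      rcases a1 with a1 | a1 <;> rcases a2 with a2 | a2
      · exact ⟨⟨fun _ => a2.le, fun _ => a1.le⟩, ⟨fun h => absurd h (not_le.2 a1),
          fun h => absurd h (not_le.2 a2)⟩⟩
      · exact absurd (hC.out hyj ht ⟨a2.le, a1.le⟩) hv
      · exact absurd (hC.out ht hyj ⟨a1.le, a2.le⟩) hv
      · exact ⟨⟨fun h => absurd h (not_le.2 a1), fun h => absurd h (not_le.2 a2)⟩,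
          ⟨fun _ => a2.le, fun _ => a1.le⟩⟩
    exact and_congr (e _ h1).1 (e _ h2).2
  simp only [mem_Icc, Pi.le_def]
  constructor
  · rintro ⟨a1, a2⟩
    have b1 := a1 j
    have b2 := a2 j
    rw [Function.update_self] at b1 b2
    obtain ⟨c1, c2⟩ := key.1 ⟨b1, b2⟩
    refine ⟨fun i => ?_, fun i => ?_⟩
    · by_cases hi' : i = j
      · subst hi'; exact c1
      · have := a1 i; rwa [Function.update_of_ne hi'] at this
    · by_cases hi' : i = j
      · subst hi'; exact c2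
      · have := a2 i; rwa [Function.update_of_ne hi'] at this
  · rintro ⟨a1, a2⟩
    obtain ⟨c1, c2⟩ := key.2 ⟨a1 j, a2 j⟩
    refine ⟨fun i => ?_, fun i => ?_⟩
    · by_cases hi' : i = j
      · subst hi'; rwa [Function.update_self]
      · rw [Function.update_of_ne hi']; exact a1 i
    · by_cases hi' : i = j
      · subst hi'; rwa [Function.update_self]
      · rw [Function.update_of_ne hi']; exact a2 i

/-- one step of a vertical map -/
theorem update_mem_iff {A : Set (Fin n → ℝ)} {j : Fin n} {y : Fin n → ℝ} {s : ℝ}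
    (h : s = y j ∨ ∃ C : Set ℝ, y j ∈ C ∧ s ∈ C ∧ MvInv A j C {y}) :
    Function.update y j s ∈ A ↔ y ∈ A := by
  rcases h with h | ⟨C, h1, h2, h3⟩
  · rw [h, Function.update_eq_self]
  · exact h3 y rfl h1 s h2

/-- a vertical clip map, `k` maps the cells to themselves and is the identity off the cells -/
theorem vc_mem_iff {A : Set (Fin n → ℝ)} {j : Fin n} {k : ℝ → ℝ} {m : (Fin n → ℝ) → ℝ}
    {y : Fin n → ℝ} (hm : 0 ≤ m y)
    (h : k (y j) = y j ∨ ∃ C : Set ℝ, C.OrdConnected ∧ y j ∈ C ∧ k (y j) ∈ C ∧ MvInv A j C {y}) :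
    vc j k m y ∈ A ↔ y ∈ A := by
  refine update_mem_iff ?_
  rcases h with h | ⟨C, h0, h1, h2, h3⟩
  · left; exact cl_fix hm h
  · right
    refine ⟨C, h1, ?_, h3⟩
    have := cl_mem_uIcc (k := k) (t := y j) hm
    exact h0.uIcc_subset h1 h2 this

/-- the glued map of a family preserves `A` -/
theorem IsH.mem_iff_of {ι : Type*} {Λ : Set (Fin n → ℝ)} {F : HFam n ι Λ} {S : ConHomeo Λ Λ}
    (hS : F.IsH S) {A : Set (Fin n → ℝ)} {y : Fin n → ℝ}
    (h : ∀ b, y ∈ (F.X b).K → (F.X b).k (y (F.X b).j) = y (F.X b).j ∨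
      ∃ C : Set ℝ, C.OrdConnected ∧ y (F.X b).j ∈ C ∧ (F.X b).k (y (F.X b).j) ∈ C ∧
        MvInv A (F.X b).j C {y}) : S.toFun y ∈ A ↔ y ∈ A := by
  rcases hS.cases y with ⟨b, hb, hSy⟩ | ⟨-, hSy⟩
  · rw [hSy, (F.X b).H_toFun]
    exact vc_mem_iff ((F.X b).vd.m0 y) (h b hb)
  · rw [hSy]

/-- `qm` maps every cell to itself -/
theorem qm_mem_cell {L : Finset ℝ} {c : ℝ} (hc : 0 ≤ c) (hs : Sepd L c) {b : ℝ} (hb : b ∈ L)
    {t : ℝ} (ht : t ∈ Icc (b - 2 * c) (b + 2 * c)) : qm L c t ∈ Icc (b - 2 * c) (b + 2 * c) := by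
  have h1 := qm_monotone hc hs ht.1
  have h2 := qm_monotone hc hs ht.2
  have off : ∀ s, |s - b| = 2 * c → qm L c s = s := by
    intro s hsb
    refine qm_off hc fun b' hb' => ?_
    by_cases hbb : b' = b
    · rw [hbb, hsb]
    · -- other levels are at distance at least `4 c`
      rcases lt_or_gt_of_ne hbb with h3 | h3
      · have := hs b' hb' b hb h3
        obtain ⟨a1, a2⟩ := abs_le.1 hsb.le
        exact le_abs.2 (Or.inl (by linarith))
      · have := hs b hb b' hb' h3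
        obtain ⟨a1, a2⟩ := abs_le.1 hsb.le
        exact le_abs.2 (Or.inr (by linarith))
  rw [off (b - 2 * c) (by rw [show b - 2 * c - b = -(2 * c) by ring, abs_neg,
    abs_of_nonneg (by linarith)])] at h1
  rw [off (b + 2 * c) (by rw [show b + 2 * c - b = 2 * c by ring, abs_of_nonneg (by linarith)])]
    at h2
  exact ⟨h1, h2⟩

/-- either `qm` does not move `t`, or `t` is in a cell -/
theorem qm_eq_or_cell {L : Finset ℝ} {c : ℝ} (hc : 0 ≤ c) (t : ℝ) :
    qm L c t = t ∨ ∃ b ∈ L, t ∈ Icc (b - 2 * c) (b + 2 * c) := by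
  by_cases h : ∃ b ∈ L, |t - b| ≤ 2 * c
  · obtain ⟨b, hb, h⟩ := h
    obtain ⟨a1, a2⟩ := abs_le.1 h
    exact Or.inr ⟨b, hb, by linarith, by linarith⟩
  · push Not at h
    exact Or.inl (qm_off hc fun b hb => (h b hb).le)

/-- `th` maps every cell to itself -/
theorem th_mem_cell {L : Finset ℝ} {c lam : ℝ} (hc : 0 ≤ c) (hs : Sepd L c) (h0 : 0 ≤ lam)
    (h1 : lam ≤ 1) {b : ℝ} (hb : b ∈ L) {t : ℝ} (ht : t ∈ Icc (b - 2 * c) (b + 2 * c)) :
    th L c lam t ∈ Icc (b - 2 * c) (b + 2 * c) := by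
  have h2 := qm_mem_cell hc hs hb ht
  have h3 : (0:ℝ) ≤ 1 - lam := by linarith
  unfold th
  constructor
  · have e1 := mul_le_mul_of_nonneg_left ht.1 h0
    have e2 := mul_le_mul_of_nonneg_left h2.1 h3
    linarith
  · have e1 := mul_le_mul_of_nonneg_left ht.2 h0
    have e2 := mul_le_mul_of_nonneg_left h2.2 h3
    linarith

theorem th_eq_or_cell {L : Finset ℝ} {c lam : ℝ} (hc : 0 ≤ c) (t : ℝ) :
    th L c lam t = t ∨ ∃ b ∈ L, t ∈ Icc (b - 2 * c) (b + 2 * c) := by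
  rcases qm_eq_or_cell (L := L) hc t with h | h
  · left; unfold th; rw [h]; ring
  · exact Or.inr h

/-- the insertion map of a family of boxes preserves `A` -/
theorem IsQ.mem_iff_of {γ : Type*} {B : γ → BX 3} {κ : (Fin 3 → ℝ) → Fin 3 → ℝ}
    (hκ : H345.IsQ B κ) {A : Set (Fin 3 → ℝ)} {y : Fin 3 → ℝ}
    (h : ∀ g, y ∈ (B g).K → ∀ b ∈ (B g).lvs.L, |y (B g).j - b| ≤ 2 * (B g).c →
      MvInv A (B g).j (Icc (b - 2 * (B g).c) (b + 2 * (B g).c)) {y}) : κ y ∈ A ↔ y ∈ A := by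
  by_cases h1 : ∃ g, y ∈ (B g).K
  · obtain ⟨g, hg⟩ := h1
    rw [hκ.on g y hg]
    have hc := (B g).lvs.c0.le
    have hs := (B g).lvs.sepd
    refine vc_mem_iff (H345.mu_nonneg (B g) y) ?_
    rcases qm_eq_or_cell (L := (B g).lvs.L) hc (y (B g).j) with h2 | ⟨b, hb, h2⟩
    · exact Or.inl h2
    · right
      exact ⟨_, ordConnected_Icc, h2, qm_mem_cell hc hs hb h2,
        h g hg b hb (by rw [abs_le]; constructor <;> linarith [h2.1, h2.2])⟩
  · push Not at h1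
    rw [hκ.off y h1]

/-- the insertion map of one level of variable thickness preserves `A` -/
theorem kap_mem_iff_of {i : Fin n} {b η : ℝ} {μ : (Fin n → ℝ) → ℝ} {A : Set (Fin n → ℝ)}
    {y : Fin n → ℝ} (hη : 0 < η) (h : μ y ≠ 0 → |y i - b| < η → MvInv A i (Ioo (b - η) (b + η)) {y}) :
    H345.kap i b η μ y ∈ A ↔ y ∈ A := by
  by_cases h0 : μ y = 0
  · rw [H345.kap_eq_self_of_zero h0]
  by_cases h1 : η ≤ |y i - b|
  · rw [H345.kap_eq_self_of_far hη h1]
  · push Not at h1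
    have h2 := h h0 h1
    obtain ⟨a1, a2⟩ := abs_lt.1 h1
    have h3 : |H345.ph η (μ y) (y i - b)| < η := lt_of_le_of_lt H345.abs_ph_le h1
    obtain ⟨a3, a4⟩ := abs_lt.1 h3
    exact h2 y rfl ⟨by linarith, by linarith⟩ _ ⟨by linarith, by linarith⟩

/-! ### preimages -/

section pre
variable {E : Type*} [NormedAddCommGroup E] [NormedSpace ℝ E] {Ω X : Set E}
  {Λ : Set (Fin 3 → ℝ)} {κ : (Fin 3 → ℝ) → Fin 3 → ℝ}

/-- the preimage is the image -/
theorem pre_eq_image {h : ConHomeo Ω Λ} (hX : X ⊆ Ω)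
    (hκ : ∀ y ∈ Λ, (κ y ∈ h.toFun '' X ↔ y ∈ h.toFun '' X)) :
    H579.Pre κ Λ h X = h.toFun '' X := by
  ext y
  constructor
  · rintro ⟨hy, hy'⟩; exact (hκ y hy).1 hy'
  · intro hy
    have hyΛ : y ∈ Λ := by
      obtain ⟨x, hx, rfl⟩ := hy; exact h.mapsTo (hX hx)
    exact ⟨hyΛ, (hκ y hyΛ).2 hy⟩

/-- **the given map of a strip or of a protected cell** -/
theorem exists_theta (h : ConHomeo Ω Λ) (Θ : ConHomeo Λ Λ) (hX : X ⊆ Ω) (hXc : ConicalSet X)
    (hκ : ∀ y ∈ Λ, (κ y ∈ h.toFun '' X ↔ y ∈ h.toFun '' X))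
    (hΘ : ∀ y ∈ Λ, (Θ.toFun y ∈ h.toFun '' X ↔ y ∈ h.toFun '' X)) :
    ∃ Φ : ConHomeo X (H579.Pre κ Λ h X), (∀ x, Φ.toFun x = Θ.toFun (h.toFun x)) ∧
      ∀ y, Φ.invFun y = h.invFun (Θ.invFun y) := by
  have e : (h.trans Θ).toFun '' X = H579.Pre κ Λ h X := by
    rw [pre_eq_image hX hκ]
    apply Subset.antisymm
    · rintro _ ⟨x, hx, rfl⟩
      exact (hΘ _ (h.mapsTo (hX hx))).2 ⟨x, hx, rfl⟩
    · rintro _ ⟨x, hx, rfl⟩
      have hy := h.mapsTo (hX hx)
      have h1 := Θ.mapsTo_inv hy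
      have h2 : Θ.toFun (Θ.invFun (h.toFun x)) = h.toFun x := Θ.right_inv hy
      obtain ⟨x', hx', hxx⟩ := (hΘ _ h1).1 (by rw [h2]; exact ⟨x, hx, rfl⟩)
      exact ⟨x', hx', by show Θ.toFun (h.toFun x') = _; rw [hxx, h2]⟩
  exact ⟨((h.trans Θ).restr hXc hX).cast rfl e, fun x => rfl, fun y => rfl⟩

/-- sub-sets: faces and edges -/
theorem theta_image {h : ConHomeo Ω Λ} {Θ : ConHomeo Λ Λ} {Y : Set E} (hY : Y ⊆ Ω)
    (hκ : ∀ y ∈ Λ, (κ y ∈ h.toFun '' Y ↔ y ∈ h.toFun '' Y))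
    (hΘ : ∀ y ∈ Λ, (Θ.toFun y ∈ h.toFun '' Y ↔ y ∈ h.toFun '' Y)) :
    (fun x => Θ.toFun (h.toFun x)) '' Y = H579.Pre κ Λ h Y := by
  rw [pre_eq_image hY hκ]
  apply Subset.antisymm
  · rintro _ ⟨x, hx, rfl⟩
    exact (hΘ _ (h.mapsTo (hY hx))).2 ⟨x, hx, rfl⟩
  · rintro _ ⟨x, hx, rfl⟩
    have hy := h.mapsTo (hY hx)
    have h1 := Θ.mapsTo_inv hy
    have h2 : Θ.toFun (Θ.invFun (h.toFun x)) = h.toFun x := Θ.right_inv hy
    obtain ⟨x', hx', hxx⟩ := (hΘ _ h1).1 (by rw [h2]; exact ⟨x, hx, rfl⟩)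
    exact ⟨x', hx', by show Θ.toFun (h.toFun x') = _; rw [hxx, h2]⟩

end pre

/-- `BandInv` of H936 is invariance of the image -/
theorem mvInv_of_bandInv {ι : Type*} {E : Type} [NormedAddCommGroup E] [NormedSpace ℝ E]
    {side : ι → Bool} {ax : Bool → Fin 3} {c w : ι → ℝ} {U M : Set E} {P : Set (Fin 3 → ℝ)}
    {h : ConHomeo U P} (hM : M ⊆ U) (hB : H936.K3.BandInv side ax c w U h.toFun M) (i : ι)
    {R : Set (Fin 3 → ℝ)} (hR : R ⊆ P)
    (hR' : ∀ y ∈ R, y (ax (side i)) ∈ Icc (c i - w i) (c i + w i) →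
      ∀ t ∈ Icc (c i - w i) (c i + w i), Function.update y (ax (side i)) t ∈ P) :
    MvInv (h.toFun '' M) (ax (side i)) (Icc (c i - w i) (c i + w i)) R := by
  have key : ∀ y ∈ P, ∀ y' ∈ P, (∀ l, l ≠ ax (side i) → y' l = y l) →
      |y (ax (side i)) - c i| ≤ w i → |y' (ax (side i)) - c i| ≤ w i →
      y ∈ h.toFun '' M → y' ∈ h.toFun '' M := by
    rintro y hy y' hy' hne h1 h2 ⟨x, hx, rfl⟩
    refine ⟨h.invFun y', ?_, h.right_inv hy'⟩
    refine hB i x (hM hx) (h.invFun y') (h.mapsTo_inv hy') h1 ?_ (fun l hl => ?_) hx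
    · rw [h.right_inv hy']; exact h2
    · rw [h.right_inv hy']; exact (hne l hl).symm
  intro y hy hyj t ht
  have hy' := hR' y hy hyj t ht
  have a1 : |y (ax (side i)) - c i| ≤ w i := by
    rw [abs_le]; constructor <;> linarith [hyj.1, hyj.2]
  have a2 : |Function.update y (ax (side i)) t (ax (side i)) - c i| ≤ w i := by
    rw [Function.update_self, abs_le]; constructor <;> linarith [ht.1, ht.2]
  constructor
  · exact key _ hy' _ (hR hy) (fun l hl => (Function.update_of_ne hl _ _).symm) a2 a1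
  · exact key _ (hR hy) _ hy' (fun l hl => Function.update_of_ne hl _ _) a1 a2

end P073.H196
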