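import Vale.Agent.P073.H196.MvInv

/-!
# P073, H196, (T7) [THETA], [SALPHA]: the maps `th` of a family of boxes

`thHX B lam lo hi r`: the box map of the function `th` of the levels of the box `B` (identity off
the cells, slope `lam` on the flats `[a - c, a + c]`), full on `lo, hi`, fading out in `r`. With
`lam = c_thin / c` this is `Θ`, with `lam` small it is the map `S_α`.
-/

open Set Metric Topology Filter

namespace P073.H196

open P073 P073.H236

variable {n : ℕ}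

section oneVar
variable {N : ℕ} {a : ℕ → ℝ} {c al be lam : ℝ}

/-- the inverse of `th` -/
theorem exists_thi (h : Lvs N a c al be) (h0 : 0 < lam) (h1 : lam ≤ 1) :
    ∃ k' : ℝ → ℝ, StrictMono k' ∧ Continuous k' ∧ ConicalOn k' univ ∧
      (∀ t, k' (th h.L c lam t) = t) ∧ ∀ t, th h.L c lam (k' t) = t :=
  exists_inv1 (th_strictMono h.c0.le h.sepd h0 h1) (th_continuous _ _ _) (th_conicalOn _ _ _)
    (abs_th_sub_le h.c0.le h.sepd h0.le h1)

/-- the inverse of `th` -/
noncomputable def thi (h : Lvs N a c al be) (h0 : 0 < lam) (h1 : lam ≤ 1) : ℝ → ℝ :=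
  (exists_thi h h0 h1).choose

theorem th_out (h : Lvs N a c al be) {t : ℝ} (ht : t ≤ al ∨ be ≤ t) : th h.L c lam t = t := by
  refine th_off h.c0.le fun b hb => ?_
  obtain ⟨k, hk, rfl⟩ := h.mem_L.1 hb
  have e1 := h.first_le hk
  have e2 := h.le_last hk
  have hc := h.c0
  rcases ht with ht | ht
  · rw [abs_of_nonpos (by linarith)]; linarith
  · rw [abs_of_nonneg (by linarith)]; linarith

theorem l1_th (h : Lvs N a c al be) (h0 : 0 < lam) (h1 : lam ≤ 1) :
    L1 al be (th h.L c lam) (thi h h0 h1) where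
  kc := th_continuous _ _ _
  kk := th_conicalOn _ _ _
  km := th_strictMono h.c0.le h.sepd h0 h1
  kc' := (exists_thi h h0 h1).choose_spec.2.1
  kk' := (exists_thi h h0 h1).choose_spec.2.2.1
  km' := (exists_thi h h0 h1).choose_spec.1
  left := (exists_thi h h0 h1).choose_spec.2.2.2.1
  right := (exists_thi h h0 h1).choose_spec.2.2.2.2
  out := fun _ ht => th_out h ht

/-- a point off the cells is fixed -/
theorem th_fix (h : Lvs N a c al be) {v : ℝ} (hv : ∀ k < N, 2 * c ≤ |v - a k|) :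
    th h.L c lam v = v := by
  refine th_off h.c0.le fun b hb => ?_
  obtain ⟨k, hk, rfl⟩ := h.mem_L.1 hb
  exact hv k hk

theorem thi_fix (h : Lvs N a c al be) (h0 : 0 < lam) (h1 : lam ≤ 1) {v : ℝ}
    (hv : ∀ k < N, 2 * c ≤ |v - a k|) : thi h h0 h1 v = v := by
  have := (l1_th h h0 h1).left v
  rwa [th_fix h hv] at this

end oneVar

/-- the map `th` of a box, full on `lo, hi`, fading out in `r` -/
noncomputable def thHX (B : BX n) (lam : ℝ) (h0 : 0 < lam) (h1 : lam ≤ 1) (lo hi r : Fin n → ℝ)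
    (hr : ∀ i, 0 < r i) : HX n where
  j := B.j
  al := B.al
  be := B.be
  k := th B.lvs.L B.c lam
  k' := thi B.lvs h0 h1
  l1 := l1_th B.lvs h0 h1
  hab := B.al_lt_be.le
  lo := lo
  hi := hi
  r := r
  hr := hr
  D := B.c
  hD := abs_th_sub_le B.lvs.c0.le B.lvs.sepd h0.le h1

/-- the family -/
noncomputable def thFam {ι : Type*} {Λ : Set (Fin n → ℝ)} (B : ι → BX n) (lam : ι → ℝ)
    (h0 : ∀ b, 0 < lam b) (h1 : ∀ b, lam b ≤ 1) (lo hi r : ι → Fin n → ℝ) (hr : ∀ b i, 0 < r b i)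
    (sub : ∀ b, kbox (B b).j (B b).al (B b).be (lo b) (hi b) (r b) ⊆ Λ)
    (lf : ∀ z ∈ Λ, ∃ U ∈ 𝓝 z,
      {b | (kbox (B b).j (B b).al (B b).be (lo b) (hi b) (r b) ∩ U).Nonempty}.Finite)
    (dis : ∀ b b', b ≠ b' → Disjoint (interior (kbox (B b).j (B b).al (B b).be (lo b) (hi b) (r b)))
      (kbox (B b').j (B b').al (B b').be (lo b') (hi b') (r b'))) : HFam n ι Λ where
  X := fun b => thHX (B b) (lam b) (h0 b) (h1 b) (lo b) (hi b) (r b) (hr b)
  sub := sub
  lf := lf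
  dis := dis

/-- `Θ` preserves the sets which are invariant in the cells -/
theorem thFam_mem_iff {ι : Type*} {Λ : Set (Fin n → ℝ)} {F : HFam n ι Λ} {S : ConHomeo Λ Λ}
    (hS : F.IsH S) (B : ι → BX n) (lam : ι → ℝ) (h0 : ∀ b, 0 < lam b) (h1 : ∀ b, lam b ≤ 1)
    (hk : ∀ b, (F.X b).k = th (B b).lvs.L (B b).c (lam b)) {A : Set (Fin n → ℝ)} {y : Fin n → ℝ}
    (h : ∀ b, y ∈ (F.X b).K → ∀ v ∈ (B b).lvs.L, |y (F.X b).j - v| ≤ 2 * (B b).c →
      MvInv A (F.X b).j (Icc (v - 2 * (B b).c) (v + 2 * (B b).c)) {y}) :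
    S.toFun y ∈ A ↔ y ∈ A := by
  refine IsH.mem_iff_of hS fun b hb => ?_
  rw [hk]
  have hc := (B b).lvs.c0.le
  have hs := (B b).lvs.sepd
  rcases th_eq_or_cell (L := (B b).lvs.L) (lam := lam b) hc (y (F.X b).j) with h2 | ⟨v, hv, h2⟩
  · exact Or.inl h2
  · exact Or.inr ⟨_, ordConnected_Icc, h2, th_mem_cell hc hs (h0 b).le (h1 b) hv h2,
      h b hb v hv (by rw [abs_le]; constructor <;> linarith [h2.1, h2.2])⟩

/-! ### stacks of families with the same directions and windows -/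

/-- the boxes of `F` have the directions `j`, the windows `al, be`, and are contained in the big
boxes `lo, hi`, which meet the other boxes of `F` only in their boundaries -/
structure Over {ι : Type*} {Λ : Set (Fin n → ℝ)} (F : HFam n ι Λ) (j : ι → Fin n) (al be : ι → ℝ)
    (lo hi : ι → Fin n → ℝ) : Prop where
  hj : ∀ b, (F.X b).j = j b
  hal : ∀ b, (F.X b).al = al b
  hbe : ∀ b, (F.X b).be = be b
  hlo : ∀ b i, i ≠ j b → lo b i ≤ (F.X b).lo i - (F.X b).r i
  hhi : ∀ b i, i ≠ j b → (F.X b).hi i + (F.X b).r i ≤ hi b i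
  dis : ∀ b b', b ≠ b' → ∀ y, y ∈ interior (F.X b').K →
    ¬ ((al b ≤ y (j b) ∧ y (j b) ≤ be b) ∧ ∀ i, i ≠ j b → lo b i ≤ y i ∧ y i ≤ hi b i)

/-- the big box -/
def bigBox (j : Fin n) (al be : ℝ) (lo hi : Fin n → ℝ) : Set (Fin n → ℝ) :=
  {y | (al ≤ y j ∧ y j ≤ be) ∧ ∀ i, i ≠ j → lo i ≤ y i ∧ y i ≤ hi i}

namespace Over

variable {ι : Type*} {Λ : Set (Fin n → ℝ)} {F : HFam n ι Λ} {j : ι → Fin n} {al be : ι → ℝ}
  {lo hi : ι → Fin n → ℝ} {S : ConHomeo Λ Λ} {b : ι} {y : Fin n → ℝ}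

/-- in the big box the glued map is the box map -/
theorem eq (O : Over F j al be lo hi) (hS : F.IsH S)
    (hy : y ∈ bigBox (j b) (al b) (be b) (lo b) (hi b)) :
    S.toFun y = Function.update y (j b) (cl (F.X b).k ((F.X b).m y) (y (j b))) := by
  have h1 : (F.X b).H.toFun y = Function.update y (j b) (cl (F.X b).k ((F.X b).m y) (y (j b))) := by
    rw [(F.X b).H_toFun, vc, O.hj b]
  by_cases hb : y ∈ (F.X b).K
  · rw [hS.on b y hb, h1]
  · rw [← h1, (F.X b).supp.id y hb]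
    rcases hS.cases y with ⟨b', hb', e⟩ | ⟨-, e⟩
    · have hbb : b ≠ b' := by rintro rfl; exact hb hb'
      rw [e]
      exact (F.X b').supp.bdry fun hi' => O.dis b b' hbb y hi' hy
    · exact e

/-- the big boxes are preserved -/
theorem mem (O : Over F j al be lo hi) (hS : F.IsH S)
    (hy : y ∈ bigBox (j b) (al b) (be b) (lo b) (hi b)) :
    S.toFun y ∈ bigBox (j b) (al b) (be b) (lo b) (hi b) := by
  rw [O.eq hS hy]
  refine ⟨?_, fun i hi' => by rw [Function.update_of_ne hi']; exact hy.2 i hi'⟩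
  rw [Function.update_self]
  have hm : 0 ≤ (F.X b).m y := (F.X b).vd.m0 y
  have e1 := cl_mono (F.X b).l1.km.monotone ((F.X b).m y) hy.1.1
  have e2 := cl_mono (F.X b).l1.km.monotone ((F.X b).m y) hy.1.2
  rw [cl_fix hm ((F.X b).l1.out _ (Or.inl (O.hal b).ge))] at e1
  rw [cl_fix hm ((F.X b).l1.out _ (Or.inr (O.hbe b).le))] at e2
  exact ⟨e1, e2⟩

/-- the height does not depend on the coordinate `j` -/
theorem m_update (O : Over F j al be lo hi) (y : Fin n → ℝ) (t : ℝ) :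
    (F.X b).m (Function.update y (j b) t) = (F.X b).m y := by
  have := (F.X b).vd.mj y t
  rwa [O.hj b] at this

/-- off the big boxes -/
theorem off (O : Over F j al be lo hi) (hS : F.IsH S)
    (hy : ∀ b, y ∉ bigBox (j b) (al b) (be b) (lo b) (hi b)) : S.toFun y = y := by
  refine hS.off y fun b hb => hy b ?_
  obtain ⟨h1, h2⟩ := hb
  rw [O.hj b, O.hal b, O.hbe b] at h1
  refine ⟨h1, fun i hi' => ?_⟩
  obtain ⟨h3, h4⟩ := h2 i (by rw [O.hj b]; exact hi')
  exact ⟨(O.hlo b i hi').trans h3, h4.trans (O.hhi b i hi')⟩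

end Over

end P073.H196
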