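import Vale.Agent.P073.H196.ThetaQ
import Vale.Agent.P073.H190.TwoS

/-!
# P073, H196: estimates for the two-stage staircases `T2` after `Θ`

`hgt2 F μ s`: the height `max (2 μ b) (2 D b - D)` of 190 (`b` = bump). Off the windows
(`|σ t - t| ≤ μ`) the map `cl σ (hgt2 y) t` is `cl σ (2 μ b) t`, so the fade costs only `μ / τ`;
in the windows it costs `D / τ`.
-/

open Set Metric Topology Filter

namespace P073.H196

open _root_.P073 _root_.P073.Net _root_.P073.PA691 _root_.P073.H236 _root_.P073.H579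
  _root_.P073.H345 _root_.P073.H880 _root_.P073.H190
open Vale.Agent.P073.St (V)
open Vale.Agent.P073.H471 Vale.Agent.P073.H267 Vale.Agent.P073.H267.Geo

/-! ### the height -/

section height

variable {n : ℕ} {ι : Type*} {Λ : Set (Fin n → ℝ)} {F : BFam n ι Λ} {μ : ι → ℝ} {s : ι}

theorem hgt2_nn (μ0 : 0 ≤ μ s) (y : Fin n → ℝ) : 0 ≤ hgt2 F μ s y :=
  le_max_of_le_left (bmp_nonneg (by linarith) y)

theorem hgt2_upd (y : Fin n → ℝ) (t : ℝ) :
    hgt2 F μ s (Function.update y (F.B s).j t) = hgt2 F μ s y := by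
  unfold hgt2
  rw [bmp_update, bmp_update]

theorem hgt2_upd_full {i : Fin n} {t : ℝ} {y : Fin n → ℝ} (h1 : (F.B s).lo i ≤ y i)
    (h2 : y i ≤ (F.B s).hi i) (h3 : (F.B s).lo i ≤ t) (h4 : t ≤ (F.B s).hi i) :
    hgt2 F μ s (Function.update y i t) = hgt2 F μ s y := by
  unfold hgt2
  rw [bmp_update_full (F.B s).hr _ h1 h2 h3 h4, bmp_update_full (F.B s).hr _ h1 h2 h3 h4]

/-- the height in the form with one bump `b ∈ [0, 1]` -/
theorem hgt2_form (F : BFam n ι Λ) (μ : ι → ℝ) (s : ι) (y : Fin n → ℝ) :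
    ∃ b : ℝ, 0 ≤ b ∧ b ≤ 1 ∧ (∀ C, bmp (F.B s).j (F.B s).lo (F.B s).hi (F.B s).r C y = C * b) ∧
      hgt2 F μ s y = max (2 * μ s * b) (2 * (F.D s * b) - F.D s) := by
  refine ⟨bmp (F.B s).j (F.B s).lo (F.B s).hi (F.B s).r 1 y, bmp_nonneg zero_le_one y,
    bmp_le zero_le_one y, fun C => ?_, ?_⟩
  · unfold bmp; ring
  · unfold hgt2 bmp; ring_nf

theorem m_pos_of_hgt2 (μ0 : 0 ≤ μ s) (μD : 2 * μ s ≤ F.D s) {y : Fin n → ℝ}
    (h : 0 < hgt2 F μ s y) : 0 < (F.hx s).m y := by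
  obtain ⟨b, b0, b1, hb, e⟩ := hgt2_form F μ s y
  have hD := F.D0 s
  show 0 < bmp (F.B s).j (F.B s).lo (F.B s).hi (F.B s).r (F.D s) y
  rw [hb]
  rw [e] at h
  by_contra hcon
  push Not at hcon
  have h0 : F.D s * b = 0 := le_antisymm hcon (mul_nonneg hD b0)
  have h1 : 2 * μ s * b ≤ 0 := by
    have := mul_le_mul_of_nonneg_right μD b0
    linarith
  have h2 : 2 * (F.D s * b) - F.D s ≤ 0 := by rw [h0]; linarith
  exact absurd h (not_lt.2 (max_le h1 h2))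

theorem hgt2_le (μD : 2 * μ s ≤ F.D s) (y : Fin n → ℝ) : hgt2 F μ s y ≤ F.D s := by
  obtain ⟨b, b0, b1, hb, e⟩ := hgt2_form F μ s y
  have hD := F.D0 s
  rw [e]
  refine max_le ?_ ?_
  · have h1 := mul_le_mul_of_nonneg_right μD b0
    nlinarith
  · nlinarith

theorem abs_hgt2_sub (μ0 : 0 ≤ μ s) (μD : 2 * μ s ≤ F.D s) {ρ d : ℝ} (hρ : 0 < ρ)
    (hr : ∀ i, ρ ≤ (F.B s).r i) {y y' : Fin n → ℝ}
    (hd : ∀ i, i ≠ (F.B s).j → |y i - y' i| ≤ d) (hd0 : 0 ≤ d) :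
    |hgt2 F μ s y - hgt2 F μ s y'| ≤ 2 * F.D s * (d / ρ) := by
  have hD := F.D0 s
  have hq : 0 ≤ d / ρ := div_nonneg hd0 hρ.le
  have e1 := abs_bmp_sub_le (C := 2 * μ s) (lo := (F.B s).lo) (hi := (F.B s).hi) (by linarith) hρ
    hr hd hd0
  have e2 := abs_bmp_sub_le (C := F.D s) (lo := (F.B s).lo) (hi := (F.B s).hi) hD hρ hr hd hd0
  have a1 := abs_max_sub_max_le_max (bmp (F.B s).j (F.B s).lo (F.B s).hi (F.B s).r (2 * μ s) y)
    (2 * bmp (F.B s).j (F.B s).lo (F.B s).hi (F.B s).r (F.D s) y - F.D s)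
    (bmp (F.B s).j (F.B s).lo (F.B s).hi (F.B s).r (2 * μ s) y')
    (2 * bmp (F.B s).j (F.B s).lo (F.B s).hi (F.B s).r (F.D s) y' - F.D s)
  refine a1.trans (max_le (e1.trans ?_) ?_)
  · exact mul_le_mul_of_nonneg_right (by linarith) hq
  · have e3 : 2 * bmp (F.B s).j (F.B s).lo (F.B s).hi (F.B s).r (F.D s) y - F.D s -
        (2 * bmp (F.B s).j (F.B s).lo (F.B s).hi (F.B s).r (F.D s) y' - F.D s) =
        2 * (bmp (F.B s).j (F.B s).lo (F.B s).hi (F.B s).r (F.D s) y -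
          bmp (F.B s).j (F.B s).lo (F.B s).hi (F.B s).r (F.D s) y') := by ring
    rw [e3, abs_mul, abs_two]
    linarith

/-- **off the windows the two-stage map is the small one-stage map** -/
theorem cl_hgt2 (μ0 : 0 ≤ μ s) (μD : 2 * μ s ≤ F.D s) {k : ℝ → ℝ} {t : ℝ} (h : |k t - t| ≤ μ s)
    (y : Fin n → ℝ) : cl k (hgt2 F μ s y) t =
      cl k (bmp (F.B s).j (F.B s).lo (F.B s).hi (F.B s).r (2 * μ s) y) t := by
  obtain ⟨b, b0, b1, hb, e⟩ := hgt2_form F μ s y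
  have hD := F.D0 s
  rw [hb, e]
  by_cases hb2 : b ≤ 1 / 2
  · rw [max_eq_left]
    have h1 : 0 ≤ 2 * μ s * b := by positivity
    nlinarith
  · push Not at hb2
    have h1 : μ s ≤ 2 * μ s * b := by nlinarith
    rw [cl_eq (h.trans h1), cl_eq (h.trans (h1.trans (le_max_left _ _)))]

/-- the vertical map at a point off the box -/
theorem cl_hgt2_off (μ0 : 0 ≤ μ s) {y : Fin n → ℝ} (hy : y ∉ (F.B s).K) :
    cl (F.σ s) (hgt2 F μ s y) (y (F.B s).j) = y (F.B s).j := by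
  have h : (y (F.B s).j ≤ (F.B s).al ∨ (F.B s).be ≤ y (F.B s).j) ∨
      ∃ i, i ≠ (F.B s).j ∧ (y i ≤ (F.B s).lo i - (F.B s).r i ∨
        (F.B s).hi i + (F.B s).r i ≤ y i) := by
    by_contra hcon
    push Not at hcon
    refine hy ⟨⟨hcon.1.1.le, hcon.1.2.le⟩, fun i hi => ?_⟩
    have h2 := hcon.2 i hi
    exact ⟨h2.1.le, h2.2.le⟩
  rcases h with h | ⟨i, hi, h⟩
  · exact cl_fix (hgt2_nn μ0 y) (F.σ_out h)
  · have h1 : hgt2 F μ s y = 0 := by
      have hD := F.D0 s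
      unfold hgt2
      rw [bmp_zero (F.B s).hr hi h, bmp_zero (F.B s).hr hi h, max_eq_left (by linarith)]
    rw [h1, cl_zero]

end height

/-! ### the estimates for one box -/

section est

variable {n : ℕ} {γ : Type*} {Λ : Set (Fin n → ℝ)} {B : γ → BX n} {lam : γ → ℝ}
  {h0 : ∀ b, 0 < lam b} {h1 : ∀ b, lam b ≤ 1} {F : BFam n γ Λ} {μ : γ → ℝ}

/-- the vertical function of `T2 ∘ Θ` -/
noncomputable def φ2 (B : γ → BX n) (lam : γ → ℝ) (h0 : ∀ b, 0 < lam b) (h1 : ∀ b, lam b ≤ 1)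
    (F : BFam n γ Λ) (μ : γ → ℝ) (b : γ) (y : Fin n → ℝ) (t : ℝ) : ℝ :=
  cl (F.σ b) (hgt2 F μ b y) (cl (th (B b).lvs.L (B b).c (lam b))
    ((thetaX (B b) (lam b) (h0 b) (h1 b)).m y) t)

/-- a general estimate with two heights which are positive only where `Θ` is full -/
theorem SShape.abs_cl_sub_le (H : SShape B F) {b : γ} {A : ℝ} (hA : 2 ≤ A)
    (hσ : ∀ s t, |F.σ b (th (B b).lvs.L (B b).c (lam b) s) -
      F.σ b (th (B b).lvs.L (B b).c (lam b) t)| ≤ A * |s - t|) {ρ d : ℝ} (hρ : 0 < ρ)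
    (hr : ∀ i, ρ ≤ (B b).r i / 2) {y y' : Fin n → ℝ}
    (hd : ∀ i, i ≠ (B b).j → |y i - y' i| ≤ d) (hd0 : 0 ≤ d) {m m' E : ℝ} (m0 : 0 ≤ m)
    (m0' : 0 ≤ m') (mf : 0 < m → 0 < (F.hx b).m y) (mf' : 0 < m' → 0 < (F.hx b).m y')
    (hm : |m - m'| ≤ E * (d / ρ)) (s t : ℝ) :
    |cl (F.σ b) m (cl (th (B b).lvs.L (B b).c (lam b))
        ((thetaX (B b) (lam b) (h0 b) (h1 b)).m y) s) -
      cl (F.σ b) m' (cl (th (B b).lvs.L (B b).c (lam b))
        ((thetaX (B b) (lam b) (h0 b) (h1 b)).m y') t)| ≤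
      A * |s - t| + (3 * E + (B b).c) * (d / ρ) := by
  have hc := (B b).lvs.c0.le
  have e1 := abs_comp_le (σ := F.σ b) (τ := fun x => x) (T := 1) hc (B b).lvs.sepd (h0 b) (h1 b)
    hA hσ le_rfl (fun s t => by rw [one_mul]) m0 m0'
    (m₁ := (thetaX (B b) (lam b) (h0 b) (h1 b)).m y)
    (m₁' := (thetaX (B b) (lam b) (h0 b) (h1 b)).m y')
    (fun h => H.full (mf h)) (fun h => H.full (mf' h)) s t
  rw [cl_fix m0 rfl, cl_fix m0' rfl] at e1
  have e3 : |(thetaX (B b) (lam b) (h0 b) (h1 b)).m y -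
      (thetaX (B b) (lam b) (h0 b) (h1 b)).m y'| ≤ (B b).c * (d / ρ) :=
    abs_bmp_sub_le hc hρ (fun i => hr i) hd hd0
  linarith

/-- **the estimate everywhere** -/
theorem SShape.abs_φ2_sub_le (H : SShape B F) {b : γ} {A : ℝ} (hA : 2 ≤ A)
    (hσ : ∀ s t, |F.σ b (th (B b).lvs.L (B b).c (lam b) s) -
      F.σ b (th (B b).lvs.L (B b).c (lam b) t)| ≤ A * |s - t|) {ρ d : ℝ} (hρ : 0 < ρ)
    (hr : ∀ i, ρ ≤ (B b).r i / 2) {y y' : Fin n → ℝ}
    (hd : ∀ i, i ≠ (B b).j → |y i - y' i| ≤ d) (hd0 : 0 ≤ d) (μ0 : 0 ≤ μ b)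
    (μD : 2 * μ b ≤ F.D b) (s t : ℝ) :
    |φ2 B lam h0 h1 F μ b y s - φ2 B lam h0 h1 F μ b y' t| ≤
      A * |s - t| + (6 * F.D b + (B b).c) * (d / ρ) := by
  have e := H.abs_cl_sub_le (h0 := h0) (h1 := h1) hA hσ hρ hr hd hd0 (hgt2_nn μ0 y)
    (hgt2_nn μ0 y') (m_pos_of_hgt2 μ0 μD) (m_pos_of_hgt2 μ0 μD)
    (abs_hgt2_sub μ0 μD hρ (fun i => by rw [H.r]; exact hr i)
      (fun i hi => hd i (by rw [← H.j]; exact hi)) hd0) s t
  unfold φ2
  linarith

/-- **the estimate off the windows** -/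
theorem SShape.abs_φ2_sub_le_off (H : SShape B F) {b : γ} {A : ℝ} (hA : 2 ≤ A)
    (hσ : ∀ s t, |F.σ b (th (B b).lvs.L (B b).c (lam b) s) -
      F.σ b (th (B b).lvs.L (B b).c (lam b) t)| ≤ A * |s - t|) {ρ d : ℝ} (hρ : 0 < ρ)
    (hr : ∀ i, ρ ≤ (B b).r i / 2) {y y' : Fin n → ℝ}
    (hd : ∀ i, i ≠ (B b).j → |y i - y' i| ≤ d) (hd0 : 0 ≤ d) (μ0 : 0 ≤ μ b)
    (μD : 2 * μ b ≤ F.D b) {s t : ℝ}
    (hs : ∀ x, |x - s| ≤ (B b).c → |F.σ b x - x| ≤ μ b)
    (ht : ∀ x, |x - t| ≤ (B b).c → |F.σ b x - x| ≤ μ b) :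
    |φ2 B lam h0 h1 F μ b y s - φ2 B lam h0 h1 F μ b y' t| ≤
      A * |s - t| + (6 * μ b + (B b).c) * (d / ρ) := by
  have hc := (B b).lvs.c0.le
  have hq : 0 ≤ d / ρ := div_nonneg hd0 hρ.le
  have hm0 : ∀ y, 0 ≤ (thetaX (B b) (lam b) (h0 b) (h1 b)).m y := fun y =>
    (thetaX (B b) (lam b) (h0 b) (h1 b)).vd.m0 y
  have hpos : ∀ z, 0 < bmp (F.B b).j (F.B b).lo (F.B b).hi (F.B b).r (2 * μ b) z →
      0 < (F.hx b).m z := fun z hz =>
    m_pos_of_hgt2 μ0 μD (hz.trans_le (le_max_left _ _))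
  have hx : ∀ z x, |cl (th (B b).lvs.L (B b).c (lam b))
      ((thetaX (B b) (lam b) (h0 b) (h1 b)).m z) x - x| ≤ (B b).c := fun z x =>
    (abs_cl_sub_le' (hm0 z)).trans
      (abs_th_sub_le hc (B b).lvs.sepd (h0 b).le (h1 b) x)
  have e := H.abs_cl_sub_le (h0 := h0) (h1 := h1) (E := 2 * μ b) hA hσ hρ hr hd hd0
    (bmp_nonneg (by linarith) y) (bmp_nonneg (by linarith) y') (hpos y) (hpos y')
    (abs_bmp_sub_le (by linarith) hρ (fun i => by rw [H.r]; exact hr i)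
      (fun i hi => hd i (by rw [← H.j]; exact hi)) hd0) s t
  unfold φ2
  rw [cl_hgt2 μ0 μD (hs _ (hx y s)), cl_hgt2 μ0 μD (ht _ (hx y' t))]
  linarith

end est

/-! ### the families -/

variable {Ω Λ : Set V} {v : V} {K : BoxCx Λ v} {S : Rad K} {W : Wid K S} {B : Boxes W}
  {G : Geo B}

/-- the staircases of ROUND P over thin flats, in two stages, and `Θ` -/
structure ThP2 (L : PLev G) (c : K.S → Bool → ℝ) (h0 : ∀ s β, 0 < c s β)
    (h1 : ∀ s β, c s β ≤ L.c s β) (hΛ : IsOpen Λ) (S₀ : Set K.S) (F : Bool → BFam 3 S₀ Λ)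
    (μ : Bool → S₀ → ℝ) (T Θ : Bool → ConHomeo Λ Λ) (A : ℝ) : Prop where
  shape : ∀ β, SShape (fun s : S₀ => L.bx β s.1) (F β)
  isS : ∀ β, IsS2 (F β) (μ β) (T β)
  isΘ : ∀ β, (thP L c h0 h1 hΛ S₀ β).IsH (Θ β)
  A2 : 2 ≤ A
  slope : ∀ β (s : S₀) t t',
    |(F β).σ s (th (L.bx β s.1).lvs.L (L.bx β s.1).c (lamP L c s.1 β) t) -
      (F β).σ s (th (L.bx β s.1).lvs.L (L.bx β s.1).c (lamP L c s.1 β) t')| ≤ A * |t - t'|
  μ0 : ∀ β s, 0 ≤ μ β s
  μD : ∀ β s, 2 * μ β s ≤ (F β).D s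

theorem ThP.two {L : PLev G} {c : K.S → Bool → ℝ} {h0 : ∀ s β, 0 < c s β}
    {h1 : ∀ s β, c s β ≤ L.c s β} {hΛ : IsOpen Λ} {S₀ : Set K.S} {F : Bool → BFam 3 S₀ Λ}
    {T Θ : Bool → ConHomeo Λ Λ} {A : ℝ} (H : ThP L c h0 h1 hΛ S₀ F T Θ A)
    {μ : Bool → S₀ → ℝ} {T2 : Bool → ConHomeo Λ Λ} (h2 : ∀ β, IsS2 (F β) (μ β) (T2 β))
    (μ0 : ∀ β s, 0 ≤ μ β s) (μD : ∀ β s, 2 * μ β s ≤ (F β).D s) :
    ThP2 L c h0 h1 hΛ S₀ F μ T2 Θ A :=
  ⟨H.shape, h2, H.isΘ, H.A2, H.slope, μ0, μD⟩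

namespace ThP2

variable {L : PLev G} {c : K.S → Bool → ℝ} {h0 : ∀ s β, 0 < c s β}
  {h1 : ∀ s β, c s β ≤ L.c s β} {hΛ : IsOpen Λ} {S₀ : Set K.S} {F : Bool → BFam 3 S₀ Λ}
  {μ : Bool → S₀ → ℝ} {T Θ : Bool → ConHomeo Λ Λ} {A : ℝ}
  (H : ThP2 L c h0 h1 hΛ S₀ F μ T Θ A)

include H

theorem F_K_sub (β : Bool) (b : S₀) : ((F β).B b).K ⊆ PK G b.1 := fun _ hy =>
  (PLev.mem_bxK.1 ((H.shape β).K_sub b hy)).1

/-- `T β` in the plate -/
theorem T_eq (β : Bool) (s : S₀) {y : V} (hy : y ∈ PK G s.1) :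
    (T β).toFun y = Function.update y (tg s.1 β)
      (cl ((F β).σ s) (hgt2 (F β) (μ β) s y) (y (tg s.1 β))) := by
  have hj : ((F β).B s).j = tg s.1 β := (H.shape β).j s
  by_cases h : y ∈ ((F β).B s).K
  · rw [(H.isS β).on s y h, hj]
  · have h2 := cl_hgt2_off (F := F β) (H.μ0 β s) h
    rw [hj] at h2
    rw [h2, Function.update_eq_self]
    refine (H.isS β).off y fun s' hs' => h ?_
    have h3 : s = s' := Subtype.ext (PK_unique hy (H.F_K_sub β s' hs'))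
    rwa [h3]

theorem T_mem (β : Bool) (s : S₀) {y : V} (hy : y ∈ PK G s.1) : (T β).toFun y ∈ PK G s.1 := by
  by_cases h : y ∈ ((F β).B s).K
  · refine H.F_K_sub β s ?_
    rw [(H.isS β).on s y h]
    refine ⟨?_, fun i hi => ?_⟩
    · rw [Function.update_self]
      have hm := hgt2_nn (F := F β) (H.μ0 β s) y
      have hmo := cl_mono ((F β).σ_strictMono s).monotone (hgt2 (F β) (μ β) s y)
      have e1 := hmo h.1.1
      have e2 := hmo h.1.2
      rw [cl_fix hm ((F β).σ_out (Or.inl le_rfl))] at e1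
      rw [cl_fix hm ((F β).σ_out (Or.inr le_rfl))] at e2
      exact ⟨e1, e2⟩
    · rw [Function.update_of_ne hi]
      exact h.2 i hi
  · have h2 : (T β).toFun y = y := (H.isS β).off y fun s' hs' => h (by
      have h3 : s = s' := Subtype.ext (PK_unique hy (H.F_K_sub β s' hs'))
      rwa [h3])
    rwa [h2]

theorem T_off (β : Bool) {y : V} (hy : ∀ s ∈ S₀, y ∉ PK G s) : (T β).toFun y = y :=
  (H.isS β).off y fun s hs => hy s.1 s.2 (H.F_K_sub β s hs)

omit H in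
/-- `Θ β` in the plate -/
theorem theta_eq (hΘ : ∀ β, (thP L c h0 h1 hΛ S₀ β).IsH (Θ β)) (β : Bool) (s : S₀) {y : V}
    (hy : y ∈ PK G s.1) : (Θ β).toFun y = Function.update y (tg s.1 β)
      (cl (th (L.lvs s.1 β).L (L.c s.1 β) (lamP L c s.1 β))
        (((thP L c h0 h1 hΛ S₀ β).X s).m y) (y (tg s.1 β))) := by
  rw [IsH.eq_H (hΘ β) (thP_K_sub (β := β)) (PK_disj G S₀) (b := s) hy, HX.H_toFun]
  rfl

/-- the window of the other direction is in the full zone -/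
theorem lo_le (β : Bool) (s : S₀) {i : Fin 3} (hi : i ≠ K.nrm s.1) :
    ((F β).B s).lo i ≤ K.slo s.1 i + G.a s.1 ∧ K.shi s.1 i - G.a s.1 ≤ ((F β).B s).hi i := by
  have hp := Geo.p_pos (G := G) s.1
  have hpa := Geo.p_a (G := G) s.1
  rw [(H.shape β).lo, (H.shape β).hi]
  show (if i = K.nrm s.1 then _ else _) ≤ _ ∧ _ ≤ (if i = K.nrm s.1 then _ else _)
  rw [if_neg hi, if_neg hi]
  constructor <;> linarith

omit H in
theorem theta_lo_le (β : Bool) (s : S₀) {i : Fin 3} (hi : i ≠ K.nrm s.1) :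
    ((thP L c h0 h1 hΛ S₀ β).X s).lo i ≤ K.slo s.1 i + G.a s.1 ∧
      K.shi s.1 i - G.a s.1 ≤ ((thP L c h0 h1 hΛ S₀ β).X s).hi i := by
  have hp := Geo.p_pos (G := G) s.1
  have hpa := Geo.p_a (G := G) s.1
  show (if i = K.nrm s.1 then _ else _) - (if i = K.nrm s.1 then _ else _) / 2 ≤ _ ∧
    _ ≤ (if i = K.nrm s.1 then _ else _) + (if i = K.nrm s.1 then _ else _) / 2
  rw [if_neg hi, if_neg hi, if_neg hi]
  constructor <;> linarith

omit H in
/-- a monotone map of the line which is the identity off the window: either the point is fixed or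
both points are in the window -/
theorem win_or {al be : ℝ} {k : ℝ → ℝ} (hk : Monotone k)
    (hf : ∀ t, t ≤ al ∨ be ≤ t → k t = t) (t : ℝ) :
    k t = t ∨ ((al ≤ t ∧ t ≤ be) ∧ al ≤ k t ∧ k t ≤ be) := by
  by_cases h : t ≤ al ∨ be ≤ t
  · exact Or.inl (hf t h)
  · push Not at h
    have e1 := hk h.1.le
    have e2 := hk h.2.le
    rw [hf al (Or.inl le_rfl)] at e1
    rw [hf be (Or.inr le_rfl)] at e2
    exact Or.inr ⟨⟨h.1.le, h.2.le⟩, e1, e2⟩

/-- **`T false` and `Θ true` commute** -/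
theorem comm (y : V) : (T false).toFun ((Θ true).toFun y) = (Θ true).toFun ((T false).toFun y) := by
  by_cases hy : ∃ s : S₀, y ∈ PK G s.1
  · obtain ⟨s, hs⟩ := hy
    have hne : tg s.1 false ≠ tg s.1 true := tg_ne_not s.1 false
    have m1 := theta_mem_PK (H.isΘ true) s hs
    have m2 := H.T_mem false s hs
    have e1 := theta_eq H.isΘ true s hs
    have e2 := theta_eq H.isΘ true s m2
    have e3 := H.T_eq false s m1
    have e4 := H.T_eq false s hs
    -- the height of `T false` is not changed by `Θ true`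
    have k1 : hgt2 (F false) (μ false) s ((Θ true).toFun y) = hgt2 (F false) (μ false) s y := by
      rw [e1]
      have hb := H.lo_le false s (tg_ne s.1 true)
      rcases win_or (al := K.slo s.1 (tg s.1 true) + G.a s.1)
        (be := K.shi s.1 (tg s.1 true) - G.a s.1) (cl_mono (th_strictMono (L.lvs s.1 true).c0.le
          (L.lvs s.1 true).sepd (lamP_pos h0 s.1 true) (lamP_le h1 s.1 true)).monotone
          (((thP L c h0 h1 hΛ S₀ true).X s).m y)) (fun t ht => cl_fix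
          (((thP L c h0 h1 hΛ S₀ true).X s).vd.m0 y) (th_out (L.lvs s.1 true) ht))
          (y (tg s.1 true)) with h | h
      · rw [h, Function.update_eq_self]
      · exact hgt2_upd_full (hb.1.trans h.1.1) (h.1.2.trans hb.2) (hb.1.trans h.2.1)
          (h.2.2.trans hb.2)
    -- the height of `Θ true` is not changed by `T false`
    have k2 : ((thP L c h0 h1 hΛ S₀ true).X s).m ((T false).toFun y) =
        ((thP L c h0 h1 hΛ S₀ true).X s).m y := by
      rw [e4]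
      have hb := theta_lo_le (L := L) (c := c) (h0 := h0) (h1 := h1) (hΛ := hΛ) true s
        (tg_ne s.1 false)
      have hal : ((F false).B s).al = K.slo s.1 (tg s.1 false) + G.a s.1 := (H.shape false).al s
      have hbe : ((F false).B s).be = K.shi s.1 (tg s.1 false) - G.a s.1 := (H.shape false).be s
      rcases win_or (al := ((F false).B s).al) (be := ((F false).B s).be)
        (cl_mono ((F false).σ_strictMono s).monotone (hgt2 (F false) (μ false) s y))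
        (fun t ht => cl_fix (hgt2_nn (H.μ0 false s) y) ((F false).σ_out ht))
        (y (tg s.1 false)) with h | h
      · rw [h, Function.update_eq_self]
      · rw [hal, hbe] at h
        exact bmp_update_full ((thP L c h0 h1 hΛ S₀ true).X s).hr _ (hb.1.trans h.1.1)
          (h.1.2.trans hb.2) (hb.1.trans h.2.1) (h.2.2.trans hb.2)
    rw [e3, k1, e2, k2, e1, Function.update_of_ne hne, e4, Function.update_of_ne hne.symm,
      Function.update_comm hne]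
  · push Not at hy
    have hy' : ∀ s ∈ S₀, y ∉ PK G s := fun s hs => hy ⟨s, hs⟩
    rw [theta_off (H.isΘ true) hy', H.T_off false hy', theta_off (H.isΘ true) hy']

/-- one direction -/
theorem step_eq (β : Bool) (s : S₀) {y : V} (hy : y ∈ PK G s.1) :
    (T β).toFun ((Θ β).toFun y) = Function.update y (tg s.1 β)
      (φ2 (fun s : S₀ => L.bx β s.1) (fun s => lamP L c s.1 β) (fun s => lamP_pos h0 s.1 β)
        (fun s => lamP_le h1 s.1 β) (F β) (μ β) s y (y (tg s.1 β))) := by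
  have hj : ((F β).B s).j = tg s.1 β := (H.shape β).j s
  rw [H.T_eq β s (theta_mem_PK (H.isΘ β) s hy), theta_eq H.isΘ β s hy, Function.update_self,
    Function.update_idem]
  have e3 := hgt2_upd (F := F β) (μ := μ β) (s := s) y
    (cl (th (L.lvs s.1 β).L (L.c s.1 β) (lamP L c s.1 β))
        (((thP L c h0 h1 hΛ S₀ β).X s).m y) (y (tg s.1 β)))
  rw [hj] at e3
  rw [e3]
  rfl

theorem step_mem (β : Bool) (s : S₀) {y : V} (hy : y ∈ PK G s.1) :
    (T β).toFun ((Θ β).toFun y) ∈ PK G s.1 :=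
  H.T_mem β s (theta_mem_PK (H.isΘ β) s hy)

omit H in
theorem r_ge (β : Bool) (s : S₀) (i : Fin 3) : B.τ s.1 / 4 ≤ (L.bx β s.1).r i / 2 := by
  have hτ := B.τ_pos s.1
  have hp := G.τ_p s.1
  show B.τ s.1 / 4 ≤ (if i = K.nrm s.1 then B.τ s.1 / 2 else G.p s.1 / 8) / 2
  split_ifs <;> linarith

/-- **one direction, the tangential coordinate** -/
theorem step_le (β : Bool) (s : S₀) {y y' : V} (hy : y ∈ PK G s.1) (hy' : y' ∈ PK G s.1) :
    |(T β).toFun ((Θ β).toFun y) (tg s.1 β) - (T β).toFun ((Θ β).toFun y') (tg s.1 β)| ≤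
      A * |y (tg s.1 β) - y' (tg s.1 β)| +
        (6 * (F β).D s + L.c s.1 β) * (4 / B.τ s.1) * ‖y - y'‖ := by
  have hτ := B.τ_pos s.1
  have hd : ∀ i, i ≠ (L.bx β s.1).j → |y i - y' i| ≤ ‖y - y'‖ := fun i _ => by
    have := norm_le_pi_norm (y - y') i
    rwa [Pi.sub_apply, Real.norm_eq_abs] at this
  have e := @SShape.abs_φ2_sub_le 3 S₀ Λ (fun s : S₀ => L.bx β s.1) (fun s => lamP L c s.1 β)
    (fun s => lamP_pos h0 s.1 β) (fun s => lamP_le h1 s.1 β) (F β) (μ β) (H.shape β) s A H.A2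
    (H.slope β s) (B.τ s.1 / 4) ‖y - y'‖ (by positivity) (r_ge β s) y y' hd (norm_nonneg _)
    (H.μ0 β s) (H.μD β s) (y (tg s.1 β)) (y' (tg s.1 β))
  have h2 : ‖y - y'‖ / (B.τ s.1 / 4) = 4 / B.τ s.1 * ‖y - y'‖ := by field_simp
  rw [h2, ← mul_assoc] at e
  rw [H.step_eq β s hy, H.step_eq β s hy', Function.update_self, Function.update_self]
  exact e

/-- **one direction, the tangential coordinate, off the windows** -/
theorem step_le_off (β : Bool) (s : S₀) {y y' : V} (hy : y ∈ PK G s.1) (hy' : y' ∈ PK G s.1)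
    (ho : ∀ t, |t - y (tg s.1 β)| ≤ L.c s.1 β → |(F β).σ s t - t| ≤ μ β s)
    (ho' : ∀ t, |t - y' (tg s.1 β)| ≤ L.c s.1 β → |(F β).σ s t - t| ≤ μ β s) :
    |(T β).toFun ((Θ β).toFun y) (tg s.1 β) - (T β).toFun ((Θ β).toFun y') (tg s.1 β)| ≤
      A * |y (tg s.1 β) - y' (tg s.1 β)| +
        (6 * μ β s + L.c s.1 β) * (4 / B.τ s.1) * ‖y - y'‖ := by
  have hτ := B.τ_pos s.1
  have hd : ∀ i, i ≠ (L.bx β s.1).j → |y i - y' i| ≤ ‖y - y'‖ := fun i _ => by
    have := norm_le_pi_norm (y - y') i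
    rwa [Pi.sub_apply, Real.norm_eq_abs] at this
  have e := @SShape.abs_φ2_sub_le_off 3 S₀ Λ (fun s : S₀ => L.bx β s.1)
    (fun s => lamP L c s.1 β) (fun s => lamP_pos h0 s.1 β) (fun s => lamP_le h1 s.1 β) (F β) (μ β)
    (H.shape β) s A H.A2
    (H.slope β s) (B.τ s.1 / 4) ‖y - y'‖ (by positivity) (r_ge β s) y y' hd (norm_nonneg _)
    (H.μ0 β s) (H.μD β s) (y (tg s.1 β)) (y' (tg s.1 β)) ho ho'
  have h2 : ‖y - y'‖ / (B.τ s.1 / 4) = 4 / B.τ s.1 * ‖y - y'‖ := by field_simp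
  rw [h2, ← mul_assoc] at e
  rw [H.step_eq β s hy, H.step_eq β s hy', Function.update_self, Function.update_self]
  exact e

theorem step_ne (β : Bool) (s : S₀) {y : V} (hy : y ∈ PK G s.1) {i : Fin 3} (hi : i ≠ tg s.1 β) :
    (T β).toFun ((Θ β).toFun y) i = y i := by
  rw [H.step_eq β s hy, Function.update_of_ne hi]

/-- one direction, all coordinates -/
theorem step_norm_le (β : Bool) (s : S₀) {ε : ℝ}
    (hε : (6 * (F β).D s + L.c s.1 β) * (4 / B.τ s.1) ≤ ε) {y y' : V} (hy : y ∈ PK G s.1)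
    (hy' : y' ∈ PK G s.1) :
    ‖(T β).toFun ((Θ β).toFun y) - (T β).toFun ((Θ β).toFun y')‖ ≤ (A + ε) * ‖y - y'‖ := by
  have hA := H.A2
  have hτ := B.τ_pos s.1
  have hc := (L.lvs s.1 β).c0
  have hD := (F β).D0 s
  have hN := norm_nonneg (y - y')
  have hε0 : 0 ≤ ε := le_trans (by positivity) hε
  have hle : ∀ i, |y i - y' i| ≤ ‖y - y'‖ := fun i => by
    have := norm_le_pi_norm (y - y') i
    rwa [Pi.sub_apply, Real.norm_eq_abs] at this
  rw [pi_norm_le_iff_of_nonneg (by positivity)]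
  intro i
  rw [Pi.sub_apply, Real.norm_eq_abs]
  by_cases hi : i = tg s.1 β
  · subst hi
    refine (H.step_le β s hy hy').trans ?_
    have h2 : A * |y (tg s.1 β) - y' (tg s.1 β)| ≤ A * ‖y - y'‖ :=
      mul_le_mul_of_nonneg_left (hle _) (by linarith)
    have h3 := mul_le_mul_of_nonneg_right hε hN
    linarith
  · rw [H.step_ne β s hy hi, H.step_ne β s hy' hi]
    have h2 := hle i
    have h3 : 1 * ‖y - y'‖ ≤ (A + ε) * ‖y - y'‖ :=
      mul_le_mul_of_nonneg_right (by linarith) hN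
    linarith

/-- **the composition** -/
theorem map_eq (y : V) : (T true).toFun ((T false).toFun ((Θ true).toFun ((Θ false).toFun y))) =
    (T true).toFun ((Θ true).toFun ((T false).toFun ((Θ false).toFun y))) := by
  rw [H.comm]

theorem map_mem (s : S₀) {y : V} (hy : y ∈ PK G s.1) :
    (T true).toFun ((T false).toFun ((Θ true).toFun ((Θ false).toFun y))) ∈ PK G s.1 := by
  rw [H.map_eq]
  exact H.step_mem true s (H.step_mem false s hy)

theorem map_off {y : V} (hy : ∀ s ∈ S₀, y ∉ PK G s) :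
    (T true).toFun ((T false).toFun ((Θ true).toFun ((Θ false).toFun y))) = y := by
  rw [theta_off (H.isΘ false) hy, theta_off (H.isΘ true) hy, H.T_off false hy, H.T_off true hy]

/-- the normal coordinate -/
theorem map_nrm (s : S₀) {y : V} (hy : y ∈ PK G s.1) :
    (T true).toFun ((T false).toFun ((Θ true).toFun ((Θ false).toFun y))) (K.nrm s.1) =
      y (K.nrm s.1) := by
  rw [H.map_eq, H.step_ne true s (H.step_mem false s hy) (tg_ne s.1 true).symm,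
    H.step_ne false s hy (tg_ne s.1 false).symm]

/-- **a tangential coordinate**: `εθ` for its own direction (in the form of `step_le` or
`step_le_off`), `εq` for the other direction -/
theorem map_tg_le' (s : S₀) {εθ εq : ℝ} (hεθ0 : 0 ≤ εθ)
    (hεq : ∀ β, (6 * (F β).D s + L.c s.1 β) * (4 / B.τ s.1) ≤ εq) {y y' : V} (hy : y ∈ PK G s.1)
    (hy' : y' ∈ PK G s.1) (β : Bool)
    (hεθ : (6 * (F β).D s + L.c s.1 β) * (4 / B.τ s.1) ≤ εθ ∨
      ((6 * μ β s + L.c s.1 β) * (4 / B.τ s.1) ≤ εθ ∧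
        (∀ t, |t - y (tg s.1 β)| ≤ L.c s.1 β → |(F β).σ s t - t| ≤ μ β s) ∧
        ∀ t, |t - y' (tg s.1 β)| ≤ L.c s.1 β → |(F β).σ s t - t| ≤ μ β s)) :
    |(T true).toFun ((T false).toFun ((Θ true).toFun ((Θ false).toFun y))) (tg s.1 β) -
      (T true).toFun ((T false).toFun ((Θ true).toFun ((Θ false).toFun y'))) (tg s.1 β)| ≤
      A * |y (tg s.1 β) - y' (tg s.1 β)| + εθ * (A + εq) * ‖y - y'‖ := by
  have hA := H.A2
  have hτ := B.τ_pos s.1
  have hc := (L.lvs s.1 false).c0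
  have hD := (F false).D0 s
  have hN := norm_nonneg (y - y')
  have hεq0 : 0 ≤ εq := le_trans (by positivity) (hεq false)
  have m := H.step_mem false s hy
  have m' := H.step_mem false s hy'
  rw [H.map_eq, H.map_eq]
  cases β with
  | false =>
    rw [H.step_ne true s m (show tg s.1 false ≠ tg s.1 true from tg_ne_not s.1 false),
      H.step_ne true s m' (show tg s.1 false ≠ tg s.1 true from tg_ne_not s.1 false)]
    have h4 : εθ * ‖y - y'‖ ≤ εθ * (A + εq) * ‖y - y'‖ := by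
      refine mul_le_mul_of_nonneg_right ?_ hN
      nlinarith
    rcases hεθ with h | ⟨h, ho, ho'⟩
    · have h3 := mul_le_mul_of_nonneg_right h hN
      have h2 := H.step_le false s hy hy'
      linarith
    · have h3 := mul_le_mul_of_nonneg_right h hN
      have h2 := H.step_le_off false s hy hy' ho ho'
      linarith
  | true =>
    have e1 := H.step_ne false s hy (show tg s.1 true ≠ tg s.1 false from tg_ne_not s.1 true)
    have e2 := H.step_ne false s hy' (show tg s.1 true ≠ tg s.1 false from tg_ne_not s.1 true)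
    have h5 := H.step_norm_le false s (hεq false) hy hy'
    have h6 := mul_le_mul_of_nonneg_left h5 hεθ0
    have hN' := norm_nonneg ((T false).toFun ((Θ false).toFun y) -
      (T false).toFun ((Θ false).toFun y'))
    rcases hεθ with h | ⟨h, ho, ho'⟩
    · have h3 := mul_le_mul_of_nonneg_right h hN'
      have h2 := H.step_le true s m m'
      rw [e1, e2] at h2
      have h7 : εθ * ((A + εq) * ‖y - y'‖) = εθ * (A + εq) * ‖y - y'‖ := by ring
      linarith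
    · have h3 := mul_le_mul_of_nonneg_right h hN'
      have h2 := H.step_le_off true s m m' (by rw [e1]; exact ho) (by rw [e2]; exact ho')
      rw [e1, e2] at h2
      have h7 : εθ * ((A + εq) * ‖y - y'‖) = εθ * (A + εq) * ‖y - y'‖ := by ring
      linarith

/-- **the tangential coordinates** -/
theorem map_tg_le (s : S₀) {ε : ℝ}
    (hε : ∀ β, (6 * (F β).D s + L.c s.1 β) * (4 / B.τ s.1) ≤ ε) {y y' : V} (hy : y ∈ PK G s.1)
    (hy' : y' ∈ PK G s.1) (β : Bool) :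
    |(T true).toFun ((T false).toFun ((Θ true).toFun ((Θ false).toFun y))) (tg s.1 β) -
      (T true).toFun ((T false).toFun ((Θ true).toFun ((Θ false).toFun y'))) (tg s.1 β)| ≤
      A * |y (tg s.1 β) - y' (tg s.1 β)| + ε * (A + ε) * ‖y - y'‖ := by
  have hτ := B.τ_pos s.1
  have hc := (L.lvs s.1 false).c0
  have hD := (F false).D0 s
  have hε0 : 0 ≤ ε := le_trans (by positivity) (hε false)
  exact H.map_tg_le' s hε0 hε hy hy' β (Or.inl (hε β))

/-- **Lipschitz in the support of one plate** -/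
theorem map_le (s : S₀) {ε : ℝ}
    (hε : ∀ β, (6 * (F β).D s + L.c s.1 β) * (4 / B.τ s.1) ≤ ε) {y y' : V} (hy : y ∈ PK G s.1)
    (hy' : y' ∈ PK G s.1) :
    ‖(T true).toFun ((T false).toFun ((Θ true).toFun ((Θ false).toFun y))) -
      (T true).toFun ((T false).toFun ((Θ true).toFun ((Θ false).toFun y')))‖ ≤
      (A + ε * (A + ε)) * ‖y - y'‖ := by
  have hA := H.A2
  have hτ := B.τ_pos s.1
  have hc := (L.lvs s.1 false).c0
  have hD := (F false).D0 s
  have hN := norm_nonneg (y - y')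
  have hε0 : 0 ≤ ε := le_trans (by positivity) (hε false)
  have hle : ∀ i, |y i - y' i| ≤ ‖y - y'‖ := fun i => by
    have := norm_le_pi_norm (y - y') i
    rwa [Pi.sub_apply, Real.norm_eq_abs] at this
  rw [pi_norm_le_iff_of_nonneg (by positivity)]
  intro i
  rw [Pi.sub_apply, Real.norm_eq_abs]
  by_cases hi : i = K.nrm s.1
  · subst hi
    rw [H.map_nrm s hy, H.map_nrm s hy']
    have h2 := hle (K.nrm s.1)
    have h3 : 1 * ‖y - y'‖ ≤ (A + ε * (A + ε)) * ‖y - y'‖ :=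
      mul_le_mul_of_nonneg_right (by nlinarith) hN
    linarith
  · obtain ⟨β, rfl⟩ : ∃ β, i = tg s.1 β := ⟨bt s.1 i, (tg_bt s.1 hi).symm⟩
    refine (H.map_tg_le s hε hy hy' β).trans ?_
    have h2 : A * |y (tg s.1 β) - y' (tg s.1 β)| ≤ A * ‖y - y'‖ :=
      mul_le_mul_of_nonneg_left (hle _) (by linarith)
    linarith

/-- **locally Lipschitz everywhere** -/
theorem map_local {ε : ℝ}
    (hε : ∀ (s : S₀) β, (6 * (F β).D s + L.c s.1 β) * (4 / B.τ s.1) ≤ ε) (hε0 : 0 ≤ ε) {y : V}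
    (hy : y ∈ Λ) : ∀ᶠ y' in 𝓝 y,
    ‖(T true).toFun ((T false).toFun ((Θ true).toFun ((Θ false).toFun y'))) -
      (T true).toFun ((T false).toFun ((Θ true).toFun ((Θ false).toFun y)))‖ ≤
      (A + ε * (A + ε)) * ‖y' - y‖ := by
  have hA := H.A2
  exact local_lip_glue (P := fun s : S₀ => PK G s.1) (fun s => isClosed_PK G s.1) hΛ ThP.map_cont
    (by nlinarith) (lf_PK_sub G S₀) (fun s z hz z' hz' => H.map_le s (hε s) hz' hz)
    (fun z hz => H.map_off fun s hs => hz ⟨s, hs⟩) hy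

/-- **Lipschitz on convex sets** -/
theorem map_convex {ε : ℝ}
    (hε : ∀ (s : S₀) β, (6 * (F β).D s + L.c s.1 β) * (4 / B.τ s.1) ≤ ε) (hε0 : 0 ≤ ε)
    {C : Set V} (hC : Convex ℝ C) (hCΛ : C ⊆ Λ) {y y' : V} (hy : y ∈ C) (hy' : y' ∈ C) :
    ‖(T true).toFun ((T false).toFun ((Θ true).toFun ((Θ false).toFun y))) -
      (T true).toFun ((T false).toFun ((Θ true).toFun ((Θ false).toFun y')))‖ ≤
      (A + ε * (A + ε)) * ‖y - y'‖ :=
  P073.H142.lip_of_local hC (fun _ hx => (H.map_local hε hε0 (hCΛ hx)).filter_mono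
    nhdsWithin_le_nhds) y hy y' hy'

/-- **[PROT-P]** on a set with convex image -/
theorem prot {ε : ℝ}
    (hε : ∀ (s : S₀) β, (6 * (F β).D s + L.c s.1 β) * (4 / B.τ s.1) ≤ ε) (hε0 : 0 ≤ ε)
    {g : ConHomeo Ω Λ} {X : Set V} (hX : X ⊆ Ω) (hC : Convex ℝ (g.toFun '' X)) {x x' : V}
    (hx : x ∈ X) (hx' : x' ∈ X) :
    ‖(T true).toFun ((T false).toFun ((Θ true).toFun ((Θ false).toFun (g.toFun x)))) -
      (T true).toFun ((T false).toFun ((Θ true).toFun ((Θ false).toFun (g.toFun x'))))‖ ≤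
      (A + ε * (A + ε)) * ‖g.toFun x - g.toFun x'‖ :=
  H.map_convex hε hε0 hC (by rintro _ ⟨z, hz, rfl⟩; exact g.mapsTo (hX hz)) ⟨x, hx, rfl⟩
    ⟨x', hx', rfl⟩

end ThP2

end P073.H196
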