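import Vale.Agent.P073.H196.Croft5

/-!
# P073, block A14.6: the finiteness hypotheses of `exists_croft`
-/

open Set Metric Topology Filter

namespace P073.Croft

open Vale.Agent.P073.St (V)

/-- a family that is locally finite in `Λ` meets the image of a compact set finitely often -/
theorem finite_inter_image {κ : Type*} {Ω Λ : Set V} (h : P073.ConHomeo Ω Λ) {P : κ → Set V}
    (hlf : ∀ y ∈ Λ, ∃ O ∈ 𝓝 y, {f | (P f ∩ O).Nonempty}.Finite) {K : Set V}
    (hK : IsCompact K) (hKΩ : K ⊆ Ω) : {f | (h.toFun '' K ∩ P f).Nonempty}.Finite := by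
  have hc : IsCompact (h.toFun '' K) := hK.image_of_continuousOn (h.cont.mono hKΩ)
  have hsub : h.toFun '' K ⊆ Λ := by
    rintro _ ⟨x, hx, rfl⟩
    exact h.mapsTo (hKΩ hx)
  choose! O hO hfin using hlf
  obtain ⟨T, hT, hcov⟩ := hc.elim_nhds_subcover O (fun y hy => hO y (hsub hy))
  refine (T.finite_toSet.biUnion fun y hy => hfin y (hsub (hT y hy))).subset ?_
  rintro f ⟨y, hy, hyf⟩
  obtain ⟨z, hz, hyz⟩ := mem_iUnion₂.1 (hcov hy)
  exact mem_biUnion (show z ∈ (T : Set V) from hz) ⟨y, hyf, hyz⟩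

/-- a family of sets that is finite on compact subsets of `Ω` meets the preimage of a compact set
finitely often -/
theorem finite_image_inter {ι : Type*} {Ω Λ : Set V} (h : P073.ConHomeo Ω Λ) {S : ι → Set V}
    (hS : ∀ e, S e ⊆ Ω) (hlf : ∀ K ⊆ Ω, IsCompact K → {e | (S e ∩ K).Nonempty}.Finite)
    {P : Set V} (hP : IsCompact P) (hPΛ : P ⊆ Λ) :
    {e | (h.toFun '' S e ∩ P).Nonempty}.Finite := by
  have hc : IsCompact (h.invFun '' P) := hP.image_of_continuousOn (h.cont_inv.mono hPΛ)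
  have hsub : h.invFun '' P ⊆ Ω := by
    rintro _ ⟨y, hy, rfl⟩
    exact h.mapsTo_inv (hPΛ hy)
  refine (hlf _ hsub hc).subset ?_
  rintro e ⟨_, ⟨x, hx, rfl⟩, hxP⟩
  exact ⟨x, hx, h.toFun x, hxP, h.left_inv (hS e hx)⟩

/-- a family of nonempty subsets that is locally finite in an open (or any) subset of a second
countable space is countable -/
theorem countable_of_lf {κ : Type*} {Λ : Set V} {P : κ → Set V} (hne : ∀ f, (P f).Nonempty)
    (hsub : ∀ f, P f ⊆ Λ) (hlf : ∀ y ∈ Λ, ∃ O ∈ 𝓝 y, {f | (P f ∩ O).Nonempty}.Finite) :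
    Countable κ := by
  choose! O hO hfin using hlf
  obtain ⟨T, hTΛ, hT, hcov⟩ := TopologicalSpace.countable_cover_nhdsWithin
    (f := O) (s := Λ) (fun y hy => mem_nhdsWithin_of_mem_nhds (hO y hy))
  have hc : (⋃ y ∈ T, {f | (P f ∩ O y).Nonempty}).Countable :=
    hT.biUnion fun y hy => (hfin y (hTΛ hy)).countable
  have : (univ : Set κ) ⊆ ⋃ y ∈ T, {f | (P f ∩ O y).Nonempty} := by
    intro f _
    obtain ⟨x, hx⟩ := hne f
    obtain ⟨y, hy, hxy⟩ := mem_iUnion₂.1 (hcov (hsub f hx))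
    exact mem_iUnion₂.2 ⟨y, hy, x, hx, hxy⟩
  exact countable_univ_iff.1 (hc.mono this)

end P073.Croft
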