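import Vale.Agent.P073.H196.PInMk
import Vale.Agent.P073.H155.Shared1

/-!
# P073, H196, [PCELL], [THETA], Round P: the numbers of the edges of protected cells and strips
-/

open Set Metric Topology Filter

namespace P073.H196

open P073 P073.H236 P073.H579

variable {E : Type*} [NormedAddCommGroup E] [NormedSpace ℝ E] {m : ℕ}

/-- positions in the flats determine the affine coordinate -/
theorem pos_inv {lo hi lo' hi' : ℝ → ℝ} {b s t : ℝ} (hs1 : lo b ≤ s) (hs2 : s ≤ hi b)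
    (hlt : lo b < hi b) (ht1 : lo' b ≤ t) (ht2 : t ≤ hi' b) (hlt' : lo' b < hi' b)
    (h : pos lo hi b s = pos lo' hi' b t) :
    (hi' b - lo' b) * s = (hi' b - lo' b) * lo b + (hi b - lo b) * (t - lo' b) := by
  rw [pos_of_mem hlt hs1 hs2, pos_of_mem hlt' ht1 ht2] at h
  have h1 : hi b - lo b ≠ 0 := by linarith
  have h2 : hi' b - lo' b ≠ 0 := by linarith
  rw [div_eq_div_iff h1 h2] at h
  linarith

/-- **edge numbers from a lift** -/
theorem exists_edgeNum_gen {a b : E} {h X f : E → Fin m → ℝ} {k k' : Fin m → ℝ → ℝ}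
    {L : Fin m → Finset ℝ} {lo hi om : Fin m → ℝ → ℝ} {c : Fin m → ℝ} {Λ La : ℝ}
    (hI : ∀ j, Ins1 (k j) (L j : Set ℝ) (lo j) (hi j))
    (hI' : ∀ j, Ins1 (k' j) (L j : Set ℝ) (fun β => β - c j) (fun β => β + c j))
    (hc : ∀ j, 0 < c j) (hsep : ∀ j, H236.Sepd (L j) (c j))
    (hinj : InjOn (fun s : ℝ => X (AffineMap.lineMap a b s)) (Icc 0 1))
    (hlev : ∀ x ∈ segment ℝ a b, ∀ j, h x j ∈ L j → X x j = h x j)
    (hV : ∀ x ∈ segment ℝ a b, ∀ j, h x j ∈ L j → ∃ t₁ t₄, VertAt a b X L c Λ x j t₁ t₄)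
    (hfix : ∀ x, CrsPt a b h L x → prodK k' (X x) = X x)
    (hlift : ∀ y ∈ segment ℝ a b, ∀ x, CrsPt a b h L x →
      (prodK k (f y) = h x ↔ prodK k' (X y) = X x))
    (hpos : ∀ y ∈ segment ℝ a b, ∀ j, ∀ b ∈ L j, pos (lo j) (hi j) b (f y j) =
      pos (fun β => β - c j) (fun β => β + c j) b (X y j))
    (hom : ∀ j, ∀ β ∈ L j, 0 ≤ om j β)
    (hLa0 : 0 ≤ La) (hLa : ∀ j, ∀ β ∈ L j, om j β * Λ ≤ La * ‖b - a‖ * c j) :
    ∃ s1 s2 s3 s4 : E → ℝ, EdgeNum a b h k L lo hi om La f s1 s2 s3 s4 := by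
  have hγ : ∀ s ∈ Icc (0:ℝ) 1, (AffineMap.lineMap a b s : E) ∈ segment ℝ a b := fun s hs => by
    rw [segment_eq_image_lineMap]; exact ⟨s, hs, rfl⟩
  refine exists_edgeNum hI' hc hsep hinj hlev hV (fun x hx s hs => ?_)
    (fun x hx j hj s hs he => ?_) (fun j β hβ => ((hI j).lt β hβ).le) hom hLa0 hLa
  · rw [hlift _ (hγ s hs) x hx, hfix x hx]
  · have hx' : CrsPt a b h L x := ⟨hx, j, hj⟩
    have h1 := (hlift _ (hγ s hs) x hx').1 he
    have e1 : k j (f (AffineMap.lineMap a b s) j) = h x j := congrFun he j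
    have e2 : k' j (X (AffineMap.lineMap a b s) j) = h x j := by
      rw [← hlev x hx j hj]; exact congrFun h1 j
    have f1 := ((hI j).flat _ (Finset.mem_coe.2 hj) _).1 e1
    have f2 := ((hI' j).flat _ (Finset.mem_coe.2 hj) _).1 e2
    have hp := hpos _ (hγ s hs) j _ hj
    have hcj := hc j
    have hlt := (hI j).lt _ (Finset.mem_coe.2 hj)
    have := pos_inv f1.1 f1.2 hlt f2.1 f2.2 (by show h x j - c j < h x j + c j; linarith) hp
    have e3 : h x j + c j - (h x j - c j) = 2 * c j := by ring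
    rw [e3] at this
    exact this

/-- **protected cells**: the edges in a plate -/
theorem LiftOut.exists_edgeNum {a b : E} {C : Set E} {L : Fin m → Finset ℝ} {h X : E → Fin m → ℝ}
    {k k' : Fin m → ℝ → ℝ} {lo hi om : Fin m → ℝ → ℝ} {c : Fin m → ℝ} {Γ : E → E}
    {Φ : E → Fin m → ℝ} (H : LiftOut C L h X k k' lo hi (fun j β => β - c j) (fun j β => β + c j) Γ Φ)
    (hh : InjOn h C) (hX : InjOn X C) (hS : SameLv C L h X) (hab : a ≠ b)
    (hsub : segment ℝ a b ⊆ C)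
    (hI : ∀ j, Ins1 (k j) (L j : Set ℝ) (lo j) (hi j))
    (hI' : ∀ j, Ins1 (k' j) (L j : Set ℝ) (fun β => β - c j) (fun β => β + c j))
    (hc : ∀ j, 0 < c j) (hsep : ∀ j, H236.Sepd (L j) (c j)) {Λ La : ℝ}
    (hV : ∀ x ∈ segment ℝ a b, ∀ j, h x j ∈ L j → ∃ t₁ t₄, VertAt a b X L c Λ x j t₁ t₄)
    (hfix : ∀ x, CrsPt a b h L x → prodK k' (X x) = X x)
    (hom : ∀ j, ∀ β ∈ L j, 0 ≤ om j β)
    (hLa0 : 0 ≤ La) (hLa : ∀ j, ∀ β ∈ L j, om j β * Λ ≤ La * ‖b - a‖ * c j) :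
    ∃ s1 s2 s3 s4 : E → ℝ, EdgeNum a b h k L lo hi om La Φ s1 s2 s3 s4 := by
  have hγ : ∀ s ∈ Icc (0:ℝ) 1, (AffineMap.lineMap a b s : E) ∈ segment ℝ a b := fun s hs => by
    rw [segment_eq_image_lineMap]; exact ⟨s, hs, rfl⟩
  refine exists_edgeNum_gen hI hI' hc hsep ?_ ?_ hV hfix ?_ ?_ hom hLa0 hLa
  · intro s hs s' hs' he
    exact AffineMap.lineMap_injective ℝ hab (hX (hsub (hγ s hs)) (hsub (hγ s' hs')) he)
  · intro x hx j hj
    exact (hS.eq (hsub hx) hj).1 rfl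
  · intro y hy x hx
    have hyC := hsub hy
    have hxC := hsub hx.1
    rw [H.lift y hyC, ← H.gam y hyC]
    constructor
    · intro he; rw [hh (H.maps hyC) hxC he]
    · intro he; rw [hX (H.maps hyC) hxC he]
  · intro y hy j β hβ
    exact H.pos y (hsub hy) j β hβ

/-- **strips**: `f = Θ ∘ h`, the edge is vertical in the thick cells -/
theorem exists_edgeNum_strip {a b : E} {h f : E → Fin m → ℝ} {k k' : Fin m → ℝ → ℝ}
    {L : Fin m → Finset ℝ} {lo hi om : Fin m → ℝ → ℝ} {c : Fin m → ℝ} {Λ La : ℝ} (hab : a ≠ b)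
    (hh : InjOn h (segment ℝ a b))
    (hI : ∀ j, Ins1 (k j) (L j : Set ℝ) (lo j) (hi j))
    (hI' : ∀ j, Ins1 (k' j) (L j : Set ℝ) (fun β => β - c j) (fun β => β + c j))
    (hc : ∀ j, 0 < c j) (hsep : ∀ j, H236.Sepd (L j) (c j))
    (hV : ∀ x ∈ segment ℝ a b, ∀ j, h x j ∈ L j → ∃ t₁ t₄, VertAt a b h L c Λ x j t₁ t₄)
    (hfix : ∀ x, CrsPt a b h L x → prodK k' (h x) = h x)
    (hth : ∀ y ∈ segment ℝ a b, ∀ j, k j (f y j) = k' j (h y j))
    (hpos : ∀ y ∈ segment ℝ a b, ∀ j, ∀ b ∈ L j, pos (lo j) (hi j) b (f y j) =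
      pos (fun β => β - c j) (fun β => β + c j) b (h y j))
    (hom : ∀ j, ∀ β ∈ L j, 0 ≤ om j β)
    (hLa0 : 0 ≤ La) (hLa : ∀ j, ∀ β ∈ L j, om j β * Λ ≤ La * ‖b - a‖ * c j) :
    ∃ s1 s2 s3 s4 : E → ℝ, EdgeNum a b h k L lo hi om La f s1 s2 s3 s4 := by
  have hγ : ∀ s ∈ Icc (0:ℝ) 1, (AffineMap.lineMap a b s : E) ∈ segment ℝ a b := fun s hs => by
    rw [segment_eq_image_lineMap]; exact ⟨s, hs, rfl⟩
  refine exists_edgeNum_gen hI hI' hc hsep ?_ (fun _ _ _ _ => rfl) hV hfix (fun y hy x _ => ?_)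
    hpos hom hLa0 hLa
  · intro s hs s' hs' he
    exact AffineMap.lineMap_injective ℝ hab (hh (hγ s hs) (hγ s' hs') he)
  · have : prodK k (f y) = prodK k' (h y) := funext fun j => hth y hy j
    rw [this]

/-- a vertical piece of H155 is a vertical crossing -/
theorem vertAt_of_vpiece {a b : E} {X : E → Fin m → ℝ} {L : Fin m → Finset ℝ}
    {c : Fin m → ℝ} {Lt : ℝ} {x : E} {j : Fin m} (hX : InjOn X (segment ℝ a b))
    (hx : x ∈ segment ℝ a b) (hc : 0 < c j) (hoff : ∀ i, i ≠ j → ∀ β ∈ L i, c i < |X x i - β|)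
    (hP : H155.VPiece a b X (c j) Lt x j) :
    ∃ t₁ t₄, VertAt a b X L c (Lt * ‖b - a‖) x j t₁ t₄ := by
  obtain ⟨u, v, ψ, hu, huv, hv, h1, h2, h3, h4, h5⟩ := hP
  have hγ : ∀ s ∈ Icc (0:ℝ) 1, (AffineMap.lineMap a b s : E) ∈ segment ℝ a b := fun s hs => by
    rw [segment_eq_image_lineMap]; exact ⟨s, hs, rfl⟩
  have hin : ∀ s ∈ Icc u v, s ∈ Icc (0:ℝ) 1 := fun s hs => ⟨hu.le.trans hs.1, hs.2.trans hv.le⟩
  have hval : ∀ s ∈ Icc u v, X (AffineMap.lineMap a b s) j = ψ s := fun s hs => by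
    rw [h1 s hs, Function.update_self]
  -- the main part, for an increasing or decreasing `ψ`
  obtain ⟨sl, hsl, el⟩ := h4 (show X x j - 2 * c j ∈ Icc (X x j - 2 * c j) (X x j + 2 * c j) from
    ⟨le_rfl, by linarith⟩)
  obtain ⟨sr, hsr, er⟩ := h4 (show X x j + 2 * c j ∈ Icc (X x j - 2 * c j) (X x j + 2 * c j) from
    ⟨by linarith, le_rfl⟩)
  obtain ⟨sx, hsx, ex⟩ := h4 (show X x j ∈ Icc (X x j - 2 * c j) (X x j + 2 * c j) from
    ⟨by linarith, by linarith⟩)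
  have hxx : (AffineMap.lineMap a b sx : E) = x := by
    refine hX (hγ sx (hin sx hsx)) hx ?_
    rw [h1 sx hsx, ex, Function.update_eq_self]
  have cst : ∀ t₁ ∈ Icc u v, ∀ t₄ ∈ Icc u v, ∀ i, i ≠ j → ∀ s ∈ Icc t₁ t₄,
      X (AffineMap.lineMap a b s) i = X x i := fun t₁ h6 t₄ h7 i hi s hs => by
    rw [h1 s ⟨h6.1.trans hs.1, hs.2.trans h7.2⟩, Function.update_of_ne hi]
  have lip : ∀ t₁ ∈ Icc u v, ∀ t₄ ∈ Icc u v, ∀ s ∈ Icc t₁ t₄, ∀ s' ∈ Icc t₁ t₄,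
      |X (AffineMap.lineMap a b s) j - X (AffineMap.lineMap a b s') j| ≤
        Lt * ‖b - a‖ * |s - s'| := fun t₁ h6 t₄ h7 s hs s' hs' => by
    have m1 : s ∈ Icc u v := ⟨h6.1.trans hs.1, hs.2.trans h7.2⟩
    have m2 : s' ∈ Icc u v := ⟨h6.1.trans hs'.1, hs'.2.trans h7.2⟩
    rw [hval s m1, hval s' m2]
    exact h5 s m1 s' m2
  rcases h2.strictMonoOn_of_injOn_Icc' huv.le h3 with hm | hm
  · have l1 : sl < sx := (hm.lt_iff_lt hsl hsx).1 (by rw [el, ex]; linarith)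
    have l2 : sx < sr := (hm.lt_iff_lt hsx hsr).1 (by rw [er, ex]; linarith)
    refine ⟨sl, sr, hu.trans_le hsl.1, hsr.2.trans_lt hv, ⟨sx, ⟨l1, l2⟩, hxx⟩,
      cst sl hsl sr hsr, hoff, lip sl hsl sr hsr, Or.inl ⟨fun s hs s' hs' hss => ?_, ?_, ?_⟩⟩
    · have m1 : s ∈ Icc u v := ⟨hsl.1.trans hs.1, hs.2.trans hsr.2⟩
      have m2 : s' ∈ Icc u v := ⟨hsl.1.trans hs'.1, hs'.2.trans hsr.2⟩
      show X _ j < X _ j
      rw [hval s m1, hval s' m2]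
      exact hm m1 m2 hss
    · rw [hval sl hsl, el]
    · rw [hval sr hsr, er]
  · have l1 : sr < sx := (hm.lt_iff_gt hsx hsr).1 (by rw [er, ex]; linarith)
    have l2 : sx < sl := (hm.lt_iff_gt hsl hsx).1 (by rw [el, ex]; linarith)
    refine ⟨sr, sl, hu.trans_le hsr.1, hsl.2.trans_lt hv, ⟨sx, ⟨l1, l2⟩, hxx⟩,
      cst sr hsr sl hsl, hoff, lip sr hsr sl hsl, Or.inr ⟨fun s hs s' hs' hss => ?_, ?_, ?_⟩⟩
    · have m1 : s ∈ Icc u v := ⟨hsr.1.trans hs.1, hs.2.trans hsl.2⟩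
      have m2 : s' ∈ Icc u v := ⟨hsr.1.trans hs'.1, hs'.2.trans hsl.2⟩
      show X _ j < X _ j
      rw [hval s m1, hval s' m2]
      exact hm m1 m2 hss
    · rw [hval sr hsr, er]
    · rw [hval sl hsl, el]

/-- a monotone crossing is vertical: all other coordinates are constant on the edge -/
theorem vertAt_mono {a b : E} {X : E → Fin m → ℝ} {L : Fin m → Finset ℝ}
    {c : Fin m → ℝ} {j : Fin m} {Λ : ℝ}
    (hcst : ∀ i, i ≠ j → ∀ s ∈ Icc (0:ℝ) 1, ∀ s' ∈ Icc (0:ℝ) 1,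
      X (AffineMap.lineMap a b s) i = X (AffineMap.lineMap a b s') i)
    (hlip : ∀ s ∈ Icc (0:ℝ) 1, ∀ s' ∈ Icc (0:ℝ) 1,
      |X (AffineMap.lineMap a b s) j - X (AffineMap.lineMap a b s') j| ≤ Λ * |s - s'|)
    (hX : InjOn X (segment ℝ a b)) (hab : a ≠ b) {x : E} (hx : x ∈ segment ℝ a b)
    (hc : 0 < c j) (hoff : ∀ i, i ≠ j → ∀ β ∈ L i, c i < |X x i - β|)
    (ha : 2 * c j < |X a j - X x j|) (hb : 2 * c j < |X b j - X x j|) :
    ∃ t₁ t₄, VertAt a b X L c Λ x j t₁ t₄ := by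
  obtain ⟨sx, hsx, hxx⟩ : ∃ s ∈ Icc (0:ℝ) 1, (AffineMap.lineMap a b s : E) = x := by
    rw [segment_eq_image_lineMap] at hx; exact hx
  set g : ℝ → ℝ := fun s => X (AffineMap.lineMap a b s) j with hg
  have hγ : ∀ s ∈ Icc (0:ℝ) 1, (AffineMap.lineMap a b s : E) ∈ segment ℝ a b := fun s hs => by
    rw [segment_eq_image_lineMap]; exact ⟨s, hs, rfl⟩
  have hginj : InjOn g (Icc 0 1) := by
    intro s hs s' hs' he
    have : X (AffineMap.lineMap a b s) = X (AffineMap.lineMap a b s') := by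
      ext i
      by_cases hi : i = j
      · subst hi; exact he
      · exact hcst i hi s hs s' hs'
    exact AffineMap.lineMap_injective ℝ hab (hX (hγ s hs) (hγ s' hs') this)
  have hgc : ContinuousOn g (Icc 0 1) := by
    intro s hs
    rw [ContinuousWithinAt, tendsto_iff_dist_tendsto_zero]
    have h1 : Tendsto (fun s' : ℝ => Λ * |s' - s|) (𝓝[Icc 0 1] s) (𝓝 0) := by
      have h2 : Tendsto (fun s' : ℝ => Λ * |s' - s|) (𝓝 s) (𝓝 (Λ * |s - s|)) := by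
        have : Continuous fun s' : ℝ => Λ * |s' - s| := by fun_prop
        exact this.tendsto s
      rw [sub_self, abs_zero, mul_zero] at h2
      exact h2.mono_left nhdsWithin_le_nhds
    refine squeeze_zero' (Eventually.of_forall fun _ => dist_nonneg) ?_ h1
    filter_upwards [self_mem_nhdsWithin] with s' hs'
    rw [Real.dist_eq]
    exact hlip s' hs' s hs
  have g0 : g 0 = X a j := by simp [hg]
  have g1 : g 1 = X b j := by simp [hg]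
  have gx : g sx = X x j := by show X _ j = X x j; rw [hxx]
  rw [← g0, ← gx] at ha
  rw [← g1, ← gx] at hb
  have cst : ∀ t₁ ∈ Icc (0:ℝ) 1, ∀ t₄ ∈ Icc (0:ℝ) 1, ∀ i, i ≠ j → ∀ s ∈ Icc t₁ t₄,
      X (AffineMap.lineMap a b s) i = X x i := fun t₁ h6 t₄ h7 i hi s hs => by
    rw [← hxx]; exact hcst i hi s ⟨h6.1.trans hs.1, hs.2.trans h7.2⟩ sx hsx
  have lip : ∀ t₁ ∈ Icc (0:ℝ) 1, ∀ t₄ ∈ Icc (0:ℝ) 1, ∀ s ∈ Icc t₁ t₄, ∀ s' ∈ Icc t₁ t₄,
      |X (AffineMap.lineMap a b s) j - X (AffineMap.lineMap a b s') j| ≤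
        Λ * |s - s'| := fun t₁ h6 t₄ h7 s hs s' hs' =>
    hlip s ⟨h6.1.trans hs.1, hs.2.trans h7.2⟩ s' ⟨h6.1.trans hs'.1, hs'.2.trans h7.2⟩
  have z0 : (0:ℝ) ∈ Icc (0:ℝ) 1 := ⟨le_rfl, zero_le_one⟩
  have z1 : (1:ℝ) ∈ Icc (0:ℝ) 1 := ⟨zero_le_one, le_rfl⟩
  rcases hgc.strictMonoOn_of_injOn_Icc' zero_le_one hginj with hm | hm
  · -- increasing
    have a1 : g 0 ≤ g sx := hm.monotoneOn z0 hsx hsx.1
    have a2 : g sx ≤ g 1 := hm.monotoneOn hsx z1 hsx.2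
    have a3 : 2 * c j < g sx - g 0 := by
      rw [abs_of_nonpos (by linarith)] at ha; linarith
    have a4 : 2 * c j < g 1 - g sx := by
      rw [abs_of_nonneg (by linarith)] at hb; exact hb
    obtain ⟨sl, hsl, el⟩ := intermediate_value_Icc hsx.1 (hgc.mono (Icc_subset_Icc_right hsx.2))
      (show g sx - 2 * c j ∈ Icc (g 0) (g sx) from ⟨by linarith, by linarith⟩)
    obtain ⟨sr, hsr, er⟩ := intermediate_value_Icc hsx.2 (hgc.mono (Icc_subset_Icc_left hsx.1))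
      (show g sx + 2 * c j ∈ Icc (g sx) (g 1) from ⟨by linarith, by linarith⟩)
    have ml : sl ∈ Icc (0:ℝ) 1 := ⟨hsl.1, hsl.2.trans hsx.2⟩
    have mr : sr ∈ Icc (0:ℝ) 1 := ⟨hsx.1.trans hsr.1, hsr.2⟩
    have l0 : 0 < sl := (hm.lt_iff_lt z0 ml).1 (by rw [el]; linarith)
    have l1 : sl < sx := (hm.lt_iff_lt ml hsx).1 (by rw [el]; linarith)
    have l2 : sx < sr := (hm.lt_iff_lt hsx mr).1 (by rw [er]; linarith)
    have l3 : sr < 1 := (hm.lt_iff_lt mr z1).1 (by rw [er]; linarith)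
    refine ⟨sl, sr, l0, l3, ⟨sx, ⟨l1, l2⟩, hxx⟩, cst sl ml sr mr, hoff, lip sl ml sr mr,
      Or.inl ⟨fun s hs s' hs' hss => hm ⟨ml.1.trans hs.1, hs.2.trans mr.2⟩
        ⟨ml.1.trans hs'.1, hs'.2.trans mr.2⟩ hss, ?_, ?_⟩⟩
    · show g sl = _; rw [el, gx]
    · show g sr = _; rw [er, gx]
  · -- decreasing
    have a1 : g sx ≤ g 0 := hm.antitoneOn z0 hsx hsx.1
    have a2 : g 1 ≤ g sx := hm.antitoneOn hsx z1 hsx.2
    have a3 : 2 * c j < g 0 - g sx := by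
      rw [abs_of_nonneg (by linarith)] at ha; exact ha
    have a4 : 2 * c j < g sx - g 1 := by
      rw [abs_of_nonpos (by linarith)] at hb; linarith
    obtain ⟨sl, hsl, el⟩ := intermediate_value_Icc' hsx.1 (hgc.mono (Icc_subset_Icc_right hsx.2))
      (show g sx + 2 * c j ∈ Icc (g sx) (g 0) from ⟨by linarith, by linarith⟩)
    obtain ⟨sr, hsr, er⟩ := intermediate_value_Icc' hsx.2 (hgc.mono (Icc_subset_Icc_left hsx.1))
      (show g sx - 2 * c j ∈ Icc (g 1) (g sx) from ⟨by linarith, by linarith⟩)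
    have ml : sl ∈ Icc (0:ℝ) 1 := ⟨hsl.1, hsl.2.trans hsx.2⟩
    have mr : sr ∈ Icc (0:ℝ) 1 := ⟨hsx.1.trans hsr.1, hsr.2⟩
    have l0 : 0 < sl := (hm.lt_iff_gt ml z0).1 (by rw [el]; linarith)
    have l1 : sl < sx := (hm.lt_iff_gt hsx ml).1 (by rw [el]; linarith)
    have l2 : sx < sr := (hm.lt_iff_gt mr hsx).1 (by rw [er]; linarith)
    have l3 : sr < 1 := (hm.lt_iff_gt z1 mr).1 (by rw [er]; linarith)
    refine ⟨sl, sr, l0, l3, ⟨sx, ⟨l1, l2⟩, hxx⟩, cst sl ml sr mr, hoff, lip sl ml sr mr,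
      Or.inr ⟨fun s hs s' hs' hss => hm ⟨ml.1.trans hs.1, hs.2.trans mr.2⟩
        ⟨ml.1.trans hs'.1, hs'.2.trans mr.2⟩ hss, ?_, ?_⟩⟩
    · show g sl = _; rw [el, gx]
    · show g sr = _; rw [er, gx]

end P073.H196
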