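import Vale.Agent.P073.H579.FaceMet
import Vale.Agent.P073.H236.QS

/-!
# P073, H196, **[LIFT]**: insertion on a protected cell

`C` is a cell with ideal coordinates `X : C → V` (a homeomorphism onto a set which is preserved by
the collapse `prodK k'`), and `h` has the same levels as `X`. Then the cell is homeomorphic to
`preQ k h C` by an explicit map `Φ`: `prodK k (Φ x) = h (Γ x)`, `Γ = X⁻¹ ∘ prodK k' ∘ X`, and the
position of `Φ x j` in the flat over `b` is the position of `X x j` in the flat of `k'`.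
-/

set_option linter.unusedSectionVars false

open Set Metric Topology Filter

namespace P073.H196

open P073 P073.H31 P073.H579

variable {E : Type*} [NormedAddCommGroup E] [NormedSpace ℝ E] {m : ℕ}

/-- the list of all sheets -/
theorem exists_sheets [Inhabited (Fin m)] (L : Fin m → Finset ℝ) :
    ∃ (n : ℕ) (cd : ℕ → Fin m) (lev : ℕ → ℝ), (∀ i < n, lev i ∈ L (cd i)) ∧
      (∀ j, ∀ b ∈ L j, ∃ i < n, cd i = j ∧ lev i = b) ∧
      ∀ i < n, ∀ i' < n, cd i = cd i' → lev i = lev i' → i = i' := by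
  classical
  set S : Finset ((_ : Fin m) × ℝ) := Finset.univ.sigma L with hS
  set e := S.equivFin with he
  refine ⟨S.card, fun i => if h : i < S.card then (e.symm ⟨i, h⟩).1.1 else default,
    fun i => if h : i < S.card then (e.symm ⟨i, h⟩).1.2 else 0, ?_, ?_, ?_⟩
  · intro i hi
    simp only [dif_pos hi]
    exact (Finset.mem_sigma.1 (e.symm ⟨i, hi⟩).2).2
  · intro j b hb
    have h1 : (⟨j, b⟩ : (_ : Fin m) × ℝ) ∈ S := by
      rw [hS, Finset.mem_sigma]; exact ⟨Finset.mem_univ _, hb⟩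
    refine ⟨e ⟨⟨j, b⟩, h1⟩, (e ⟨⟨j, b⟩, h1⟩).2, ?_, ?_⟩
    · simp only [dif_pos (e ⟨⟨j, b⟩, h1⟩).2, Fin.eta, Equiv.symm_apply_apply]
    · simp only [dif_pos (e ⟨⟨j, b⟩, h1⟩).2, Fin.eta, Equiv.symm_apply_apply]
  · intro i hi i' hi' h1 h2
    simp only [dif_pos hi, dif_pos hi'] at h1 h2
    have h3 : (e.symm ⟨i, hi⟩).1 = (e.symm ⟨i', hi'⟩).1 := Sigma.ext h1 (heq_of_eq h2)
    have h4 : e.symm ⟨i, hi⟩ = e.symm ⟨i', hi'⟩ := Subtype.ext h3
    have h5 := e.symm.injective h4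
    exact congrArg Fin.val h5

/-- two maps with the same levels -/
structure SameLv (C : Set E) (L : Fin m → Finset ℝ) (h X : E → Fin m → ℝ) : Prop where
  lt : ∀ x ∈ C, ∀ j, ∀ b ∈ L j, (h x j < b ↔ X x j < b)
  gt : ∀ x ∈ C, ∀ j, ∀ b ∈ L j, (b < h x j ↔ b < X x j)

namespace SameLv

variable {C : Set E} {L : Fin m → Finset ℝ} {h X : E → Fin m → ℝ}

theorem refl (C : Set E) (L : Fin m → Finset ℝ) (X : E → Fin m → ℝ) : SameLv C L X X :=
  ⟨fun _ _ _ _ _ => Iff.rfl, fun _ _ _ _ _ => Iff.rfl⟩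

theorem eq (H : SameLv C L h X) {x : E} (hx : x ∈ C) {j : Fin m} {b : ℝ} (hb : b ∈ L j) :
    h x j = b ↔ X x j = b := by
  constructor
  · intro h1
    exact le_antisymm (not_lt.1 fun h2 => absurd ((H.gt x hx j b hb).2 h2) (by rw [h1]; exact lt_irrefl _))
      (not_lt.1 fun h2 => absurd ((H.lt x hx j b hb).2 h2) (by rw [h1]; exact lt_irrefl _))
  · intro h1
    exact le_antisymm (not_lt.1 fun h2 => absurd ((H.gt x hx j b hb).1 h2) (by rw [h1]; exact lt_irrefl _))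
      (not_lt.1 fun h2 => absurd ((H.lt x hx j b hb).1 h2) (by rw [h1]; exact lt_irrefl _))

theorem symm (H : SameLv C L h X) : SameLv C L X h :=
  ⟨fun x hx j b hb => (H.lt x hx j b hb).symm, fun x hx j b hb => (H.gt x hx j b hb).symm⟩

theorem trans {Y : E → Fin m → ℝ} (H : SameLv C L h X) (H' : SameLv C L X Y) : SameLv C L h Y :=
  ⟨fun x hx j b hb => (H.lt x hx j b hb).trans (H'.lt x hx j b hb),
    fun x hx j b hb => (H.gt x hx j b hb).trans (H'.gt x hx j b hb)⟩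

theorem mono {C' : Set E} (H : SameLv C L h X) (hC : C' ⊆ C) : SameLv C' L h X :=
  ⟨fun x hx => H.lt x (hC hx), fun x hx => H.gt x (hC hx)⟩

end SameLv

/-- a map of the cell -/
structure CMap (C : Set E) (h : E → Fin m → ℝ) : Prop where
  comp : IsCompact C
  inj : InjOn h C
  cont : ContinuousOn h C
  con : ConicalOn h C

theorem faceIn_of {C : Set E} {L : Fin m → Finset ℝ} {h X : E → Fin m → ℝ} (hh : CMap C h)
    (hX : CMap C X) (H : SameLv C L h X) {n : ℕ} {cd : ℕ → Fin m} {lev : ℕ → ℝ}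
    (h1 : ∀ i < n, lev i ∈ L (cd i)) (h2 : ∀ j, ∀ b ∈ L j, ∃ i < n, cd i = j ∧ lev i = b)
    (h3 : ∀ i < n, ∀ i' < n, cd i = cd i' → lev i = lev i' → i = i') :
    FaceIn n C h (fun j => (L j : Set ℝ)) (fun i x => X x (cd i) - lev i) cd lev (fun _ => 1) where
  comp := hh.comp
  inj := hh.inj
  hc := hh.cont
  hk := hh.con
  fc := fun i _ => ((continuous_apply (cd i)).comp_continuousOn hX.cont).sub continuousOn_const
  eps := fun _ _ => Or.inl rfl
  mem := fun i hi => h1 i hi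
  cov := fun x hx j hj => by
    obtain ⟨i, hi, h4, h5⟩ := h2 j (h x j) hj
    refine ⟨i, hi, h4, ?_⟩
    show X x (cd i) - lev i = 0
    rw [h4, h5, (H.eq hx hj).1 rfl, sub_self]
  on := fun i hi x hx h4 => (H.eq hx (h1 i hi)).2 (sub_eq_zero.1 h4)
  uniq := fun i hi i' hi' h4 x hx h5 h6 => by
    refine h3 i hi i' hi' h4 ?_
    have h5 : X x (cd i) - lev i = 0 := h5
    have h6 : X x (cd i') - lev i' = 0 := h6
    rw [← h4] at h6
    linarith
  side := fun i hi x hx _ => Eventually.of_forall fun y hy => by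
    refine ⟨fun h4 => ?_, fun h4 => ?_⟩
    · have := (H.gt y hy (cd i) (lev i) (h1 i hi)).1 h4
      show 0 < 1 * (X y (cd i) - lev i)
      linarith
    · have := (H.lt y hy (cd i) (lev i) (h1 i hi)).1 h4
      show 1 * (X y (cd i) - lev i) < 0
      linarith

/-- the position in the flat over `b` -/
noncomputable def pos (lo hi : ℝ → ℝ) (b t : ℝ) : ℝ := cut01 ((t - lo b) / (hi b - lo b))

theorem rho_eq_pos {lo hi : ℝ → ℝ} {b : ℝ} (h : lo b < hi b) (t : ℝ) :
    rho lo hi b t = (hi b - lo b) * pos lo hi b t := rho_eq h t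

theorem pos_of_le {lo hi : ℝ → ℝ} {b t : ℝ} (h : lo b < hi b) (ht : t ≤ lo b) :
    pos lo hi b t = 0 :=
  cut01_of_le (div_nonpos_of_nonpos_of_nonneg (by linarith) (by linarith))

theorem pos_of_ge {lo hi : ℝ → ℝ} {b t : ℝ} (h : lo b < hi b) (ht : hi b ≤ t) :
    pos lo hi b t = 1 :=
  cut01_of_ge ((one_le_div (by linarith)).2 (by linarith))

theorem pos_of_mem {lo hi : ℝ → ℝ} {b t : ℝ} (h : lo b < hi b) (h1 : lo b ≤ t) (h2 : t ≤ hi b) :
    pos lo hi b t = (t - lo b) / (hi b - lo b) :=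
  cut01_of_mem (div_nonneg (by linarith) (by linarith)) ((div_le_one (by linarith)).2 (by linarith))

section
variable {C : Set E} {L : Fin m → Finset ℝ} {h X : E → Fin m → ℝ} {k : Fin m → ℝ → ℝ}
  {lo hi : Fin m → ℝ → ℝ}

/-- the band coordinate of `y` is the position of `y` in the flat -/
theorem zz_eq_pos (H : SameLv C L h X) {n : ℕ} {cd : ℕ → Fin m} {lev : ℕ → ℝ}
    (hF : FaceIn n C h (fun j => (L j : Set ℝ)) (fun i x => X x (cd i) - lev i) cd lev (fun _ => 1))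
    (hI : ∀ j, Ins1 (k j) (L j : Set ℝ) (lo j) (hi j)) {i : ℕ} (hi' : i < n) {y : Fin m → ℝ}
    (hy : y ∈ preQ k h C) : hF.zz lo hi k i y = pos (lo (cd i)) (hi (cd i)) (lev i) (y (cd i)) := by
  have hlev := hF.mem i hi'
  have hlt := (hI (cd i)).lt _ hlev
  have hK : h (hF.pt k y) (cd i) = k (cd i) (y (cd i)) := by rw [hF.h_pt hy]; rfl
  have hC := hF.pt_mem hy
  rcases lt_trichotomy (X (hF.pt k y) (cd i)) (lev i) with h1 | h1 | h1
  · rw [hF.zz_neg (by show X (hF.pt k y) (cd i) - lev i < 0; linarith)]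
    have h2 := (H.lt _ hC _ _ hlev).2 h1
    rw [hK] at h2
    exact (pos_of_le hlt ((hI (cd i)).lt_lo hlev h2).le).symm
  · have h2 := (H.eq hC hlev).2 h1
    rw [hK] at h2
    have h3 := ((hI (cd i)).flat _ hlev _).1 h2
    rw [hF.zz_zero (by show X (hF.pt k y) (cd i) - lev i = 0; linarith), thk, if_pos rfl,
      pos_of_mem hlt h3.1 h3.2]
  · rw [hF.zz_pos (by show 0 < X (hF.pt k y) (cd i) - lev i; linarith)]
    have h2 := (H.gt _ hC _ _ hlev).2 h1
    rw [hK] at h2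
    exact (pos_of_ge hlt ((hI (cd i)).hi_lt hlev h2).le).symm

end

/-- the output of the lift -/
structure LiftOut (C : Set E) (L : Fin m → Finset ℝ) (h X : E → Fin m → ℝ)
    (k k' : Fin m → ℝ → ℝ) (lo hi lo' hi' : Fin m → ℝ → ℝ) (Γ : E → E) (Φ : E → Fin m → ℝ) :
    Prop where
  maps : MapsTo Γ C C
  cont : ContinuousOn Γ C
  con : ConicalOn Γ C
  gam : ∀ x ∈ C, X (Γ x) = prodK k' (X x)
  lift : ∀ x ∈ C, prodK k (Φ x) = h (Γ x)
  pos : ∀ x ∈ C, ∀ j, ∀ b ∈ L j, pos (lo j) (hi j) b (Φ x j) = pos (lo' j) (hi' j) b (X x j)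

/-- **[LIFT]** insertion on a protected cell -/
theorem exists_lift [Inhabited (Fin m)] {C : Set E} {L : Fin m → Finset ℝ} {h X : E → Fin m → ℝ}
    (hh : CMap C h) (hX : CMap C X) (H : SameLv C L h X) {k k' : Fin m → ℝ → ℝ}
    {lo hi lo' hi' : Fin m → ℝ → ℝ} (hI : ∀ j, Ins1 (k j) (L j : Set ℝ) (lo j) (hi j))
    (hI' : ∀ j, Ins1 (k' j) (L j : Set ℝ) (lo' j) (hi' j))
    (hbox : ∀ y, prodK k' y ∈ X '' C ↔ y ∈ X '' C) :
    ∃ (Γ : E → E) (Φ : ConHomeo C (preQ k h C)),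
      LiftOut C L h X k k' lo hi lo' hi' Γ Φ.toFun := by
  obtain ⟨n, cd, lev, h1, h2, h3⟩ := exists_sheets L
  have hF := faceIn_of hh hX H h1 h2 h3
  have hF' := faceIn_of hX hX (SameLv.refl C L X) h1 h2 h3
  have hpre : X '' C = preQ k' X C := by
    ext y; exact (hbox y).symm
  set ξ := FaceIn.xi hF hI with hξ
  set ξ' := FaceIn.xi hF' hI' with hξ'
  set A : ConHomeo C (preQ k' X C) := hF'.hom.cast rfl hpre with hA
  have hAX : ∀ x, A.toFun x = X x := fun x => by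
    show hF'.hom.toFun x = X x
    rw [hF'.hom_toFun]
  set q : E → E × (Fin n → ℝ) := fun x => ξ'.invFun (X x) with hq
  have hXm : ∀ {x}, x ∈ C → X x ∈ preQ k' X C := fun {x} hx => hpre ▸ mem_image_of_mem X hx
  have hqm : ∀ {x}, x ∈ C → q x ∈ Fil n n C fun i x => X x (cd i) - lev i := fun {x} hx =>
    ξ'.mapsTo_inv (hXm hx)
  have hq1 : ∀ {x}, x ∈ C → ξ'.toFun (q x) = X x := fun {x} hx => ξ'.right_inv (hXm hx)
  have hcq : ContinuousOn q C := ξ'.cont_inv.comp hX.cont fun x hx => hXm hx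
  have hkq : ConicalOn q C := ξ'.conical_inv.comp hX.con (fun x hx => hXm hx) hX.cont
  have hgam : ∀ x ∈ C, X (q x).1 = prodK k' (X x) := fun x hx => by
    have h4 := FaceIn.prodK_xi hF' hI' (hqm hx)
    rw [← hq1 hx]
    exact h4.symm
  refine ⟨fun x => (q x).1, A.trans (ξ'.symm.trans ξ), fun x hx => (hqm hx).1,
    continuous_fst.comp_continuousOn hcq, hkq.linear_comp (LinearMap.fst ℝ E (Fin n → ℝ)), hgam,
    fun x hx => ?_, fun x hx j b hb => ?_⟩
  · show prodK k (ξ.toFun (ξ'.invFun (A.toFun x))) = h (q x).1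
    rw [hAX]
    exact FaceIn.prodK_xi hF hI (hqm hx)
  · obtain ⟨i, hin, rfl, rfl⟩ := h2 j b hb
    have e1 : (A.trans (ξ'.symm.trans ξ)).toFun x = ξ.toFun (q x) := by
      show ξ.toFun (ξ'.invFun (A.toFun x)) = _
      rw [hAX]
    rw [e1, ← zz_eq_pos H hF hI hin (ξ.mapsTo (hqm hx)),
      ← zz_eq_pos (SameLv.refl C L X) hF' hI' hin (hXm hx)]
    have e2 := FaceIn.zz_xi hF hI (hqm hx) ⟨i, hin⟩
    have e3 := FaceIn.zz_xi hF' hI' (hqm hx) ⟨i, hin⟩
    have e4 : (FaceIn.xi hF' hI').toFun (q x) = X x := hq1 hx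
    rw [e4] at e3
    exact e2.trans e3.symm

/-! ### Consequences -/

namespace LiftOut

variable {C : Set E} {L : Fin m → Finset ℝ} {h X : E → Fin m → ℝ} {k k' : Fin m → ℝ → ℝ}
  {lo hi lo' hi' : Fin m → ℝ → ℝ} {Γ : E → E}

/-- **uniqueness**, one coordinate -/
theorem coord_eq {Φ : E → Fin m → ℝ} (H : LiftOut C L h X k k' lo hi lo' hi' Γ Φ)
    (hI : ∀ j, Ins1 (k j) (L j : Set ℝ) (lo j) (hi j)) {x : E} (hx : x ∈ C) {j : Fin m} {t : ℝ}
    (h1 : k j t = h (Γ x) j)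
    (h2 : ∀ b ∈ L j, P073.H196.pos (lo j) (hi j) b t = P073.H196.pos (lo' j) (hi' j) b (X x j)) :
    Φ x j = t := by
  have h3 : k j (Φ x j) = h (Γ x) j := congrFun (H.lift x hx) j
  by_cases hb : h (Γ x) j ∈ L j
  · have h4 := H.pos x hx j _ hb
    rw [← h2 _ hb] at h4
    have h5 := ((hI j).flat _ hb _).1 h3
    have h6 := ((hI j).flat _ hb _).1 h1
    have hlt := (hI j).lt _ hb
    rw [pos_of_mem hlt h5.1 h5.2, pos_of_mem hlt h6.1 h6.2] at h4
    have hd : hi j (h (Γ x) j) - lo j (h (Γ x) j) ≠ 0 := by linarith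
    have h7 := (div_left_inj' hd).1 h4
    linarith
  · exact (hI j).inj _ _ (h3.trans h1.symm) (by rw [h3]; exact hb)

/-- where the ideal coordinate is right, nothing changes -/
theorem coord_self {Φ : E → Fin m → ℝ} (H : LiftOut C L h X k k lo hi lo hi Γ Φ)
    (hI : ∀ j, Ins1 (k j) (L j : Set ℝ) (lo j) (hi j)) {x : E} (hx : x ∈ C) {j : Fin m}
    (h1 : h (Γ x) j = X (Γ x) j) : Φ x j = X x j :=
  H.coord_eq hI hx (by rw [h1, congrFun (H.gam x hx) j]; rfl) fun _ _ => rfl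

/-- **images of faces** -/
theorem image_eq {Φ : ConHomeo C (preQ k h C)}
    (H : LiftOut C L h X k k' lo hi lo' hi' Γ Φ.toFun) (hinj : InjOn h C) {F : Set E}
    (hF : F ⊆ C) (h1 : ∀ x ∈ C, (x ∈ F ↔ Γ x ∈ F)) : Φ.toFun '' F = preQ k h F := by
  apply Subset.antisymm
  · rintro _ ⟨x, hx, rfl⟩
    exact ⟨Γ x, (h1 x (hF hx)).1 hx, (H.lift x (hF hx)).symm⟩
  · rintro y ⟨z, hz, hzy⟩
    have hy : y ∈ preQ k h C := ⟨z, hF hz, hzy⟩
    refine ⟨Φ.invFun y, ?_, Φ.right_inv hy⟩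
    have hx := Φ.mapsTo_inv hy
    have h2 := H.lift _ hx
    rw [Φ.right_inv hy, ← hzy] at h2
    have h3 := hinj (hF hz) (H.maps hx) h2
    exact (h1 _ hx).2 (h3 ▸ hz)

/-- a rectangle in the ideal coordinates is preserved by `Γ` -/
theorem rect {Φ : E → Fin m → ℝ} (H : LiftOut C L h X k k' lo hi lo' hi' Γ Φ) {a b : Fin m → ℝ}
    (hab : ∀ j t, (a j ≤ t ∧ t ≤ b j) ↔ (a j ≤ k' j t ∧ k' j t ≤ b j)) {F : Set E}
    (hF : ∀ x ∈ C, (x ∈ F ↔ ∀ j, a j ≤ X x j ∧ X x j ≤ b j)) : ∀ x ∈ C, (x ∈ F ↔ Γ x ∈ F) := by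
  intro x hx
  rw [hF x hx, hF _ (H.maps hx)]
  refine forall_congr' fun j => ?_
  rw [show X (Γ x) j = k' j (X x j) from congrFun (H.gam x hx) j]
  exact hab j _

end LiftOut

/-- an interval with fixed ends is preserved -/
theorem icc_iff {k : ℝ → ℝ} {L : Set ℝ} {lo hi : ℝ → ℝ} (hI : Ins1 k L lo hi) {a b : ℝ}
    (ha : k a = a) (hb : k b = b) (ha' : a ∉ L) (hb' : b ∉ L) (t : ℝ) :
    (a ≤ t ∧ t ≤ b) ↔ (a ≤ k t ∧ k t ≤ b) := by
  constructor
  · rintro ⟨h1, h2⟩
    exact ⟨by have := hI.mono h1; rwa [ha] at this, by have := hI.mono h2; rwa [hb] at this⟩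
  · rintro ⟨h1, h2⟩
    constructor
    · by_contra h3
      have h4 := hI.mono (not_le.1 h3).le
      rw [ha] at h4
      have h5 : k t = k a := by rw [ha]; exact le_antisymm h4 h1
      exact absurd (hI.inj _ _ h5 (by rw [h5, ha]; exact ha')) (not_le.1 h3).ne
    · by_contra h3
      have h4 := hI.mono (not_le.1 h3).le
      rw [hb] at h4
      have h5 : k t = k b := by rw [hb]; exact le_antisymm h2 h4
      exact absurd (hI.inj _ _ h5 (by rw [h5, hb]; exact hb')) (not_le.1 h3).ne'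

theorem rho_mono (lo hi : ℝ → ℝ) (a : ℝ) : Monotone (rho lo hi a) := fun s t h =>
  max_le_max le_rfl (min_le_min le_rfl (by linarith))

theorem rho_sub_le (lo hi : ℝ → ℝ) (a : ℝ) {s t : ℝ} (h : s ≤ t) :
    rho lo hi a t - rho lo hi a s ≤ t - s := by
  unfold rho
  have h1 : max 0 (min (hi a - lo a) (t - lo a)) ≤
      max (0 + (t - s)) (min (hi a - lo a + (t - s)) (s - lo a + (t - s))) :=
    max_le_max (by linarith) (min_le_min (by linarith) (by linarith))
  rw [min_add_add_right, max_add_add_right] at h1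
  linarith

/-- the total length of the disjoint flats between `s` and `t` is at most `t - s` -/
theorem sum_rho_sub_le {lo hi : ℝ → ℝ} {L : Finset ℝ} (hlt : ∀ a ∈ L, lo a ≤ hi a)
    (hsep : ∀ a ∈ L, ∀ b ∈ L, a < b → hi a ≤ lo b) {s t : ℝ} (hst : s ≤ t) :
    ∑ a ∈ L, rho lo hi a t - ∑ a ∈ L, rho lo hi a s ≤ t - s := by
  classical
  induction L using Finset.induction_on_max generalizing s t with
  | empty => simpa using hst
  | insert a L ha ih =>
    have haL : a ∉ L := fun h1 => lt_irrefl a (ha a h1)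
    have ih' := @ih (fun x hx => hlt x (Finset.mem_insert_of_mem hx)) (fun x hx y hy hxy =>
      hsep x (Finset.mem_insert_of_mem hx) y (Finset.mem_insert_of_mem hy) hxy)
    rw [Finset.sum_insert haL, Finset.sum_insert haL]
    have hleft : ∀ r, lo a ≤ r → ∑ b ∈ L, rho lo hi b r = ∑ b ∈ L, (hi b - lo b) := by
      intro r hr
      refine Finset.sum_congr rfl fun b hb => rho_of_ge ?_ (hlt b (Finset.mem_insert_of_mem hb))
      have := hsep b (Finset.mem_insert_of_mem hb) a (Finset.mem_insert_self _ _) (ha b hb)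
      linarith
    rcases le_total t (lo a) with h1 | h1
    · rw [rho_of_le h1, rho_of_le (hst.trans h1), zero_add, zero_add]
      exact ih' hst
    · rcases le_total (lo a) s with h2 | h2
      · rw [hleft t h1, hleft s h2]
        have := rho_sub_le lo hi a hst
        linarith
      · have e1 := ih' h2
        have e2 := rho_sub_le lo hi a h1
        rw [hleft _ le_rfl] at e1
        rw [hleft t h1, rho_of_le h2]
        rw [rho_of_le le_rfl] at e2
        linarith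

theorem sum_abs_rho_le {lo hi : ℝ → ℝ} {L : Finset ℝ} (hlt : ∀ a ∈ L, lo a ≤ hi a)
    (hsep : ∀ a ∈ L, ∀ b ∈ L, a < b → hi a ≤ lo b) (s t : ℝ) :
    ∑ a ∈ L, |rho lo hi a s - rho lo hi a t| ≤ |s - t| := by
  rcases le_total s t with h | h
  · rw [abs_of_nonpos (by linarith : s - t ≤ 0)]
    have h1 := sum_rho_sub_le hlt hsep h
    rw [← Finset.sum_sub_distrib] at h1
    refine le_trans (le_of_eq (Finset.sum_congr rfl fun a _ => ?_)) (h1.trans (by linarith))
    rw [abs_of_nonpos (by have := rho_mono lo hi a h; linarith)]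
    ring
  · rw [abs_of_nonneg (by linarith : 0 ≤ s - t)]
    have h1 := sum_rho_sub_le hlt hsep h
    rw [← Finset.sum_sub_distrib] at h1
    refine le_trans (le_of_eq (Finset.sum_congr rfl fun a _ => ?_)) h1
    rw [abs_of_nonneg (by have := rho_mono lo hi a h; linarith)]

theorem _root_.P073.H579.Ins1.sep {k : ℝ → ℝ} {L : Set ℝ} {lo hi : ℝ → ℝ}
    (hI : Ins1 k L lo hi) {a b : ℝ} (ha : a ∈ L) (hb : b ∈ L) (hab : a < b) : hi a ≤ lo b := by
  have h1 : k (lo b) = b := (hI.flat b hb _).2 ⟨le_refl _, (hI.lt b hb).le⟩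
  exact (hI.hi_lt ha (by rw [h1]; exact hab)).le

/-- **the tangential coordinate on a protected cell**: the sum of the changes of the positions in
the flats -/
theorem LiftOut.sum_rho_le {C : Set E} {L : Fin m → Finset ℝ} {h X : E → Fin m → ℝ}
    {k k' : Fin m → ℝ → ℝ} {lo hi lo' hi' : Fin m → ℝ → ℝ} {Γ : E → E} {Φ : E → Fin m → ℝ}
    (H : LiftOut C L h X k k' lo hi lo' hi' Γ Φ)
    (hI : ∀ j, Ins1 (k j) (L j : Set ℝ) (lo j) (hi j))
    (hI' : ∀ j, Ins1 (k' j) (L j : Set ℝ) (lo' j) (hi' j)) {j : Fin m} {R : ℝ} (hR : 0 ≤ R)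
    (hr : ∀ b ∈ L j, hi j b - lo j b ≤ R * (hi' j b - lo' j b)) {x y : E} (hx : x ∈ C)
    (hy : y ∈ C) :
    ∑ b ∈ L j, |rho (lo j) (hi j) b (Φ x j) - rho (lo j) (hi j) b (Φ y j)| ≤
      R * |X x j - X y j| := by
  have h1 := sum_abs_rho_le (fun a ha => ((hI' j).lt a ha).le)
    (fun a ha b hb hab => (hI' j).sep ha hb hab) (X x j) (X y j)
  refine le_trans ?_ (mul_le_mul_of_nonneg_left h1 hR)
  rw [Finset.mul_sum]
  refine Finset.sum_le_sum fun b hb => ?_
  have hlt := (hI j).lt b hb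
  have hlt' := (hI' j).lt b hb
  rw [rho_eq_pos hlt, rho_eq_pos hlt, rho_eq_pos hlt', rho_eq_pos hlt', H.pos x hx j b hb,
    H.pos y hy j b hb, ← mul_sub, ← mul_sub, abs_mul, abs_mul, abs_of_pos (by linarith : 0 <
    hi j b - lo j b), abs_of_pos (by linarith : 0 < hi' j b - lo' j b), ← mul_assoc]
  exact mul_le_mul_of_nonneg_right (hr b hb) (abs_nonneg _)

end P073.H196
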