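import Vale.Agent.P073.H196.GivRel
import Vale.Agent.P073.H429.S3T2

/-!
# P073, H196: the two-stage staircases of `S3` after `Θ`

* (`S3.thp2` of 429: the data `ThP2` of `Y₃.T2`, with `μ = muP`;)
* `S3.off_win`: points whose distance to the marked points is larger than the radius of the window;
* `S3.loc2`, `S3.loc2_off`: the local estimates.
-/

open Set Metric Topology Filter
open scoped ENNReal

set_option linter.unusedSectionVars false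

namespace Vale.Agent.P073.H267.K3

open _root_.P073 _root_.P073.Net _root_.P073.PA691 _root_.P073.H236 _root_.P073.H579
open _root_.P073.H936 _root_.P073.H936.K3
open _root_.P073.H142
open _root_.P073.H196 (ThP ThP2 LocJ1 ThP.two)
open _root_.P073.H345 (PK tg PLev)
open _root_.P073.H880.RP
open Vale.Agent.P073.St (V)
open Vale.Agent.P073.H471 Vale.Agent.P073.H267
open Vale.Agent.P073.H73 (Mesh)
open Vale.Agent.P073.H193 (Edges Cyc edges)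
open Vale.Agent.P073.H304 (Nb In Zmax)
open Vale.Agent.P073.H926
open Vale.Agent.P073.H238.K3
open Vale.Agent.P073.H687

variable {c₀ n δ : ℝ} {j : ℕ} {Ω Λ : Set V} {v w : V} {ρ : V → ℝ} {M : Mesh Ω} {h : ConHomeo Ω Λ}
  {J₀ J : Set (ℕ × (Fin 3 → ℤ))} {P Z : Set M.ι} {K : BoxCx Λ w}
  {D : KIn3 c₀ n j δ v w ρ M h J₀ J P Z} {C : Cells ρ w K} {C₀ μT : ℝ}
  {X : S1 D C C₀ μT} {Y₂ : S2 X} {Ys : Set M.κ} {sc : Sharp}

/-- the map before the hook on a set where `h3` is the given map -/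
theorem S3.map4_giv (Y₃ : S3 Y₂ Ys sc) {x : V} (hx : x ∈ Ω)
    (hg : Y₃.h3.toFun x = (Y₃.Θ true).toFun ((Y₃.Θ false).toFun (X.h1.toFun x))) :
    Y₃.h4.toFun x = (Y₃.T2 true).toFun ((Y₃.T2 false).toFun ((Y₃.Θ true).toFun
      ((Y₃.Θ false).toFun (X.h1.toFun x)))) := by
  rw [Y₃.map4 x hx, hg]
  rfl

/-- points whose distance to the marked points is at least `R + r₀` -/
theorem S3.off_win (Y₃ : S3 Y₂ Ys sc) (s : (D.dat C).S₀) (β : Bool) {t₀ r₀ : ℝ}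
    (hq : ∀ q ∈ Y₂.Q s.1 β, Y₂.R s.1 + r₀ ≤ |t₀ - q|) {t : ℝ} (ht : |t - t₀| ≤ r₀) :
    |(Y₃.F β).σ s t - t| ≤ Y₂.muP s.1 := by
  refine F3W_disp_out Y₂.Lw β s fun hw => ?_
  simp only [wnd, mem_iUnion, exists_prop] at hw
  obtain ⟨q, hq1, h2, h3⟩ := hw
  have h4 := hq q hq1
  have h5 := abs_sub_le t₀ t q
  have h6 : |t - q| < Y₂.R s.1 := abs_lt.2 ⟨by linarith, by linarith⟩
  rw [abs_sub_comm t₀ t] at h5
  linarith

/-- **all coordinates, everywhere**: with `(6 D + c) · 4 / τ ≤ 1` the constant is `10 + 11 = 21` -/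
theorem S3.loc2 (Y₃ : S3 Y₂ Ys sc) {y : V} (hy : y ∈ Λ) {ε : ℝ} (hε0 : 0 ≤ ε)
    (hε : ∀ s : (D.dat C).S₀, y ∈ PK (D.G C) s.1 → ∀ β,
      (6 * (Y₃.F β).D s + Y₂.L.c s.1 β) * (4 / (D.B C).τ s.1) ≤ ε) :
    LocJ (fun y => (Y₃.T2 true).toFun ((Y₃.T2 false).toFun ((Y₃.Θ true).toFun
      ((Y₃.Θ false).toFun y)))) 10 (ε * (10 + ε)) y :=
  Y₃.thp2.locJ hy hε0 hε

/-- **one coordinate**: off the windows only `6 muP + c` counts -/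
theorem S3.loc2_off (Y₃ : S3 Y₂ Ys sc) {y : V} (hy : y ∈ Λ) (l : Fin 3) {εθ εq : ℝ}
    (hεθ0 : 0 ≤ εθ) (hεq0 : 0 ≤ εq)
    (hεq : ∀ s : (D.dat C).S₀, y ∈ PK (D.G C) s.1 → ∀ β,
      (6 * (Y₃.F β).D s + Y₂.L.c s.1 β) * (4 / (D.B C).τ s.1) ≤ εq)
    (hεθ : ∀ s : (D.dat C).S₀, y ∈ PK (D.G C) s.1 → ∀ β, l = tg s.1 β →
      (6 * (Y₃.F β).D s + Y₂.L.c s.1 β) * (4 / (D.B C).τ s.1) ≤ εθ ∨
      ((6 * Y₂.muP s.1 + Y₂.L.c s.1 β) * (4 / (D.B C).τ s.1) ≤ εθ ∧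
        ∃ r₀, Y₂.L.c s.1 β < r₀ ∧ ∀ q ∈ Y₂.Q s.1 β, Y₂.R s.1 + r₀ ≤ |y l - q|)) :
    LocJ1 (fun y => (Y₃.T2 true).toFun ((Y₃.T2 false).toFun ((Y₃.Θ true).toFun
      ((Y₃.Θ false).toFun y)))) 10 (εθ * (10 + εq)) y l := by
  refine Y₃.thp2.locJ1 hy l hεθ0 hεq0 hεq fun s hs β hl => ?_
  rcases hεθ s hs β hl with h1 | ⟨h1, r₀, h2, h3⟩
  · exact Or.inl h1
  · exact Or.inr ⟨h1, r₀, h2, fun t ht => Y₃.off_win s β h3 ht⟩

end Vale.Agent.P073.H267.K3
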