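import Vale.Agent.P073.H84.Gen
import Vale.Agent.P073.H805.FB

/-!
# P073, block A14.5 [REG]: all but finitely many levels are regular, on compact sets
-/

open Set Metric Topology Filter

namespace P073.Croft

open P073.TR P073.H805

variable {E F : Type*} [NormedAddCommGroup E] [NormedSpace ℝ E]
  [NormedAddCommGroup F] [NormedSpace ℝ F]

/-- near a point `x` only the value `u x` can be critical -/
theorem reg_near {ι : Type*} [Finite ι] {u : E → ℝ}
    {M : ι → Set E} {Ω : Set E} (hΩ : IsOpen Ω) (hu : ConicalOn u Ω) (huc : ContinuousOn u Ω)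
    (H : ∀ i, ∀ x ∈ Ω, LocConeAt (M i) x) {x : E} (hx : x ∈ Ω) :
    ∃ r > 0, ∀ y ∈ Ω, dist y x < r → u y ≠ u x → Reg u M y := by
  have hO : IsOpen (Ω ×ˢ (univ : Set ℝ)) := hΩ.prod isOpen_univ
  have HG : ∀ j : Option ι, ∀ z ∈ Ω ×ˢ (univ : Set ℝ), LocConeAt (grF u M j) z := by
    rintro j ⟨x, y⟩ ⟨hx, -⟩
    have h1 := hu.conicalAt hΩ hx
    have h2 := huc.continuousAt (hΩ.mem_nhds hx)
    cases j with
    | none => exact locConeAt_gr (locConeAt_univ x) h1 h2 y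
    | some i => exact locConeAt_gr (H i x hx) h1 h2 y
  obtain ⟨r, hr, -, hloc⟩ := exists_locStr hO HG (x := (x, u x)) ⟨hx, mem_univ _⟩
  have hcu : ContinuousAt u x := huc.continuousAt (hΩ.mem_nhds hx)
  obtain ⟨δ, hδ, hδ'⟩ := Metric.continuousAt_iff.1 hcu r hr
  refine ⟨min r δ, lt_min hr hδ, fun y hy hyx hne => ?_⟩
  obtain ⟨r', hr', -, hloc'⟩ := exists_locStr hO HG (x := (y, u y)) ⟨hy, mem_univ _⟩
  refine FlowBox.of_locStr (huc.continuousAt (hΩ.mem_nhds hy)) hloc' ?_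
  rw [eq_top_iff]
  intro s _
  have hv : ‖((y - x, u y - u x) : E × ℝ)‖ < r := by
    rw [Prod.norm_def]
    apply max_lt
    · rw [← dist_eq_norm]; exact hyx.trans_le (min_le_left _ _)
    · rw [← dist_eq_norm]; exact hδ' (hyx.trans_le (min_le_right _ _))
  have hself := hloc.self_mem _ hv
  have e : ((x, u x) + (y - x, u y - u x) : E × ℝ) = (y, u y) := by
    ext <;> simp
  rw [e] at hself
  have hn : u y - u x ≠ 0 := sub_ne_zero.2 hne
  refine ⟨(s / (u y - u x)) • (y - x, u y - u x), Submodule.smul_mem _ _ hself, ?_⟩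
  rw [map_smul]
  simp only [LinearMap.snd_apply, smul_eq_mul]
  field_simp

/-- **[REG]**: on a compact set all but finitely many values of a conical function are regular,
for a finite family of locally conical sets. -/
theorem exists_finite_reg {ι : Type*} [Finite ι] {u : E → ℝ}
    {M : ι → Set E} {Ω K : Set E} (hΩ : IsOpen Ω) (hu : ConicalOn u Ω) (huc : ContinuousOn u Ω)
    (H : ∀ i, ∀ x ∈ Ω, LocConeAt (M i) x) (hK : IsCompact K) (hKΩ : K ⊆ Ω) :
    ∃ B : Set ℝ, B.Finite ∧ ∀ x ∈ K, u x ∉ B → Reg u M x := by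
  choose! r hr hreg using fun x (hx : x ∈ Ω) => reg_near hΩ hu huc H hx
  obtain ⟨T, hcov⟩ := hK.elim_nhds_subcover' (fun x _ => ball x (r x))
    (fun x hx => ball_mem_nhds x (hr x (hKΩ hx)))
  refine ⟨(fun x : K => u x) '' (T : Set K), T.finite_toSet.image _, fun y hy hyB => ?_⟩
  obtain ⟨x, hxT, hyx⟩ := mem_iUnion₂.1 (hcov hy)
  exact hreg x (hKΩ x.2) y (hKΩ hy) hyx fun h => hyB ⟨x, hxT, h.symm⟩

/-- [REG] for a family that is locally finite near `K` -/
theorem exists_finite_reg_lf {ι : Type*} {u : E → ℝ} [FiniteDimensional ℝ E]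
    {M : ι → Set E} {Ω K : Set E} (hΩ : IsOpen Ω) (hu : ConicalOn u Ω) (huc : ContinuousOn u Ω)
    (H : ∀ i, ∀ x ∈ Ω, LocConeAt (M i) x) (hK : IsCompact K) (hKΩ : K ⊆ Ω)
    (hlf : ∀ x ∈ Ω, ∃ U ∈ 𝓝 x, {i | (M i ∩ U).Nonempty}.Finite) :
    ∃ B : Set ℝ, B.Finite ∧ ∀ x ∈ K, u x ∉ B → Reg u M x := by
  have key : ∀ x ∈ Ω, ∃ O : Set E, IsOpen O ∧ x ∈ O ∧ ∀ y ∈ O, u y ≠ u x → Reg u M y := by
    intro x hx
    obtain ⟨U, hU, hfin⟩ := hlf x hx
    set S : Set ι := {i | (M i ∩ U).Nonempty} with hS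
    have hSf : Finite S := hfin
    obtain ⟨r, hr, hreg⟩ := reg_near (M := fun i : S => M i) hΩ hu huc (fun i => H i) hx
    have hOo : IsOpen (interior U ∩ Ω ∩ ball x r) := (isOpen_interior.inter hΩ).inter isOpen_ball
    refine ⟨interior U ∩ Ω ∩ ball x r, hOo,
      ⟨⟨mem_interior_iff_mem_nhds.2 hU, hx⟩, mem_ball_self hr⟩, fun y hy hne => ?_⟩
    obtain ⟨σ, ρ, hfb⟩ := hreg y hy.1.2 hy.2 hne
    obtain ⟨ρ', h'⟩ := P073.H84.FlowBox.extend (M := M) (S := S) hOo hy hfb (fun i hi => by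
      rw [← not_nonempty_iff_eq_empty]
      intro hne
      exact hi (hne.mono (inter_subset_inter_right _
        ((inter_subset_left.trans inter_subset_left).trans interior_subset))))
    exact ⟨σ, ρ', h'⟩
  choose! O hO hxO hreg using key
  obtain ⟨T, hcov⟩ := hK.elim_nhds_subcover' (fun x _ => O x)
    (fun x hx => (hO x (hKΩ hx)).mem_nhds (hxO x (hKΩ hx)))
  refine ⟨(fun x : K => u x) '' (T : Set K), T.finite_toSet.image _, fun y hy hyB => ?_⟩
  obtain ⟨x, hxT, hyx⟩ := mem_iUnion₂.1 (hcov hy)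
  exact hreg x (hKΩ x.2) y hyx fun h => hyB ⟨x, hxT, h.symm⟩

/-- preimages of locally conical sets -/
theorem locConeAt_preimage {h : E → F} {P : Set F} {x : E} (hh : ConicalAt h x)
    (hc : ContinuousAt h x) (hP : LocConeAt P (h x)) : LocConeAt (h ⁻¹' P) x := by
  obtain ⟨r, hr, hP⟩ := hP
  obtain ⟨ρ, hρ, hh⟩ := hh
  obtain ⟨δ, hδ, hδ'⟩ := Metric.continuousAt_iff.1 hc r hr
  refine ⟨min ρ (δ / 2), lt_min hρ (by positivity), fun v hv t ht => ?_⟩
  have hv1 : ‖v‖ ≤ ρ := hv.trans (min_le_left _ _)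
  have hv2 : ‖v‖ < δ := lt_of_le_of_lt (hv.trans (min_le_right _ _)) (by linarith)
  have h1 : ‖h (x + v) - h x‖ < r := by
    rw [← dist_eq_norm]
    apply hδ'
    rw [dist_eq_norm]; simpa using hv2
  have h2 := hh v hv1 t ⟨ht.1.le, ht.2⟩
  have h3 := hP (h (x + v) - h x) h1.le t ht
  rw [mem_preimage, mem_preimage, h2, h3]
  have : h x + (h (x + v) - h x) = h (x + v) := by abel
  rw [this]

end P073.Croft
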