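import Vale.Agent.P073.H196.Croft3
import Vale.Agent.P073.H196.RegFin

/-!
# P073, block A14.6 [CROFT]: generic levels in all boxes at once

`h` is continuous and conical on the open set `Ω`, `M` a locally finite family of locally conical
sets, `[a e, b e]` a family of segments in `Ω`, and `P f` a family of convex regions of the target
(boxes, each with a coordinate `i f`). There is an offset `θ` such that all levels in `θ j + ℚ` are
simultaneously regular, and there are bounds `δ₀ f` such that for all families of levels with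
spacing `δ f ≤ δ₀ f` the weighted number of crossings of each segment is at most the total
variation, plus `ε e`.
-/

open Set Metric Topology MeasureTheory Filter
open scoped ENNReal NNReal

namespace P073.Croft

open Vale.Agent.P073.St (V euc)
open P073.Net P073.TR P073.H805

/-- **(C2), sharp form**: the weighted number of crossings against the variations. -/
theorem exists_spacing_var {ι κ : Type*} {q : ι → ℝ → V} (hq : ∀ e, ConicalOn (q e) (Icc 0 1))
    {P : κ → Set V} (hP : ∀ f, Convex ℝ (P f))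
    (hfin : ∀ e, {f | ∃ t ∈ Icc (0:ℝ) 1, q e t ∈ P f}.Finite)
    (hfin' : ∀ f, {e | ∃ t ∈ Icc (0:ℝ) 1, q e t ∈ P f}.Finite)
    {ε : ι → ℝ} (hε : ∀ e, 0 < ε e) :
    ∃ (B : κ → Set ℝ) (δ₀ : κ → ℝ), (∀ f, (B f).Finite) ∧ (∀ f, 0 < δ₀ f) ∧
      ∀ (i : κ → Fin 3) (δ : κ → ℝ) (L : κ → Set ℝ), (∀ f, 0 < δ f) → (∀ f, δ f ≤ δ₀ f) →
        (∀ f, SepL (δ f) (L f)) → (∀ f, Disjoint (L f) (B f)) →
        ∀ e, (∀ f, (cross (q e) (i f) (L f) (P f)).Finite) ∧
          (∀ f, ∀ t ∈ cross (q e) (i f) (L f) (P f), TransAt (q e) (i f) t) ∧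
          (∀ f, ENNReal.ofReal (δ f) * cnt (cross (q e) (i f) (L f) (P f)) ≤
            varIn (q e) (i f) (P f) 0 1 + ENNReal.ofReal (ε e)) ∧
          ∑' f, ENNReal.ofReal (δ f) * cnt (cross (q e) (i f) (L f) (P f)) ≤
            ∑' f, varIn (q e) (i f) (P f) 0 1 + ENNReal.ofReal (ε e) := by
  choose B0 N hB hR hC using fun e => exists_reg_cnt zero_le_one (hq e)
  set Fe : ι → Finset κ := fun e => (hfin e).toFinset with hFe
  set Ef : κ → Finset ι := fun f => (hfin' f).toFinset with hEf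
  have hc : ∀ e, 0 < ε e / ((N e + 1) * ((Fe e).card + 1)) := fun e =>
    div_pos (hε e) (by positivity)
  have hd : ∀ f, ∃ d : ℝ, 0 < d ∧ ∀ e ∈ Ef f, d ≤ ε e / ((N e + 1) * ((Fe e).card + 1)) := by
    intro f
    rcases (Ef f).eq_empty_or_nonempty with h | h
    · exact ⟨1, one_pos, by simp [h]⟩
    · obtain ⟨e0, -, he0'⟩ := (Ef f).exists_min_image
        (fun e => ε e / ((N e + 1) * ((Fe e).card + 1))) h
      exact ⟨_, hc e0, he0'⟩
  choose δ₀ hδ₀ hδ₀' using hd
  have hmem : ∀ e f, f ∈ Fe e ↔ e ∈ Ef f := by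
    intro e f
    simp [hFe, hEf]
  refine ⟨fun f => ⋃ e ∈ Ef f, B0 e, δ₀, fun f => (Ef f).finite_toSet.biUnion fun e _ => hB e,
    hδ₀, ?_⟩
  intro i δ L hδ hδ0 hL hLB e
  have hdis : ∀ f ∈ Fe e, Disjoint (L f) (B0 e) := by
    intro f hf
    refine (hLB f).mono_right ?_
    intro b hb
    exact mem_biUnion (show e ∈ (Ef f : Set ι) from (hmem e f).1 hf) hb
  have hempty : ∀ f, f ∉ Fe e → cross (q e) (i f) (L f) (P f) = ∅ := by
    intro f hf
    rw [eq_empty_iff_forall_notMem]
    rintro t ⟨ht, htP, -⟩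
    apply hf
    simp only [hFe, Finite.mem_toFinset]
    exact ⟨t, ht, htP⟩
  have hbound : (N e : ℝ≥0∞) * ∑ f ∈ Fe e, ENNReal.ofReal (δ f) ≤ ENNReal.ofReal (ε e) := by
    have h1 : ∑ f ∈ Fe e, ENNReal.ofReal (δ f) ≤
        (Fe e).card * ENNReal.ofReal (ε e / ((N e + 1) * ((Fe e).card + 1))) := by
      rw [← nsmul_eq_mul]
      apply Finset.sum_le_card_nsmul
      intro f hf
      exact ENNReal.ofReal_le_ofReal ((hδ0 f).trans (hδ₀' f e ((hmem e f).1 hf)))
    calc (N e : ℝ≥0∞) * ∑ f ∈ Fe e, ENNReal.ofReal (δ f)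
        ≤ N e * ((Fe e).card * ENNReal.ofReal (ε e / ((N e + 1) * ((Fe e).card + 1)))) := by
          gcongr
      _ = ENNReal.ofReal (N e * ((Fe e).card * (ε e / ((N e + 1) * ((Fe e).card + 1))))) := by
          rw [ENNReal.ofReal_mul (by positivity), ENNReal.ofReal_mul (by positivity),
            ENNReal.ofReal_natCast, ENNReal.ofReal_natCast]
      _ ≤ ENNReal.ofReal (ε e) := by
          apply ENNReal.ofReal_le_ofReal
          have hpos : (0:ℝ) < (N e + 1) * ((Fe e).card + 1) := by positivity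
          have e1 : (N e : ℝ) * ((Fe e).card * (ε e / ((N e + 1) * ((Fe e).card + 1)))) =
              ε e * ((N e * (Fe e).card) / ((N e + 1) * ((Fe e).card + 1))) := by ring
          rw [e1]
          have h2 : ((N e : ℝ) * (Fe e).card) / ((N e + 1) * ((Fe e).card + 1)) ≤ 1 := by
            rw [div_le_one hpos]
            nlinarith [(Nat.cast_nonneg (N e) : (0:ℝ) ≤ N e),
              (Nat.cast_nonneg (Fe e).card : (0:ℝ) ≤ (Fe e).card)]
          nlinarith [(hε e).le]
  have hone : ∀ f ∈ Fe e, ENNReal.ofReal (δ f) * cnt (cross (q e) (i f) (L f) (P f)) ≤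
      varIn (q e) (i f) (P f) 0 1 + N e * ENNReal.ofReal (δ f) := fun f hf =>
    (hC e (i f) (P f) (hP f) (δ f) (hδ f) (L f) (hL f) (hdis f hf)).2
  refine ⟨?_, ?_, ?_, ?_⟩
  · intro f
    by_cases hf : f ∈ Fe e
    · exact (hC e (i f) (P f) (hP f) (δ f) (hδ f) (L f) (hL f) (hdis f hf)).1
    · rw [hempty f hf]; exact finite_empty
  · intro f t ht
    by_cases hf : f ∈ Fe e
    · exact hR e (i f) t ht.1 fun h => Set.disjoint_left.1 (hdis f hf) ht.2.2 h
    · rw [hempty f hf] at ht; exact absurd ht (notMem_empty _)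
  · intro f
    by_cases hf : f ∈ Fe e
    · refine (hone f hf).trans ?_
      gcongr
      refine le_trans ?_ hbound
      gcongr
      exact Finset.single_le_sum (f := fun f => ENNReal.ofReal (δ f)) (fun _ _ => zero_le) hf
    · rw [hempty f hf]
      simp [cnt]
  · rw [tsum_eq_sum (s := Fe e)]
    · calc ∑ f ∈ Fe e, ENNReal.ofReal (δ f) * cnt (cross (q e) (i f) (L f) (P f))
          ≤ ∑ f ∈ Fe e, (varIn (q e) (i f) (P f) 0 1 + N e * ENNReal.ofReal (δ f)) :=
            Finset.sum_le_sum hone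
        _ = ∑ f ∈ Fe e, varIn (q e) (i f) (P f) 0 1 + N e * ∑ f ∈ Fe e, ENNReal.ofReal (δ f) := by
            rw [Finset.sum_add_distrib, Finset.mul_sum]
        _ ≤ _ := by
            gcongr
            exact ENNReal.sum_le_tsum _
    · intro f hf
      rw [hempty f hf]
      simp [cnt]

/-- the variations in regions of bounded overlap are bounded by the length -/
theorem tsum_varIn_le {κ : Type*} {q : ℝ → V} (hq : ConicalOn q (Icc 0 1)) {P : κ → Set V}
    (hP : ∀ f, Convex ℝ (P f)) (i : κ → Fin 3) {m : ℕ} (hm : ∀ y : V, {f | y ∈ P f}.encard ≤ m) :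
    ∑' f, varIn q (i f) (P f) 0 1 ≤ m * len q (Icc 0 1) := by
  rw [ENNReal.tsum_eq_iSup_sum]
  apply iSup_le
  intro F
  exact sum_varIn_le zero_le_one hq F i P (fun f _ => hP f) m
    fun y => (encard_le_encard fun f hf => hf.2).trans (hm y)

/-- the curve `h` on the segment `[a, b]` -/
def onS (h : V → V) (a b : V) : ℝ → V := fun t => h (a + t • (b - a))

theorem onS_mem {a b : V} {t : ℝ} (ht : t ∈ Icc (0:ℝ) 1) : a + t • (b - a) ∈ segment ℝ a b := by
  rw [segment_eq_image']
  exact ⟨t, ht, rfl⟩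

theorem conicalOn_onS {Ω : Set V} {h : V → V} (hu : ConicalOn h Ω) {a b : V}
    (hs : segment ℝ a b ⊆ Ω) : ConicalOn (onS h a b) (Icc 0 1) := by
  have hc : ConicalSet (Icc (0:ℝ) 1) := Convex.conicalSet (convex_Icc 0 1)
  have h1 : ConicalOn (fun t : ℝ => a + t • (b - a)) (Icc 0 1) := by
    have h2 : ConicalOn (fun t : ℝ => t • (b - a)) (Icc (0:ℝ) 1) :=
      conicalOn_linear ((LinearMap.id : ℝ →ₗ[ℝ] ℝ).smulRight (b - a)) hc
    exact (conicalOn_const a hc).add h2
  refine ConicalOn.comp (g := h) (Y := Ω) hu h1 ?_ ?_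
  · intro t ht
    exact hs (onS_mem ht)
  · fun_prop

end P073.Croft
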