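import Vale.Agent.P073.H236.SA4
import Vale.Agent.P073.H805.Inv3B
import Vale.Agent.P073.H669.RTLev
import Vale.Agent.P073.H155.Stage2G
import Vale.Agent.P073.H407.InW0

/-!
# P073, H196, **[RT-P] rect**: images of the protected cells, their faces, edges, vertices in
ROUND T of `K3C`

`rectAt_cell`, `rectAt_face`, `rectAt_seg`: these images under `h` are boxes whose corners have
the coordinates of images of vertices. `GdS`: boxes with good ends, or sets which miss the supports;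
they are preserved by the insertion map and by the staircases. `rect_of`: `h1 '' X = h '' X`.
-/

open Set Metric Topology Filter

namespace P073.H196

open _root_.P073 _root_.P073.Net _root_.P073.PA691 _root_.P073.H579 _root_.P073.H236
open _root_.P073.PR720 (LF)
open Vale.Agent.P073.St (V)
open Vale.Agent.P073.H471 Vale.Agent.P073.H267 Vale.Agent.P073.H267.Geo
open Vale.Agent.P073.H73 (Mesh)
open Vale.Agent.P073.H193 (Edges)
open Vale.Agent.P073.H304 (Nb InW)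
open Vale.Agent.P073.H669 (TLv pV mem_pV)
open Vale.Agent.P073.H805 (RectAt rectAt_of_icc segment_eq_icc edge_axis vert_of_ext_cell
  vert_of_ext_face left_ext right_ext left_frontier right_frontier)

section diag

variable {Ω Λ : Set V} {M : Mesh Ω} {E : Edges M} {h : ConHomeo Ω Λ} {η δ c₀ : ℝ} {v₀ w : V}
  {ρ : V → ℝ} {J₀ J : Set (ℕ × (Fin 3 → ℤ))} {Pr Z : Set M.ι} {i : M.ι}

/-- the diagonal form on a protected cell -/
theorem prot_diag (hη : η < 1) (hin : InW (Λ := Λ) η δ c₀ v₀ w ρ M h.toFun J₀ J Pr Z)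
    (hi : i ∈ Pr) : ∃ c lam a : V, ∃ r > 0, (∀ j, lam j ≠ 0) ∧ M.Q i = closedBall a r ∧
      ∀ x ∈ M.Q i, ∀ j, h.toFun x j = c j + lam j * (x j - a j) := by
  obtain ⟨t, -, a, r, s, hr, hs, hQi, hh⟩ := hin.prot i hi
  refine ⟨Vale.Agent.P073.H73.ctr w t.1 t.2, fun j => (1 - η) / 2 / 2 ^ t.1 / r * s j, a, r, hr,
    fun j => ?_, hQi, hh⟩
  have h1 : s j ≠ 0 := by rcases hs j with h | h <;> rw [h] <;> norm_num
  have h2 : (0:ℝ) < 1 - η := by linarith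
  have h3 : (1 - η) / 2 / 2 ^ t.1 / r ≠ 0 := by positivity
  exact mul_ne_zero h3 h1

/-- **the image of a protected cell** -/
theorem rectAt_cell (hη : η < 1) (hin : InW (Λ := Λ) η δ c₀ v₀ w ρ M h.toFun J₀ J Pr Z)
    (hi : i ∈ Pr) : RectAt E (M.Q i) h.toFun (M.Q i) := by
  obtain ⟨c, lam, a, r, hr, hlam, hQi, hg⟩ := prot_diag hη hin hi
  have hQi' : M.Q i = Icc (fun j => a j - r) (fun j => a j + r) := by
    rw [hQi]
    ext x
    rw [mem_closedBall, dist_pi_le_iff hr.le, mem_Icc]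
    simp only [Pi.le_def, Real.dist_eq, abs_le]
    constructor
    · intro h2
      exact ⟨fun j => by linarith [(h2 j).1], fun j => by linarith [(h2 j).2]⟩
    · rintro ⟨h2, h3⟩ j
      constructor <;> linarith [h2 j, h3 j]
  have hpq : (fun j => a j - r) ≤ (fun j => a j + r : V) := fun j => by
    show a j - r ≤ a j + r
    linarith
  have h3 := rectAt_of_icc (E := E) (Q := M.Q i) hlam hpq hQi'.symm.subset hg
    (vert_of_ext_cell E (hQi' ▸ left_ext hpq) (hQi' ▸ left_frontier hpq))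
    (vert_of_ext_cell E (hQi' ▸ right_ext hpq) (hQi' ▸ right_frontier hpq))
  rwa [← hQi'] at h3

/-- **the images of its faces** -/
theorem rectAt_face (hη : η < 1) (hin : InW (Λ := Λ) η δ c₀ v₀ w ρ M h.toFun J₀ J Pr Z)
    (hi : i ∈ Pr) {k : M.κ} (hk : M.F k ⊆ M.Q i)
    (hne : (h.toFun '' M.F k ∩ Nb w J₀ c₀).Nonempty) :
    RectAt E (M.Q i) h.toFun (M.F k) := by
  obtain ⟨c, lam, a, r, hr, hlam, hQi, hg⟩ := prot_diag hη hin hi
  obtain ⟨u, hu⟩ := hin.face_prot hi hk hne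
  rw [Vale.Agent.P073.H83.squ_eq_Icc] at hu
  have hpq : (fun j => v₀ j + u.1.2 j / 2 ^ u.1.1) ≤ (fun j => if j = u.2 then
      v₀ j + u.1.2 j / 2 ^ u.1.1 else v₀ j + (u.1.2 j + 1) / 2 ^ u.1.1 : V) := fun j => by
    show v₀ j + u.1.2 j / 2 ^ u.1.1 ≤ if j = u.2 then _ else _
    have : (0:ℝ) < 1 / 2 ^ u.1.1 := by positivity
    split_ifs
    · exact le_rfl
    · rw [add_div]; linarith
  have h2 := rectAt_of_icc (E := E) (Q := M.Q i) hlam hpq (hu ▸ hk) hg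
    (vert_of_ext_face E (hu ▸ left_ext hpq)) (vert_of_ext_face E (hu ▸ right_ext hpq))
  rwa [← hu] at h2

/-- **the images of its edges** -/
theorem rectAt_seg (hη : η < 1) (hin : InW (Λ := Λ) η δ c₀ v₀ w ρ M h.toFun J₀ J Pr Z)
    (hi : i ∈ Pr) {e : E.ε} (he : E.seg e ⊆ M.Q i)
    (hne : (h.toFun '' E.seg e ∩ Nb w J₀ c₀).Nonempty) :
    RectAt E (M.Q i) h.toFun (E.seg e) := by
  obtain ⟨c, lam, a, r, hr, hlam, hQi, hg⟩ := prot_diag hη hin hi
  obtain ⟨k, hk, hek⟩ := H155.exists_face_of_seg E he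
  obtain ⟨u, hu⟩ := hin.face_prot hi hk (hne.mono (inter_subset_inter_left _ (image_mono hek)))
  obtain ⟨l, hl⟩ := edge_axis E hu hek
  rcases le_total (E.a e l) (E.b e l) with h3 | h3
  · obtain ⟨hpq, hseg⟩ := segment_eq_icc hl h3
    have h2 := rectAt_of_icc (E := E) (Q := M.Q i) hlam hpq (hseg ▸ he) hg
      (Or.inl ⟨e, rfl⟩) (Or.inr ⟨e, rfl⟩)
    rwa [← hseg] at h2
  · obtain ⟨hpq, hseg⟩ := segment_eq_icc (fun j hj => (hl j hj).symm) h3
    have hseg' : E.seg e = Icc (E.b e) (E.a e) := by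
      show segment ℝ (E.a e) (E.b e) = _
      rw [segment_symm]; exact hseg
    have h2 := rectAt_of_icc (E := E) (Q := M.Q i) hlam hpq (hseg' ▸ he) hg
      (Or.inr ⟨e, rfl⟩) (Or.inl ⟨e, rfl⟩)
    rwa [← hseg'] at h2

end diag

variable {Ω Λ : Set V} {v : V} {K : BoxCx Λ v} {S₀ : Rad K} {Wd : Wid K S₀} {B : Boxes Wd}
  {G : Geo B} {M : Mesh Ω} {E : Edges M} {h h' : ConHomeo Ω Λ} {ω : TBx K → ℝ}
  {T : TBx K → Finset (ℝ × ℝ)} {η : ℝ} {τ : Type*} {A : τ → Set V} {C : Set ℝ} {εE : E.ε → ℝ}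
  {δ : TBx K → ℝ} {L : TLv G E h ω T η A C εE δ} {G₀ : Set (TBx K)}
  {c : TBx K → ℝ} {hc0 : ∀ b, 0 < c b} {hc : ∀ b, c b ≤ δ b / 8} {V₀ : G₀ → Finset ℝ}

/-- sets which miss the supports, or boxes with good ends -/
def GdS (G : Geo B) (V₀ : G₀ → Finset ℝ) (X : Set V) : Prop :=
  (∀ b : G₀, Disjoint X (G.TB false b.1)) ∨ ∃ p q : V, X = Icc p q ∧
    ∀ b : G₀, (X ∩ G.TB false b.1).Nonempty → p b.1.ax ∈ WR G V₀ b ∧ q b.1.ax ∈ WR G V₀ b

/-- the good coordinates are off the levels -/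
theorem wr_far (L : TLv G E h ω T η A C εE δ) (hc : ∀ b, c b ≤ δ b / 8) (hf : FarV L V₀) {b : G₀}
    {t : ℝ} (ht : t ∈ WR G V₀ b) {k : ℕ} (hk : k < L.N b.1) :
    t ∉ Icc (L.a b.1 k - 2 * c b.1) (L.a b.1 k + 2 * c b.1) := by
  intro hm
  have h1 := (L.cells b.1).lt_a (L.δ0 b.1) L.η4 k
  have h2 := L.δ0 b.1
  have hω := L.ω0 b.1
  have h3 := (L.cells b.1).ge k hk
  have h4 := (L.cells b.1).le k hk
  have hcb := hc b.1
  rcases ht with ht | ht | ht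
  · have h5 := hf b t ht k hk
    have h6 : |t - L.a b.1 k| ≤ 2 * c b.1 := by
      rw [abs_le]; constructor <;> linarith [hm.1, hm.2]
    linarith
  · linarith [hm.1, h1.1]
  · linarith [hm.2, h1.2]

/-- the cells of the levels are in the window -/
theorem cell_win (L : TLv G E h ω T η A C εE δ) (hc : ∀ b, c b ≤ δ b / 8) {b : TBx K} {k : ℕ}
    (hk : k < L.N b) : Icc (L.a b k - 2 * c b) (L.a b k + 2 * c b) ⊆
      Icc (G.tlo true b b.ax) (G.thi true b b.ax) := by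
  have h1 := (L.cells b).lt_a (L.δ0 b) L.η4 k
  have h2 := L.δ0 b
  have hω := L.ω0 b
  have h3 := (L.cells b).ge k hk
  have h4 := (L.cells b).le k hk
  have hcb := hc b
  rintro t ⟨h5, h6⟩
  constructor <;> linarith [h1.1, h1.2]

/-- **good sets are preserved by the insertion map** -/
theorem GdS.kap {X : Set V} (HX : GdS G V₀ X) (hf : FarV L V₀) {κ : V → V}
    (hκ : H345.IsQ (fun b : G₀ => L.bxQ c hc0 hc b.1) κ) (y : V) : κ y ∈ X ↔ y ∈ X := by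
  refine IsQ.mem_iff_of hκ fun b hyK a ha _ => ?_
  obtain ⟨k, hk, rfl⟩ : ∃ k < L.N b.1, L.a b.1 k = a := by
    have h1 : a ∈ (Finset.range (L.N b.1)).image (L.a b.1) := ha
    obtain ⟨k, hk, hka⟩ := Finset.mem_image.1 h1
    exact ⟨k, Finset.mem_range.1 hk, hka⟩
  have hyK' : y ∈ rtK G ω b.1 40 := by rw [← bxQ_K L hc0 hc b.1]; exact hyK
  have hyT := rtK_sub L (by norm_num) hyK'
  show MvInv X b.1.ax (Icc (L.a b.1 k - 2 * c b.1) (L.a b.1 k + 2 * c b.1)) {y}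
  have key : ¬ (X ∩ G.TB false b.1).Nonempty →
      MvInv X b.1.ax (Icc (L.a b.1 k - 2 * c b.1) (L.a b.1 k + 2 * c b.1)) {y} := by
    rintro hne _ rfl hyj t ht
    have h2 := rtK_sub L (by norm_num) (upd_rtK hyK' (cell_win L hc hk ht))
    exact ⟨fun h3 => absurd ⟨_, h3, h2⟩ hne, fun h3 => absurd ⟨_, h3, hyT⟩ hne⟩
  rcases HX with HX | ⟨p, q, rfl, HX⟩
  · exact key fun ⟨z, hz, hz'⟩ => (HX b).notMem_of_mem_left hz hz'
  · by_cases hne : (Icc p q ∩ G.TB false b.1).Nonempty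
    · obtain ⟨h1, h2⟩ := HX b hne
      exact mvInv_icc ordConnected_Icc (wr_far L hc hf h1 hk) (wr_far L hc hf h2 hk) _
    · exact key hne

/-- **good sets are preserved by vertical maps which fix the good coordinates** -/
theorem GdS.vrt (L : TLv G E h ω T η A C εE δ) {X : Set V} (HX : GdS G V₀ X) {F : V → V}
    {φ : G₀ → V → ℝ → ℝ} (HF : Vrt F jR (alR G) (beR G) (loR G ω) (hiR G ω) φ)
    (hφ : VFx (WR G V₀) φ) (y : V) : F y ∈ X ↔ y ∈ X := by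
  rcases HX with HX | ⟨p, q, rfl, HX⟩
  · by_cases hb : ∃ b : G₀, y ∈ rtK G ω b.1 60
    · obtain ⟨b, hb⟩ := hb
      have h1 : F y ∈ rtK G ω b.1 60 := HF.mem hb
      exact ⟨fun h3 => absurd (rtK_sub L (by norm_num) h1) ((HX b).notMem_of_mem_left h3),
        fun h3 => absurd (rtK_sub L (by norm_num) hb) ((HX b).notMem_of_mem_left h3)⟩
    · push Not at hb
      rw [HF.off y hb]
  · refine HF.mem_iff hφ ⟨p, q, rfl, fun b hb => HX b ?_⟩ y
    obtain ⟨z, hz, hz'⟩ := hb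
    exact ⟨z, hz, rtK_sub L (u := 60) (by norm_num) hz'⟩

/-- a set with a box as image -/
theorem gds_of_rect {Pr : Set M.ι} {i : M.ι} (hi : i ∈ Pr)
    (hV : ∀ b : G₀, ∀ t ∈ pV G E h Pr b.1, t ∈ WR G V₀ b) {X : Set V} (hX : X ⊆ M.Q i)
    (H : (∃ b : G₀, (h.toFun '' X ∩ G.TB false b.1).Nonempty) → RectAt E (M.Q i) h.toFun X) :
    GdS G V₀ (h.toFun '' X) := by
  by_cases hb : ∃ b : G₀, (h.toFun '' X ∩ G.TB false b.1).Nonempty
  · obtain ⟨p, q, he, hc⟩ := H hb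
    refine Or.inr ⟨p, q, he, fun b hb' => ?_⟩
    have hm : (h.toFun '' M.Q i ∩ G.TB false b.1).Nonempty :=
      hb'.mono (inter_subset_inter_left _ (image_mono hX))
    obtain ⟨⟨x, hx, hxQ, hxp⟩, x', hx', hxQ', hxq⟩ := hc b.1.ax
    exact ⟨hxp ▸ hV b _ (mem_pV hx hi hxQ hm), hxq ▸ hV b _ (mem_pV hx' hi hxQ' hm)⟩
  · push Not at hb
    exact Or.inl fun b => disjoint_iff_inter_eq_empty.2 (hb b)

section main

variable {Pr W : Set M.ι} {Act₀ : Set M.κ} {κ : V → V} {g S : ConHomeo Ω Λ}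

/-- **images of sets in the protected cells** -/
theorem image_of_gds (D : St2W L hc0 hc Pr W Act₀ G₀ h' κ g) (hf : FarV L V₀) {i : M.ι}
    (hi : i ∈ Pr) {X : Set V} (hX : X ⊆ M.Q i) (HX : GdS G V₀ (h.toFun '' X))
    (hg : g.toFun '' X = Pre κ Λ h' X) {S : ConHomeo Λ Λ} {φ : G₀ → V → ℝ → ℝ}
    (HF : Vrt S.toFun jR (alR G) (beR G) (loR G ω) (hiR G ω) φ) (hφ : VFx (WR G V₀) φ) :
    (g.trans S).toFun '' X = h.toFun '' X := by
  have e0 : h'.toFun '' X = h.toFun '' X :=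
    image_congr fun x hx => (D.O.wall i hi x (hX hx)).self_of_nhds
  have hXΩ : X ⊆ Ω := hX.trans (M.sub i)
  have e1 : g.toFun '' X = h.toFun '' X := by
    rw [hg, pre_eq_image hXΩ fun y _ => by rw [e0]; exact HX.kap hf D.isQ y, e0]
  have e2 : (g.trans S).toFun '' X = S.toFun '' (g.toFun '' X) := by
    rw [← image_comp]; rfl
  rw [e2, e1]
  ext y
  constructor
  · rintro ⟨z, hz, rfl⟩
    exact (HX.vrt L HF hφ z).2 hz
  · intro hy
    have hyΛ : y ∈ Λ := by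
      obtain ⟨x, hx, rfl⟩ := hy; exact h.mapsTo (hXΩ hx)
    refine ⟨S.invFun y, ?_, S.right_inv hyΛ⟩
    rw [← HX.vrt L HF hφ, S.right_inv hyΛ]
    exact hy

/-- **[RT-P] rect**: the fields `rectc`, `rectf`, `recte`, `rectv` of `TOut3`, for any vertical map
`S` which fixes the good coordinates -/
theorem rect_of (D : St2W L hc0 hc Pr W Act₀ G₀ h' κ g) (hf : FarV L V₀)
    (hV : ∀ b : G₀, ∀ t ∈ pV G E h Pr b.1, t ∈ WR G V₀ b)
    {η' δ' c₀ : ℝ} {v₀ w : V} {ρ : V → ℝ} {J₀ J : Set (ℕ × (Fin 3 → ℤ))} {Z : Set M.ι}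
    (hη : η' < 1) (hin : InW (Λ := Λ) η' δ' c₀ v₀ w ρ M h.toFun J₀ J Pr Z)
    (hN : ∀ b ∈ G₀, G.TB false b ⊆ Nb w J₀ c₀) {S : ConHomeo Λ Λ} {φ : G₀ → V → ℝ → ℝ}
    (HF : Vrt S.toFun jR (alR G) (beR G) (loR G ω) (hiR G ω) φ) (hφ : VFx (WR G V₀) φ) :
    (∀ i ∈ Pr, (g.trans S).toFun '' M.Q i = h.toFun '' M.Q i) ∧
    (∀ i ∈ Pr, ∀ k, M.F k ⊆ M.Q i → (g.trans S).toFun '' M.F k = h.toFun '' M.F k) ∧
    (∀ i ∈ Pr, ∀ e, E.seg e ⊆ M.Q i → (g.trans S).toFun '' E.seg e = h.toFun '' E.seg e) ∧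
    ∀ i ∈ Pr, ∀ x ∈ E.verts, x ∈ M.Q i → (g.trans S).toFun x = h.toFun x := by
  have hNb : ∀ X : Set V, (∃ b : G₀, (h.toFun '' X ∩ G.TB false b.1).Nonempty) →
      (h.toFun '' X ∩ Nb w J₀ c₀).Nonempty := fun X ⟨b, hb⟩ =>
    hb.mono (inter_subset_inter_right _ (hN b.1 b.2))
  refine ⟨fun i hi => ?_, fun i hi k hk => ?_, fun i hi e he => ?_, fun i hi x hx hxi => ?_⟩
  · exact image_of_gds D hf hi Subset.rfl
      (gds_of_rect hi hV Subset.rfl fun _ => rectAt_cell hη hin hi) (D.cell i) HF hφ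
  · exact image_of_gds D hf hi hk
      (gds_of_rect hi hV hk fun hb => rectAt_face hη hin hi hk (hNb _ hb)) (D.face k) HF hφ
  · exact image_of_gds D hf hi he
      (gds_of_rect hi hV he fun hb => rectAt_seg hη hin hi he (hNb _ hb)) (D.edge e) HF hφ
  · have HX : GdS G V₀ (h.toFun '' {x}) :=
      gds_of_rect hi hV (singleton_subset_iff.2 hxi) fun _ => ⟨h.toFun x, h.toFun x, by
        rw [image_singleton, Icc_self], fun j => ⟨⟨x, hx, hxi, rfl⟩, x, hx, hxi, rfl⟩⟩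
    rw [image_singleton] at HX
    have e0 : h'.toFun x = h.toFun x := (D.O.wall i hi x hxi).self_of_nhds
    have h1 : κ (g.toFun x) ∈ ({h.toFun x} : Set V) := by
      rw [D.vert x hx, e0]; rfl
    have h2 : g.toFun x ∈ ({h.toFun x} : Set V) := (HX.kap hf D.isQ _).1 h1
    exact (HX.vrt L HF hφ _).2 h2

/-- **[RT-P] rect** for the staircase of H236 -/
theorem rect_rts {e : TBx K → ℝ} {he : ∀ b, 0 < e b} {he2 : ∀ b, 2 * e b < δ b}
    {X : FixD (F1 L hc0 hc he he2 G₀) V₀} {Hα H₁ Tf : ConHomeo Λ Λ}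
    (D : St2W L hc0 hc Pr W Act₀ G₀ h' κ g) (H : RTS L hc0 hc he he2 X Hα H₁ Tf)
    (hf : FarV L V₀) (hV : ∀ b : G₀, ∀ t ∈ pV G E h Pr b.1, t ∈ WR G V₀ b)
    {η' δ' c₀ : ℝ} {v₀ w : V} {ρ : V → ℝ} {J₀ J : Set (ℕ × (Fin 3 → ℤ))} {Z : Set M.ι}
    (hη : η' < 1) (hin : InW (Λ := Λ) η' δ' c₀ v₀ w ρ M h.toFun J₀ J Pr Z)
    (hN : ∀ b ∈ G₀, G.TB false b ⊆ Nb w J₀ c₀) :
    (∀ i ∈ Pr, (g.trans ((Hα.trans H₁).trans Tf)).toFun '' M.Q i = h.toFun '' M.Q i) ∧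
    (∀ i ∈ Pr, ∀ k, M.F k ⊆ M.Q i →
      (g.trans ((Hα.trans H₁).trans Tf)).toFun '' M.F k = h.toFun '' M.F k) ∧
    (∀ i ∈ Pr, ∀ e, E.seg e ⊆ M.Q i →
      (g.trans ((Hα.trans H₁).trans Tf)).toFun '' E.seg e = h.toFun '' E.seg e) ∧
    ∀ i ∈ Pr, ∀ x ∈ E.verts, x ∈ M.Q i →
      (g.trans ((Hα.trans H₁).trans Tf)).toFun x = h.toFun x :=
  rect_of D hf hV hη hin hN H.vrt (vfx_ph X hf)

/-- the coordinates of the vertices inside of the window -/
theorem wr_of_filter {s : Finset ℝ} {b : G₀} (hs : ∀ t ∈ s, G.tlo true b.1 b.1.ax < t →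
    t < G.thi true b.1 b.1.ax → t ∈ V₀ b) : ∀ t ∈ s, t ∈ WR G V₀ b := by
  intro t ht
  by_cases h1 : G.tlo true b.1 b.1.ax < t
  · by_cases h2 : t < G.thi true b.1 b.1.ax
    · exact Or.inl (hs t ht h1 h2)
    · exact Or.inr (Or.inr (not_lt.1 h2))
  · exact Or.inr (Or.inl (not_lt.1 h1))

end main

end P073.H196
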