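import Vale.Agent.P073.H196.Hat

/-!
# P073 / H196: conical approximation of `C¹` homeomorphisms
-/

open Set Metric Topology Filter MeasureTheory
open scoped Interval NNReal

namespace Vale.Agent.P073.H196

open _root_.P073

variable {ι : Type*} [Fintype ι] [Nonempty ι]

section localglobal

variable {E F : Type*} [NormedAddCommGroup E] [NormedSpace ℝ E] [NormedAddCommGroup F]

/-- Lipschitz estimate at small scale implies the Lipschitz estimate -/
theorem norm_sub_le_of_local {f : E → F} {K e : ℝ} (he : 0 < e)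
    (h : ∀ x y, ‖x - y‖ ≤ e → ‖f x - f y‖ ≤ K * ‖x - y‖) (x y : E) :
    ‖f x - f y‖ ≤ K * ‖x - y‖ := by
  obtain ⟨N, hN⟩ := exists_nat_gt (‖x - y‖ / e)
  have hN0 : (0:ℝ) < N := lt_of_le_of_lt (by positivity) hN
  have hN1 : ‖x - y‖ / N ≤ e := by
    rw [div_le_iff₀ hN0]
    rw [div_lt_iff₀ he] at hN
    linarith [mul_comm (N:ℝ) e]
  set c : ℕ → E := fun k => y + ((k:ℝ) / N) • (x - y) with hc
  have hstep : ∀ k, ‖c (k+1) - c k‖ = ‖x - y‖ / N := by
    intro k
    have : c (k+1) - c k = ((1:ℝ) / N) • (x - y) := by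
      simp only [hc]
      push_cast
      rw [add_sub_add_left_eq_sub, ← sub_smul]
      congr 1
      ring
    rw [this, norm_smul, Real.norm_of_nonneg (by positivity)]
    ring
  have h0 : c 0 = y := by simp [hc]
  have h1 : c N = x := by
    simp only [hc]
    rw [div_self hN0.ne', one_smul]
    abel
  have key : ∀ n : ℕ, ‖f (c n) - f (c 0)‖ ≤ n * (K * (‖x - y‖ / N)) := by
    intro n
    induction n with
    | zero => simp
    | succ n ih =>
      have h2 := h (c (n+1)) (c n) (by rw [hstep]; exact hN1)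
      rw [hstep] at h2
      calc ‖f (c (n+1)) - f (c 0)‖ ≤ ‖f (c (n+1)) - f (c n)‖ + ‖f (c n) - f (c 0)‖ := by
            have := norm_add_le (f (c (n+1)) - f (c n)) (f (c n) - f (c 0))
            simpa using this
        _ ≤ K * (‖x - y‖ / N) + n * (K * (‖x - y‖ / N)) := add_le_add h2 ih
        _ = ((n+1 : ℕ) : ℝ) * (K * (‖x - y‖ / N)) := by push_cast; ring
  have := key N
  rw [h0, h1] at this
  calc ‖f x - f y‖ ≤ N * (K * (‖x - y‖ / N)) := this
    _ = K * ‖x - y‖ := by field_simp

end localglobal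

section

variable {F : Type*} [NormedAddCommGroup F] [NormedSpace ℝ F] [CompleteSpace F]

omit [Nonempty ι] in
/-- `itp e D - D` has a small Lipschitz constant when `D` is uniformly `C¹` -/
theorem itp_sub_lipschitz {D : (ι → ℝ) → F} (hD : ContDiff ℝ 1 D) {e ω : ℝ} (he : 0 < e)
    (hω : ∀ x y, dist x y ≤ 3 * e → ‖fderiv ℝ D x - fderiv ℝ D y‖ ≤ ω) (x y : ι → ℝ) :
    ‖(itp e D x - D x) - (itp e D y - D y)‖ ≤ (Fintype.card ι + 1) * ω * ‖x - y‖ := by
  have hω0 : 0 ≤ ω := (norm_nonneg _).trans (hω x x (by simp; positivity))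
  refine norm_sub_le_of_local (f := fun x => itp e D x - D x) he (fun x y hxy => ?_) x y
  set L := fderiv ℝ D x with hL
  have hdiff : Differentiable ℝ D := hD.differentiable (by simp)
  set R : (ι → ℝ) → F := fun z => D z - L z with hR
  have hRc : Continuous R := hD.continuous.sub L.continuous
  have hRL : ∀ z ∈ closedBall x (3 * e), ∀ w ∈ closedBall x (3 * e), ‖R z - R w‖ ≤ ω * ‖z - w‖ := by
    intro z hz w hw
    refine Convex.norm_image_sub_le_of_norm_hasFDerivWithin_le (𝕜 := ℝ)
      (f' := fun u => fderiv ℝ D u - L) (s := closedBall x (3 * e)) ?_ ?_ (convex_closedBall _ _)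
      hw hz
    · intro u _
      exact ((hdiff u).hasFDerivAt.sub L.hasFDerivAt).hasFDerivWithinAt
    · intro u hu
      exact hω u x hu
  have hsubx : closedBall x e ⊆ closedBall x (3 * e) := closedBall_subset_closedBall (by linarith)
  have hsuby : closedBall y e ⊆ closedBall x (3 * e) := by
    refine closedBall_subset_closedBall' ?_
    rw [dist_comm, dist_eq_norm]
    linarith
  have h1 := norm_itp_sub_itp_le he hRc hω0 hRL hsubx hsuby
  have h2 : itp e R x = itp e D x - L x := by
    rw [hR, itp_sub he hD.continuous L.continuous, itp_linear he]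
  have h3 : itp e R y = itp e D y - L y := by
    rw [hR, itp_sub he hD.continuous L.continuous, itp_linear he]
  have h4 := hRL x (mem_closedBall_self (by linarith)) y (by
    rw [mem_closedBall, dist_comm, dist_eq_norm]; linarith)
  rw [h2, h3] at h1
  have h5 : (itp e D x - D x) - (itp e D y - D y) =
      ((itp e D x - L x) - (itp e D y - L y)) - (R x - R y) := by
    simp only [hR]; abel
  rw [h5]
  calc ‖((itp e D x - L x) - (itp e D y - L y)) - (R x - R y)‖
      ≤ ‖(itp e D x - L x) - (itp e D y - L y)‖ + ‖R x - R y‖ := norm_sub_le _ _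
    _ ≤ ω * (Fintype.card ι * ‖x - y‖) + ω * ‖x - y‖ := add_le_add h1 h4
    _ = (Fintype.card ι + 1) * ω * ‖x - y‖ := by ring

end

omit [Nonempty ι] in
/-- the integer points `z` with `e z` in a bounded set are finitely many -/
theorem exists_finset_lattice {e : ℝ} (he : 0 < e) {S : Set (ι → ℝ)} (hS : Bornology.IsBounded S) :
    ∃ s : Finset (ι → ℤ), ∀ z : ι → ℤ, (fun i => e * (z i : ℝ)) ∈ S → z ∈ s := by
  classical
  obtain ⟨r, hr⟩ := hS.subset_closedBall (0 : ι → ℝ)
  obtain ⟨N, hN⟩ := exists_nat_ge (r / e)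
  refine ⟨Fintype.piFinset fun _ => Finset.Icc (-(N:ℤ)) N, fun z hz => ?_⟩
  rw [Fintype.mem_piFinset]
  intro i
  have h1 := hr hz
  rw [mem_closedBall_zero_iff] at h1
  have h2 := (norm_le_pi_norm (fun i => e * (z i : ℝ)) i).trans h1
  rw [Real.norm_eq_abs, abs_mul, abs_of_pos he] at h2
  have h3 : |(z i : ℝ)| ≤ N := by
    refine le_trans ?_ hN
    rw [le_div_iff₀ he]
    linarith
  rw [Finset.mem_Icc]
  rw [abs_le] at h3
  constructor
  · have := h3.1; exact_mod_cast this
  · exact_mod_cast h3.2

/-- a conical homeomorphism of the whole space from a continuous, expanding, surjective conical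
map -/
noncomputable def conHomeoOf {V : Type*} [NormedAddCommGroup V] [NormedSpace ℝ V] {g : V → V}
    (hc : ConicalOn g univ) (hcont : Continuous g) {c : ℝ} (hc0 : 0 < c)
    (hexp : ∀ x y, c * ‖x - y‖ ≤ ‖g x - g y‖) (hsurj : Function.Surjective g) :
    ConHomeo (univ : Set V) (univ : Set V) where
  toFun := g
  invFun := Function.surjInv hsurj
  mapsTo := mapsTo_univ _ _
  mapsTo_inv := mapsTo_univ _ _
  left_inv := by
    intro x _
    have h := hexp (Function.surjInv hsurj (g x)) x
    rw [Function.surjInv_eq hsurj, sub_self, norm_zero] at h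
    have : ‖Function.surjInv hsurj (g x) - x‖ = 0 :=
      le_antisymm (nonpos_of_mul_nonpos_right h hc0) (norm_nonneg _)
    exact sub_eq_zero.1 (norm_eq_zero.1 this)
  right_inv := fun y _ => Function.surjInv_eq hsurj y
  cont := hcont.continuousOn
  cont_inv := by
    have : LipschitzWith (Real.toNNReal c⁻¹) (Function.surjInv hsurj) := by
      refine LipschitzWith.of_dist_le_mul fun x y => ?_
      have h := hexp (Function.surjInv hsurj x) (Function.surjInv hsurj y)
      rw [Function.surjInv_eq hsurj, Function.surjInv_eq hsurj] at h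
      rw [Real.coe_toNNReal _ (by positivity), dist_eq_norm, dist_eq_norm, inv_mul_eq_div,
        le_div_iff₀ hc0, mul_comm]
      exact h
    exact this.continuous.continuousOn
  conical := hc

/-- a small Lipschitz perturbation of a surjective expanding map is surjective -/
theorem surjective_of_near {V : Type*} [NormedAddCommGroup V] [NormedSpace ℝ V] [CompleteSpace V]
    {T g : V → V} {c k : ℝ} (hc0 : 0 < c) (hk : k < c)
    (hexp : ∀ x y, c * ‖x - y‖ ≤ ‖T x - T y‖) (hT : Function.Surjective T)
    (hg : ∀ x y, ‖(g x - T x) - (g y - T y)‖ ≤ k * ‖x - y‖) : Function.Surjective g := by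
  intro y
  set S := Function.surjInv hT with hS
  have hTS : ∀ z, T (S z) = z := Function.surjInv_eq hT
  -- fixed point of `u ↦ y - (g (S u) - u)`
  set Φ : V → V := fun u => y - (g (S u) - T (S u)) with hΦ
  have hSl : ∀ u w, ‖S u - S w‖ ≤ c⁻¹ * ‖u - w‖ := by
    intro u w
    have h := hexp (S u) (S w)
    rw [hTS, hTS] at h
    rw [inv_mul_eq_div, le_div_iff₀ hc0, mul_comm]
    exact h
  by_cases hk0 : k ≤ 0
  · -- `g - T` is constant
    have hcst : ∀ x z, g x - T x = g z - T z := by
      intro x z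
      have h1 := hg x z
      have : ‖(g x - T x) - (g z - T z)‖ ≤ 0 :=
        h1.trans (mul_nonpos_of_nonpos_of_nonneg hk0 (norm_nonneg _))
      exact sub_eq_zero.1 (norm_le_zero_iff.1 this)
    refine ⟨S (y - (g 0 - T 0)), ?_⟩
    have h2 := hcst (S (y - (g 0 - T 0))) 0
    rw [hTS] at h2
    have := congrArg (fun w => w + (y - (g 0 - T 0))) h2
    simpa using this
  · push Not at hk0
    have hcontr : ContractingWith (Real.toNNReal (k * c⁻¹)) Φ := by
      constructor
      · rw [← NNReal.coe_lt_coe, Real.coe_toNNReal _ (by positivity), NNReal.coe_one,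
          ← div_eq_mul_inv, div_lt_one hc0]
        exact hk
      · refine LipschitzWith.of_dist_le_mul fun u w => ?_
        rw [Real.coe_toNNReal _ (by positivity), dist_eq_norm, dist_eq_norm]
        have e1 : Φ u - Φ w = -((g (S u) - T (S u)) - (g (S w) - T (S w))) := by
          simp only [hΦ]; abel
        rw [e1, norm_neg]
        calc _ ≤ k * ‖S u - S w‖ := hg _ _
          _ ≤ k * (c⁻¹ * ‖u - w‖) := by gcongr; exact hSl u w
          _ = k * c⁻¹ * ‖u - w‖ := by ring
    obtain ⟨u, hu⟩ : ∃ u, Φ u = u := ⟨_, hcontr.fixedPoint_isFixedPt⟩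
    refine ⟨S u, ?_⟩
    simp only [hΦ, hTS] at hu
    have : y - g (S u) = 0 := by
      have := sub_eq_zero.2 hu
      rw [← this]; abel
    exact (sub_eq_zero.1 this).symm

/-- **Conical approximation.** `T = id + D`, `D` of class `C¹` with compact support, `T` expanding
and onto. -/
theorem exists_conHomeo_near {D : (ι → ℝ) → (ι → ℝ)} (hD : ContDiff ℝ 1 D)
    (hDc : HasCompactSupport D) {c : ℝ} (hc : 0 < c)
    (hexp : ∀ x y, c * ‖x - y‖ ≤ ‖(x + D x) - (y + D y)‖)
    (hsurj : Function.Surjective fun x => x + D x) {η : ℝ} (hη : 0 < η) :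
    ∃ g : ConHomeo (univ : Set (ι → ℝ)) (univ : Set (ι → ℝ)),
      (∀ x, ‖g.toFun x - (x + D x)‖ ≤ η) ∧
      (∀ x y, ‖(g.toFun x - (x + D x)) - (g.toFun y - (y + D y))‖ ≤ η * ‖x - y‖) ∧
      ∀ x, (∀ y, dist y x ≤ η → D y = 0) → g.toFun x = x := by
  classical
  have hdc : Continuous (fderiv ℝ D) := hD.continuous_fderiv (by simp)
  have huc : UniformContinuous (fderiv ℝ D) :=
    (hDc.fderiv ℝ).uniformContinuous_of_continuous hdc
  have huc0 : UniformContinuous D := hDc.uniformContinuous_of_continuous hD.continuous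
  set m : ℝ := Fintype.card ι + 1 with hm
  have hm0 : 0 < m := by positivity
  set k : ℝ := min η (c / 2) with hk
  have hk0 : 0 < k := lt_min hη (by positivity)
  obtain ⟨d1, hd1, h1⟩ := Metric.uniformContinuous_iff.1 huc (k / m) (by positivity)
  obtain ⟨d2, hd2, h2⟩ := Metric.uniformContinuous_iff.1 huc0 η hη
  obtain ⟨e, he, he1, he2, he3⟩ : ∃ e : ℝ, 0 < e ∧ 3 * e < d1 ∧ e < d2 ∧ e ≤ η :=
    ⟨min (d1 / 6) (min (d2 / 2) η), by positivity, by
      have := min_le_left (d1 / 6) (min (d2 / 2) η); linarith, by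
      have := (min_le_right (d1 / 6) (min (d2 / 2) η)).trans (min_le_left _ _); linarith,
      (min_le_right _ _).trans (min_le_right _ _)⟩
  obtain ⟨s, hs⟩ := exists_finset_lattice he hDc.isCompact.isBounded
  have hs' : ∀ z : ι → ℤ, z ∉ s → D (fun i => e * (z i : ℝ)) = 0 := by
    intro z hz
    by_contra hne
    exact hz (hs z (subset_tsupport D hne))
  have hcon : ConicalOn (itp e D) univ := conicalOn_itp he hs'
  have hlip : ∀ x y, ‖(itp e D x - D x) - (itp e D y - D y)‖ ≤ k * ‖x - y‖ := by
    intro x y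
    have := itp_sub_lipschitz hD he (ω := k / m) (fun x y hxy => by
      rw [← dist_eq_norm]
      exact (h1 (lt_of_le_of_lt hxy he1)).le) x y
    rwa [← hm, mul_div_cancel₀ _ hm0.ne'] at this
  set g : (ι → ℝ) → (ι → ℝ) := fun x => x + itp e D x with hg
  have hgT : ∀ x y, ‖(g x - (x + D x)) - (g y - (y + D y))‖ ≤ k * ‖x - y‖ := by
    intro x y
    have : (g x - (x + D x)) - (g y - (y + D y)) = (itp e D x - D x) - (itp e D y - D y) := by
      simp only [hg]; abel
    rw [this]; exact hlip x y
  have hgexp : ∀ x y, c / 2 * ‖x - y‖ ≤ ‖g x - g y‖ := by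
    intro x y
    have h3 := hgT x y
    have h4 := hexp x y
    have h5 : (x + D x) - (y + D y) = (g x - g y) - ((g x - (x + D x)) - (g y - (y + D y))) := by
      abel
    have h6 : ‖(x + D x) - (y + D y)‖ ≤ ‖g x - g y‖ +
        ‖(g x - (x + D x)) - (g y - (y + D y))‖ := by rw [h5]; exact norm_sub_le _ _
    have h7 : k * ‖x - y‖ ≤ c / 2 * ‖x - y‖ := by gcongr; exact min_le_right _ _
    linarith
  have hgc : Continuous g := by
    have h8 : LipschitzWith (Real.toNNReal k) (fun x => itp e D x - D x) := by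
      refine LipschitzWith.of_dist_le_mul fun x y => ?_
      rw [Real.coe_toNNReal _ hk0.le, dist_eq_norm, dist_eq_norm]
      exact hlip x y
    have h9 : g = fun x => x + ((itp e D x - D x) + D x) := by
      funext x; simp [hg]
    rw [h9]
    exact continuous_id.add (h8.continuous.add hD.continuous)
  have hgsurj : Function.Surjective g :=
    surjective_of_near hc (k := k) (lt_of_le_of_lt (min_le_right _ _) (by linarith)) hexp hsurj hgT
  have hgcon : ConicalOn g univ := (conicalOn_id isOpen_univ.conicalSet).add hcon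
  refine ⟨conHomeoOf hgcon hgc (by positivity : 0 < c / 2) hgexp hgsurj, fun x => ?_,
    fun x y => ?_, fun x hx => ?_⟩
  · have : g x - (x + D x) = itp e D x - D x := by simp only [hg]; abel
    show ‖g x - (x + D x)‖ ≤ η
    rw [this]
    refine norm_itp_sub_le he hD.continuous fun y hy => ?_
    rw [← dist_eq_norm]
    exact (h2 (lt_of_le_of_lt hy he2)).le
  · exact (hgT x y).trans (by gcongr; exact min_le_left _ _)
  · show g x = x
    have : itp e D x = 0 := by
      rw [itp_congr he (D' := fun _ => 0) fun y hy => hx y (hy.trans he3), itp_const]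
    simp [hg, this]

end Vale.Agent.P073.H196
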