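import Vale.Agent.P073.H267.K3St1
import Vale.Agent.P073.H193.ProtL
import Vale.Agent.P073.H155.Shared3
import Vale.Agent.P073.H142.FaceTail

/-!
# P073, H196, **[AX-P]**: the edges of the protected cells at the peeled faces

`seg_axis`: they are parallel to an axis; `axOn_prot`: after ROUND T they are still parallel to this
axis and the level coordinate is Lipschitz.
-/

open Set Metric Topology Filter

set_option linter.unusedSectionVars false

namespace P073.H196

open _root_.P073 _root_.P073.Net _root_.P073.PA691 _root_.P073.H236 _root_.P073.H579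
open _root_.P073.H142 (FStar)
open _root_.P073.H345 (PK tg PLev PB_sub_PK)
open Vale.Agent.P073.St (V)
open Vale.Agent.P073.H471 Vale.Agent.P073.H267
open Vale.Agent.P073.H73 (Mesh)
open Vale.Agent.P073.H193 (Edges Cyc edges)
open Vale.Agent.P073.H304 (Nb InW Zmax)
open Vale.Agent.P073.H926
open Vale.Agent.P073.H238.K3
open Vale.Agent.P073.H805 (edge_axis)

/-- **the edges of the protected cells near the processed tiles are parallel to an axis** -/
theorem seg_axis {Ω Λ : Set V} {M : Mesh Ω} {E : Edges M} {h : ConHomeo Ω Λ} {η δ c₀ : ℝ}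
    {v₀ w : V} {ρ : V → ℝ} {J₀ J : Set (ℕ × (Fin 3 → ℤ))} {Pr Z : Set M.ι} {i : M.ι}
    (hin : InW (Λ := Λ) η δ c₀ v₀ w ρ M h.toFun J₀ J Pr Z) (hi : i ∈ Pr)
    {e : E.ε} (he : E.seg e ⊆ M.Q i)
    (hne : (h.toFun '' E.seg e ∩ Nb w J₀ c₀).Nonempty) :
    ∃ l, ∀ j, j ≠ l → E.a e j = E.b e j := by
  obtain ⟨k, hk, hek⟩ := H155.exists_face_of_seg E he
  obtain ⟨u, hu⟩ := hin.face_prot hi hk (hne.mono (inter_subset_inter_left _ (image_mono hek)))
  exact edge_axis E hu hek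

/-- on a segment parallel to an axis the other coordinates are constant -/
theorem segment_coord {a b x : V} {j : Fin 3} (h : a j = b j) (hx : x ∈ segment ℝ a b) :
    x j = a j := by
  obtain ⟨r, s, -, -, hrs, rfl⟩ := hx
  simp only [Pi.add_apply, Pi.smul_apply, smul_eq_mul]
  rw [← h, ← add_mul, hrs, one_mul]

variable {c₀ n δ : ℝ} {j : ℕ} {Ω Λ : Set V} {v w : V} {ρ : V → ℝ} {M : Mesh Ω} {h : ConHomeo Ω Λ}
  {J₀ J : Set (ℕ × (Fin 3 → ℤ))} {P Z : Set M.ι} {K : BoxCx Λ w}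
  {D : KIn3 c₀ n j δ v w ρ M h J₀ J P Z} {C : Cells ρ w K} {C₀ μT : ℝ}

/-- **[AX-P]**: the edges of the protected cells at the peeled faces, after ROUND T -/
theorem axOn_prot (X : K3.S1 D C C₀ μT) (hC : 1 ≤ C₀) {s : K.S} {k : M.κ}
    (hk : (D.dat C).PkS (D.G C) X.h1 s k) {i : M.ι} (hi : i ∈ P) {e : (edges M).ε}
    (hek : (edges M).seg e ⊆ M.F k) (hei : (edges M).seg e ⊆ M.Q i) {q : ℝ}
    (hq : ∀ x ∈ M.Q i, ∀ y ∈ M.Q i, ‖h.toFun x - h.toFun y‖ ≤ q * ‖x - y‖) :
    H155.AxOn X.h1.toFun ((edges M).seg e) (C₀ * q) := by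
  have hs : s ∈ pS C J₀ := hk.1
  have hPK : ∀ x ∈ (edges M).seg e, X.h1.toFun x ∈ PK (D.G C) s := fun x hx =>
    PB_sub_PK (by norm_num) s
      (_root_.Vale.Agent.P073.H341.near_dat D C X.out.near hk (hek hx)).1
  have him := X.out.recte i hi e hei
  have ha : (edges M).a e ∈ (edges M).seg e := left_mem_segment ℝ _ _
  -- the tile
  obtain ⟨q₀, -, he₀⟩ := D.rt_prot C hi
  have hcube : ∀ x ∈ M.Q i, h.toFun x ∈ K.cube q₀ := by
    intro x hx
    have h1 : h.toFun x ∈ h.toFun '' M.Q i := mem_image_of_mem _ hx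
    rw [he₀] at h1
    have hT := C.sT_pos q₀
    have hη0 : (0:ℝ) < 1 / 2 ^ j := by positivity
    have h0 : 0 ≤ 1 / 2 ^ j / 2 * C.sT q₀ := by positivity
    exact ⟨fun k => by linarith [h1.1 k], fun k => by linarith [h1.2 k]⟩
  obtain ⟨x', hx', hxx'⟩ : ∃ x' ∈ (edges M).seg e, h.toFun x' = X.h1.toFun ((edges M).a e) := by
    have h1 : X.h1.toFun ((edges M).a e) ∈ X.h1.toFun '' (edges M).seg e := mem_image_of_mem _ ha
    rw [him] at h1
    exact h1
  have hPK' : h.toFun x' ∈ PK (D.G C) s := by rw [hxx']; exact hPK _ ha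
  have hqs : q₀ = K.sm s ∨ q₀ = K.sp s := tile_PX (PK_sub_PX s hPK') (hcube x' (hei hx'))
  -- closeness
  have hτ := (D.B C).τ_pos s
  have hom : (D.G C).om q₀ ≤ (D.B C).τ s / 8 := by
    have h1 := (D.G C).om_κ q₀
    have h2 := (D.G C).κ_τ q₀ s hqs
    have h3 := (D.G C).om_pos q₀
    linarith
  have hev : ∀ x ∈ (edges M).seg e, ∀ᶠ y in 𝓝[M.Q i] x, h.toFun y ∈ PX (D.G C) s := by
    intro x hx
    have hc : ContinuousWithinAt h.toFun (M.Q i) x := (h.cont.mono (M.sub i)) x (hei hx)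
    have h1 := X.out.near3 x (M.sub i (hei hx)) q₀ (hcube x (hei hx))
    filter_upwards [hc.eventually (ball_mem_nhds (h.toFun x) (show 0 < (D.B C).τ s / 8 by linarith))]
      with y hy
    refine PX_of_near (hPK x hx) ?_
    have h2 : ‖h.toFun y - h.toFun x‖ ≤ (D.B C).τ s / 8 := (mem_ball_iff_norm.1 hy).le
    have h3 : ‖h.toFun x - X.h1.toFun x‖ ≤ (D.B C).τ s / 8 := by
      rw [norm_sub_rev]; exact h1.trans hom
    calc ‖h.toFun y - X.h1.toFun x‖
        = ‖(h.toFun y - h.toFun x) + (h.toFun x - X.h1.toFun x)‖ := by congr 1; abel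
      _ ≤ _ := norm_add_le _ _
      _ ≤ (D.B C).τ s / 4 := by linarith
  -- the axis
  obtain ⟨l, hl⟩ := seg_axis D.inp hi hei
    ⟨_, mem_image_of_mem _ hx', K3.S1.Nb_of_PK hk.1 hPK'⟩
  refine ⟨l, fun i' hi' x hx y hy => ?_, fun x hx y hy => ?_⟩
  · obtain ⟨c, lam, a, r, hr, hlam, hQi, hg⟩ := prot_diag (X.η_lt) D.inp hi
    have hval : ∀ z ∈ (edges M).seg e, X.h1.toFun z i' = c i' + lam i' * ((edges M).a e i' - a i') := by
      intro z hz
      have h1 : X.h1.toFun z ∈ X.h1.toFun '' (edges M).seg e := mem_image_of_mem _ hz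
      rw [him] at h1
      obtain ⟨z', hz', hzz'⟩ := h1
      rw [← hzz', hg z' (hei hz') i', segment_coord (hl i' hi') hz']
    rw [hval x hx, hval y hy]
  · have hloc : ∀ x ∈ (edges M).seg e, ∀ᶠ y in 𝓝[(edges M).seg e] x,
        ‖X.h1.toFun y l - X.h1.toFun x l‖ ≤ C₀ * q * ‖y - x‖ := by
      intro x hx
      have h1 := Vale.Agent.P073.H193.prot_pk X.out hC hi (hei hx) hs (hev x hx)
      filter_upwards [nhdsWithin_mono x hei h1, self_mem_nhdsWithin] with y hy hys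
      rw [Real.norm_eq_abs]
      have h2 := hq y (hei hys) x (hei hx)
      calc _ ≤ C₀ * ‖h.toFun y - h.toFun x‖ := hy l
        _ ≤ C₀ * (q * ‖y - x‖) := mul_le_mul_of_nonneg_left h2 (by linarith)
        _ = C₀ * q * ‖y - x‖ := by ring
    have hcv : Convex ℝ ((edges M).seg e) := convex_segment _ _
    have h2 := P073.H142.lip_of_local hcv hloc x hx y hy
    rwa [Real.norm_eq_abs] at h2

end P073.H196
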