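import Vale.Agent.P073.H196.PRoundT

/-!
# P073, H196, [PCELL], Round T: the Lipschitz bound on protected cells

`G = T_fix ∘ H_1 ∘ H_α ∘ Θ` is Lipschitz with a universal constant on convex sets.
-/

open Set Metric Topology Filter

namespace P073.H196

open P073 P073.H236 P073.H579

variable {n : ℕ} {ι : Type*} {Λ : Set (Fin n → ℝ)}

/-- the heights are Lipschitz -/
theorem HX.abs_m_sub_le (X : HX n) (hD : ∀ i, X.D ≤ X.r i) (y y' : Fin n → ℝ) :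
    |X.m y - X.m y'| ≤ ‖y - y'‖ := by
  have hD0 := X.D0
  rcases hD0.eq_or_lt with h | h
  · unfold HX.m bmp
    rw [← h, zero_mul, zero_mul, sub_self, abs_zero]
    exact norm_nonneg _
  · have h1 := abs_bmp_sub_le (j := X.j) (lo := X.lo) (hi := X.hi) (r := X.r) (C := X.D) hD0 h hD
      (y := y) (y' := y') (d := ‖y - y'‖) (fun i _ => by
        have := norm_le_pi_norm (y - y') i
        rwa [Pi.sub_apply, Real.norm_eq_abs] at this) (norm_nonneg _)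
    have h2 : X.D * (‖y - y'‖ / X.D) = ‖y - y'‖ := by field_simp
    rw [h2] at h1
    exact h1

/-- the four families -/
structure Four (B : ι → BX n) (FΘ Fα F₁ : HFam n ι Λ) (V : ι → Finset ℝ) (A : ℝ) where
  lΘ : ι → ℝ
  lα : ι → ℝ
  σ : ι → ℝ → ℝ
  lΘ0 : ∀ b, 0 < lΘ b
  lΘ1 : ∀ b, lΘ b ≤ 1
  lα0 : ∀ b, 0 < lα b
  lα1 : ∀ b, lα b ≤ 1
  kΘ : ∀ b, (FΘ.X b).k = th (B b).lvs.L (B b).c (lΘ b)
  kα : ∀ b, (Fα.X b).k = th (B b).lvs.L (B b).c (lα b)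
  k₁ : ∀ b t, (F₁.X b).k (th (B b).lvs.L (B b).c (lα b) t) = σ b t
  A4 : 4 ≤ A
  lip : ∀ b s t, |σ b (th (B b).lvs.L (B b).c (lΘ b) s) - σ b (th (B b).lvs.L (B b).c (lΘ b) t)| ≤
    A * |s - t|
  full : ∀ b y, 0 < (F₁.X b).m y → (B b).c ≤ (Fα.X b).m y ∧ (B b).c ≤ (FΘ.X b).m y
  rΘ : ∀ b i, (FΘ.X b).D ≤ (FΘ.X b).r i
  rα : ∀ b i, (Fα.X b).D ≤ (Fα.X b).r i
  r₁ : ∀ b i, (F₁.X b).D ≤ (F₁.X b).r i
  fix : FixD F₁ V
  eps : ∀ b, 4 * fix.d b / fix.g b ≤ 1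

namespace Four

variable {B : ι → BX n} {FΘ Fα F₁ : HFam n ι Λ} {V : ι → Finset ℝ} {A : ℝ}
  (X : Four B FΘ Fα F₁ V A)

/-- the vertical function of the composition -/
noncomputable def φ (b : ι) (y : Fin n → ℝ) (t : ℝ) : ℝ :=
  cl (X.fix.τ b) ((F₁.X b).m y) (cl (F₁.X b).k ((F₁.X b).m y)
    (cl (Fα.X b).k ((Fα.X b).m y) (cl (FΘ.X b).k ((FΘ.X b).m y) t)))

theorem vrt {j : ι → Fin n} {al be : ι → ℝ} {lo hi : ι → Fin n → ℝ} {Θ Hα H₁ T : ConHomeo Λ Λ}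
    (oΘ : Over FΘ j al be lo hi) (oα : Over Fα j al be lo hi) (o₁ : Over F₁ j al be lo hi)
    (hΘ : FΘ.IsH Θ) (hα : Fα.IsH Hα) (h₁ : F₁.IsH H₁) (hT : X.fix.hfam.IsH T) :
    Vrt (fun y => T.toFun (H₁.toFun (Hα.toFun (Θ.toFun y)))) j al be lo hi X.φ := by
  have oT : Over X.fix.hfam j al be lo hi := ⟨o₁.hj, o₁.hal, o₁.hbe, o₁.hlo, o₁.hhi, o₁.dis⟩
  exact (oT.vrt hT).comp ((o₁.vrt h₁).comp ((oα.vrt hα).comp (oΘ.vrt hΘ)))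

/-- the one-dimensional estimate -/
theorem abs_φ_sub_le (b : ι) (y y' : Fin n → ℝ) (s t : ℝ) (hst : |s - t| ≤ ‖y - y'‖) :
    |X.φ b y s - X.φ b y' t| ≤ (2 * A + 11) * ‖y - y'‖ := by
  have hc := (B b).lvs.c0.le
  have hs := (B b).lvs.sepd
  have hA := X.A4
  set N := ‖y - y'‖ with hN
  have hN0 : 0 ≤ N := norm_nonneg _
  have d1 := HX.abs_m_sub_le (F₁.X b) (X.r₁ b) y y'
  have dα := HX.abs_m_sub_le (Fα.X b) (X.rα b) y y'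
  have dΘ := HX.abs_m_sub_le (FΘ.X b) (X.rΘ b) y y'
  rw [← hN] at d1 dα dΘ
  set fΘ := th (B b).lvs.L (B b).c (X.lΘ b) with hfΘ
  set fα := th (B b).lvs.L (B b).c (X.lα b) with hfα
  have lΘ : ∀ s t, |fΘ s - fΘ t| ≤ 2 * |s - t| := abs_th_sub_th_le hc hs (X.lΘ0 b).le (X.lΘ1 b)
  have lα : ∀ s t, |fα s - fα t| ≤ 2 * |s - t| := abs_th_sub_th_le hc hs (X.lα0 b).le (X.lα1 b)
  have bΘ : ∀ t, |fΘ t - t| ≤ (B b).c := abs_th_sub_le hc hs (X.lΘ0 b).le (X.lΘ1 b)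
  have bα : ∀ t, |fα t - t| ≤ (B b).c := abs_th_sub_le hc hs (X.lα0 b).le (X.lα1 b)
  have inner : ∀ m₁ m₁' mα mα' : ℝ, |m₁ - m₁'| ≤ N → |mα - mα'| ≤ N →
      |cl fα mα (cl fΘ m₁ s) - cl fα mα' (cl fΘ m₁' t)| ≤ A * |s - t| + 3 * N := by
    intro m₁ m₁' mα mα' e1 e2
    have a1 := abs_cl_sub_cl_le (m := m₁) (m' := m₁') (by norm_num : (1:ℝ) ≤ 2) (lΘ s t)
    have a2 := abs_cl_sub_cl_le (m := mα) (m' := mα') (by norm_num : (1:ℝ) ≤ 2)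
      (lα (cl fΘ m₁ s) (cl fΘ m₁' t))
    have a3 : 4 * |s - t| ≤ A * |s - t| := mul_le_mul_of_nonneg_right hA (abs_nonneg _)
    linarith
  have hf4 : |fα (fΘ s) - fα (fΘ t)| ≤ A * |s - t| := by
    have a1 := lα (fΘ s) (fΘ t)
    have a2 := lΘ s t
    have a3 : 4 * |s - t| ≤ A * |s - t| := mul_le_mul_of_nonneg_right hA (abs_nonneg _)
    linarith
  have hσ : |(F₁.X b).k (fα (fΘ s)) - (F₁.X b).k (fα (fΘ t))| ≤ A * |s - t| := by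
    rw [X.k₁ b, X.k₁ b]; exact X.lip b s t
  have hfix := X.fix.fix b
  have heps := X.eps b
  have hτ : ∀ s t, |X.fix.τ b s - X.fix.τ b t| ≤ 2 * |s - t| := fun s t =>
    (hfix.lip s t).trans (mul_le_mul_of_nonneg_right (by linarith) (abs_nonneg _))
  have hfull : ∀ z, 0 < (F₁.X b).m z → ∀ u, cl fα ((Fα.X b).m z) (cl fΘ ((FΘ.X b).m z) u) =
      fα (fΘ u) := by
    intro z hz u
    obtain ⟨g1, g2⟩ := X.full b z hz
    rw [cl_eq ((bΘ u).trans g2), cl_eq ((bα _).trans g1)]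
  have key := abs_comp_gen (σ := (F₁.X b).k) (τ := X.fix.τ b) (f := fun t => fα (fΘ t))
    (P := fun s => cl fα ((Fα.X b).m y) (cl fΘ ((FΘ.X b).m y) s))
    (P' := fun t => cl fα ((Fα.X b).m y') (cl fΘ ((FΘ.X b).m y') t)) (A := A) (T := 2) (Δ := 3 * N)
    (m := (F₁.X b).m y) (m' := (F₁.X b).m y') (s := s) (t := t) hf4 hσ (by norm_num) hτ
    ((F₁.X b).vd.m0 y) ((F₁.X b).vd.m0 y') (fun h => hfull y h s) (fun h => hfull y' h t)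
    (inner _ _ _ _ dΘ dα) (by positivity)
  have e : |X.φ b y s - X.φ b y' t| ≤ 2 * (A * |s - t| +
      2 * |(F₁.X b).m y - (F₁.X b).m y'| + 3 * N) + |(F₁.X b).m y - (F₁.X b).m y'| := by
    unfold φ
    rw [X.kα b, X.kΘ b]
    exact key
  have a4 : A * |s - t| ≤ A * N := mul_le_mul_of_nonneg_left hst (by linarith)
  calc _ ≤ _ := e
    _ ≤ 2 * (A * N + 2 * N + 3 * N) + N := by linarith
    _ = _ := by ring

/-- **[PROT-T]** the Lipschitz bound on convex sets -/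
theorem lipschitz {j : ι → Fin n} {al be : ι → ℝ} {lo hi : ι → Fin n → ℝ}
    {Θ Hα H₁ T : ConHomeo Λ Λ} (oΘ : Over FΘ j al be lo hi) (oα : Over Fα j al be lo hi)
    (o₁ : Over F₁ j al be lo hi) (hΘ : FΘ.IsH Θ) (hα : Fα.IsH Hα) (h₁ : F₁.IsH H₁)
    (hT : X.fix.hfam.IsH T) (hΛ : IsOpen Λ)
    (lf : ∀ z ∈ Λ, ∃ U ∈ 𝓝 z, {b | (bigBox (j b) (al b) (be b) (lo b) (hi b) ∩ U).Nonempty}.Finite)
    {S : Set (Fin n → ℝ)} (hS : Convex ℝ S) (hSΛ : S ⊆ Λ) {y y' : Fin n → ℝ} (hy : y ∈ S)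
    (hy' : y' ∈ S) :
    ‖T.toFun (H₁.toFun (Hα.toFun (Θ.toFun y))) - T.toFun (H₁.toFun (Hα.toFun (Θ.toFun y')))‖ ≤
      (2 * A + 11) * ‖y - y'‖ := by
  have hA := X.A4
  have hG : ContinuousOn (fun y => T.toFun (H₁.toFun (Hα.toFun (Θ.toFun y)))) Λ :=
    T.cont.comp (H₁.cont.comp (Hα.cont.comp Θ.cont Θ.mapsTo)
      (Hα.mapsTo.comp Θ.mapsTo)) (H₁.mapsTo.comp (Hα.mapsTo.comp Θ.mapsTo))
  refine (X.vrt oΘ oα o₁ hΘ hα h₁ hT).lip hΛ hG (by linarith) lf (fun b z _ z' _ => ?_) hS hSΛ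
    hy hy'
  refine X.abs_φ_sub_le b z z' _ _ ?_
  have := norm_le_pi_norm (z - z') (j b)
  rwa [Pi.sub_apply, Real.norm_eq_abs] at this

end Four

end P073.H196
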