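import Vale.Agent.P073.Net.NH2a

/-!
# P073, block A06-CROFT (1): crossing numbers of one conical curve

`q : ℝ → V` conical on `[x,y]`. Off a finite set `B` of values every crossing of a coordinate plane
is transversal (`RegOn`), and for `δ`-separated sets of levels, disjoint from `B`, the number of
crossings in a convex region, times `δ`, is at most the variation in the region plus `N δ` (`CntOn`).
-/

open Set Metric Topology MeasureTheory Filter
open scoped ENNReal NNReal

namespace P073.Croft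

open Vale.Agent.P073.St (V euc)
open P073.Net

/-- every parameter of `[x,y]` where the `i`-th coordinate is not in `B` is an interior parameter
near which `q` is affine and transversal to the `i`-th coordinate planes -/
def RegOn (q : ℝ → V) (B : Set ℝ) (x y : ℝ) : Prop :=
  ∀ i, ∀ t ∈ Icc x y, q t i ∉ B → ∃ r > 0, ∃ w : V, w i ≠ 0 ∧ x ≤ t - r ∧ t + r ≤ y ∧
    ∀ s ∈ Icc (t - r) (t + r), q s = q t + (s - t) • w

/-- the variation of the `i`-th coordinate of `q` on the part of `(x,y]` in `P` -/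
noncomputable def varIn (q : ℝ → V) (i : Fin 3) (P : Set V) (x y : ℝ) : ℝ≥0∞ :=
  ∫⁻ t in (q ⁻¹' P) ∩ Ioc x y, ‖deriv (fun s => q s i) t‖ₑ

/-- the parameters in `[x,y]` where `q` crosses the levels `L` of the coordinate `i`,
in the region `P` -/
def crossOn (q : ℝ → V) (i : Fin 3) (L : Set ℝ) (P : Set V) (x y : ℝ) : Set ℝ :=
  {t | t ∈ Icc x y ∧ q t ∈ P ∧ q t i ∈ L}

/-- separated sets of levels -/
def SepL (δ : ℝ) (L : Set ℝ) : Prop := ∀ a ∈ L, ∀ b ∈ L, a < b → δ ≤ b - a

/-- the counting estimate -/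
def CntOn (q : ℝ → V) (B : Set ℝ) (N : ℕ) (x y : ℝ) : Prop :=
  ∀ (i : Fin 3) (P : Set V), Convex ℝ P → ∀ δ > 0, ∀ L : Set ℝ, SepL δ L → Disjoint L B →
    (crossOn q i L P x y).Finite ∧
      ENNReal.ofReal δ * cnt (crossOn q i L P x y) ≤ varIn q i P x y + N * ENNReal.ofReal δ

/-! ### separated sets of reals -/

theorem card_sep_fin {S : Set ℝ} {a b d : ℝ} (hd : 0 < d) (hab : a ≤ b) (hS : S ⊆ Icc a b)
    (hsep : SepL d S) : S.Finite ∧ (S.ncard : ℝ) * d ≤ b - a + d := by
  set g : ℝ → ℤ := fun s => ⌊(s - a) / d⌋ with hg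
  have hinj : InjOn g S := by
    have key : ∀ s ∈ S, ∀ t ∈ S, s < t → g s < g t := by
      intro s hs t ht hst
      have h1 := hsep s hs t ht hst
      have h2 : (s - a) / d + 1 ≤ (t - a) / d := by
        rw [div_add_one hd.ne']
        gcongr
        linarith
      have h3 : ⌊(s - a) / d⌋ + 1 ≤ ⌊(t - a) / d⌋ := by
        rw [Int.le_floor]
        push_cast
        have := Int.floor_le ((s - a) / d)
        linarith
      simp only [hg]
      omega
    intro s hs t ht hst
    rcases lt_trichotomy s t with h | h | h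
    · exact absurd hst (key s hs t ht h).ne
    · exact h
    · exact absurd hst (key t ht s hs h).ne'
  have hmaps : MapsTo g S (Finset.Icc (0:ℤ) ⌊(b - a) / d⌋ : Finset ℤ) := by
    intro s hs
    have h1 := hS hs
    rw [Finset.coe_Icc]
    constructor
    · exact Int.floor_nonneg.2 (div_nonneg (by linarith [h1.1]) hd.le)
    · apply Int.floor_le_floor
      gcongr
      exact h1.2
  have hfin : S.Finite := Finite.of_injOn hmaps hinj (Finset.finite_toSet _)
  refine ⟨hfin, ?_⟩
  have h1 : S.ncard ≤ (Finset.Icc (0:ℤ) ⌊(b - a) / d⌋).card := by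
    have := ncard_le_ncard_of_injOn g hmaps hinj (Finset.finite_toSet _)
    rwa [ncard_coe_finset] at this
  have h2 : ((Finset.Icc (0:ℤ) ⌊(b - a) / d⌋).card : ℝ) ≤ (b - a) / d + 1 := by
    rw [Int.card_Icc]
    have h3 : 0 ≤ ⌊(b - a) / d⌋ := Int.floor_nonneg.2 (div_nonneg (by linarith) hd.le)
    have h4 : (((⌊(b - a) / d⌋ + 1 - 0).toNat : ℤ) : ℝ) = (⌊(b - a) / d⌋ : ℝ) + 1 := by
      rw [Int.toNat_of_nonneg (by omega)]
      push_cast; ring
    have h5 : (((⌊(b - a) / d⌋ + 1 - 0).toNat : ℕ) : ℝ) = (⌊(b - a) / d⌋ : ℝ) + 1 := by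
      exact_mod_cast h4
    rw [h5]
    have := Int.floor_le ((b - a) / d)
    linarith
  have h3 : (S.ncard : ℝ) ≤ (b - a) / d + 1 := le_trans (by exact_mod_cast h1) h2
  calc (S.ncard : ℝ) * d ≤ ((b - a) / d + 1) * d := by gcongr
    _ = b - a + d := by field_simp

/-- a separated set in a bounded convex set of reals -/
theorem card_sep {S X : Set ℝ} {a b d : ℝ} (hd : 0 < d) (hX : OrdConnected X) (hXb : X ⊆ Icc a b)
    (hS : S ⊆ X) (hsep : SepL d S) :
    S.Finite ∧ ∃ x y, x ≤ y ∧ Ioc x y ⊆ X ∧ (S.ncard : ℝ) * d ≤ y - x + d := by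
  rcases S.eq_empty_or_nonempty with h0 | hne
  · subst h0
    refine ⟨finite_empty, 0, 0, le_refl _, by simp, ?_⟩
    simp [hd.le]
  · obtain ⟨s0, hs0⟩ := hne
    have hab : a ≤ b := (hXb (hS hs0)).1.trans (hXb (hS hs0)).2
    have hfin := (card_sep_fin hd hab (hS.trans hXb) hsep).1
    refine ⟨hfin, ?_⟩
    obtain ⟨x, hx, hxm⟩ := hfin.exists_minimalFor id S ⟨s0, hs0⟩
    obtain ⟨y, hy, hym⟩ := hfin.exists_maximalFor id S ⟨s0, hs0⟩
    have hx' : ∀ s ∈ S, x ≤ s := fun s hs => by
      rcases le_total x s with h | h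
      · exact h
      · exact hxm hs h
    have hy' : ∀ s ∈ S, s ≤ y := fun s hs => by
      rcases le_total s y with h | h
      · exact h
      · exact hym hs h
    have hxy : x ≤ y := hx' y hy
    refine ⟨x, y, hxy, Ioc_subset_Icc_self.trans (hX.out (hS hx) (hS hy)), ?_⟩
    exact (card_sep_fin hd hxy (fun s hs => ⟨hx' s hs, hy' s hs⟩) hsep).2

/-! ### one affine piece -/

section Piece

variable {q : ℝ → V} {x y : ℝ} {w : V}

theorem piece_ordConnected (hq : ∀ s ∈ Icc x y, q s = q x + (s - x) • w) {P : Set V}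
    (hP : Convex ℝ P) : OrdConnected ((q ⁻¹' P) ∩ Icc x y) := by
  have e : (q ⁻¹' P) ∩ Icc x y = ((fun s : ℝ => q x + (s - x) • w) ⁻¹' P) ∩ Icc x y := by
    ext s
    constructor
    · rintro ⟨h1, h2⟩
      refine ⟨?_, h2⟩
      rw [mem_preimage] at h1 ⊢
      rwa [hq s h2] at h1
    · rintro ⟨h1, h2⟩
      refine ⟨?_, h2⟩
      rw [mem_preimage] at h1 ⊢
      rwa [hq s h2]
  rw [e]
  refine Convex.ordConnected (Convex.inter ?_ (convex_Icc x y))
  intro s hs t ht α β hα hβ hαβ
  rw [mem_preimage] at hs ht ⊢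
  have := hP hs ht hα hβ hαβ
  convert this using 1
  have h1 : q x = α • q x + β • q x := by rw [← add_smul, hαβ, one_smul]
  have h2 : (α • s + β • t - x) • w = (α * (s - x)) • w + (β * (t - x)) • w := by
    rw [← add_smul]
    congr 1
    rw [smul_eq_mul, smul_eq_mul]
    linear_combination x * hαβ
  rw [h2]
  nth_rewrite 1 [h1]
  rw [smul_add, smul_add, smul_smul, smul_smul]
  abel

theorem piece_measurable (hq : ∀ s ∈ Icc x y, q s = q x + (s - x) • w) {P : Set V}
    (hP : Convex ℝ P) : MeasurableSet ((q ⁻¹' P) ∩ Ioc x y) := by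
  have : (q ⁻¹' P) ∩ Ioc x y = ((q ⁻¹' P) ∩ Icc x y) ∩ Ioc x y := by
    rw [inter_assoc, inter_eq_self_of_subset_right Ioc_subset_Icc_self]
  rw [this]
  exact (piece_ordConnected hq hP).measurableSet.inter measurableSet_Ioc

theorem piece_deriv (hq : ∀ s ∈ Icc x y, q s = q x + (s - x) • w) {t : ℝ} (ht : t ∈ Ioo x y)
    (i : Fin 3) : deriv (fun s => q s i) t = w i := by
  have h1 : HasDerivAt (fun s : ℝ => q x i + (s - x) * w i) (w i) t := by
    have := (((hasDerivAt_id t).sub_const x).mul_const (w i)).const_add (q x i)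
    simpa using this
  refine (h1.congr_of_eventuallyEq ?_).deriv
  filter_upwards [Icc_mem_nhds ht.1 ht.2] with s hs
  rw [hq s hs]
  simp

theorem piece_varIn (hq : ∀ s ∈ Icc x y, q s = q x + (s - x) • w) {P : Set V}
    (hP : Convex ℝ P) (i : Fin 3) :
    varIn q i P x y = ‖w i‖ₑ * volume ((q ⁻¹' P) ∩ Ioc x y) := by
  have hm := piece_measurable hq hP
  unfold varIn
  rw [← setLIntegral_const]
  apply lintegral_congr_ae
  rw [Filter.EventuallyEq, ae_restrict_iff' hm]
  have : ∀ᵐ t : ℝ ∂volume, t ≠ y := by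
    rw [ae_iff]; simp
  filter_upwards [this] with t hty ht
  rw [piece_deriv hq ⟨ht.2.1, lt_of_le_of_ne ht.2.2 hty⟩]

/-- the bad values of an affine piece -/
def badP (q : ℝ → V) (x y : ℝ) : Set ℝ := range (q x) ∪ range (q y)

theorem badP_finite (q : ℝ → V) (x y : ℝ) : (badP q x y).Finite :=
  (finite_range _).union (finite_range _)

theorem piece_reg (hq : ∀ s ∈ Icc x y, q s = q x + (s - x) • w) : RegOn q (badP q x y) x y := by
  intro i t ht hB
  have hxB : q x i ∈ badP q x y := Or.inl ⟨i, rfl⟩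
  have hyB : q y i ∈ badP q x y := Or.inr ⟨i, rfl⟩
  have h1 : x ≠ t := fun h => hB (h ▸ hxB)
  have h2 : t ≠ y := fun h => hB (h ▸ hyB)
  have h1' : x < t := lt_of_le_of_ne ht.1 h1
  have h2' : t < y := lt_of_le_of_ne ht.2 h2
  refine ⟨min (t - x) (y - t), lt_min (by linarith) (by linarith), w, ?_, ?_, ?_, ?_⟩
  · intro hw
    apply hB
    rw [hq t ht]
    simp only [Pi.add_apply, Pi.smul_apply, hw, smul_eq_mul, mul_zero, add_zero]
    exact hxB
  · linarith [min_le_left (t - x) (y - t)]
  · linarith [min_le_right (t - x) (y - t)]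
  · intro s hs
    have hs' : s ∈ Icc x y := ⟨by linarith [hs.1, min_le_left (t - x) (y - t)],
      by linarith [hs.2, min_le_right (t - x) (y - t)]⟩
    rw [hq s hs', hq t ht]
    module

theorem piece_cnt (hq : ∀ s ∈ Icc x y, q s = q x + (s - x) • w) :
    CntOn q (badP q x y) 1 x y := by
  intro i P hP δ hδ L hL hLB
  by_cases hw : w i = 0
  · have : crossOn q i L P x y = ∅ := by
      rw [eq_empty_iff_forall_notMem]
      rintro t ⟨ht, -, htL⟩
      rw [hq t ht] at htL
      simp only [Pi.add_apply, Pi.smul_apply, hw, smul_eq_mul, mul_zero, add_zero] at htL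
      exact Set.disjoint_left.1 hLB htL (Or.inl ⟨i, rfl⟩)
    rw [this]
    refine ⟨finite_empty, ?_⟩
    simp [cnt]
  · have hw' : 0 < |w i| := abs_pos.2 hw
    have hsub : crossOn q i L P x y ⊆ (q ⁻¹' P) ∩ Icc x y := fun t ht => ⟨ht.2.1, ht.1⟩
    have hsep : SepL (δ / |w i|) (crossOn q i L P x y) := by
      intro s hs t ht hst
      have e : q t i - q s i = (t - s) * w i := by
        rw [hq t ht.1, hq s hs.1]
        simp only [Pi.add_apply, Pi.smul_apply, smul_eq_mul]
        ring
      have hne : q t i ≠ q s i := by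
        intro h
        rw [h, sub_self] at e
        rcases mul_eq_zero.1 e.symm with h' | h'
        · linarith
        · exact hw h'
      have h1 : δ ≤ |q t i - q s i| := by
        rcases lt_or_gt_of_ne hne with h | h
        · have := hL _ ht.2.2 _ hs.2.2 h
          rw [abs_sub_comm]
          exact this.trans (le_abs_self _)
        · exact (hL _ hs.2.2 _ ht.2.2 h).trans (le_abs_self _)
      rw [e, abs_mul, abs_of_pos (by linarith : 0 < t - s)] at h1
      rw [div_le_iff₀ hw']
      exact h1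
    obtain ⟨hfin, x', y', hxy', hI, hcard⟩ := card_sep (div_pos hδ hw')
      (piece_ordConnected hq hP) inter_subset_right hsub hsep
    refine ⟨hfin, ?_⟩
    have hvol : ENNReal.ofReal (y' - x') ≤ volume ((q ⁻¹' P) ∩ Ioc x y) := by
      rw [← Real.volume_Ioc]
      refine measure_mono ?_
      intro t ht
      have h1 := hI ht
      refine ⟨h1.1, lt_of_le_of_ne h1.2.1 ?_, h1.2.2⟩
      rintro rfl
      have h2 := hI (a := (x' + x) / 2) ⟨by linarith [ht.1], by linarith [ht.1, ht.2]⟩
      linarith [h2.2.1, ht.1]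
    rw [piece_varIn hq hP]
    have hr : δ * (crossOn q i L P x y).ncard ≤ |w i| * (y' - x') + δ := by
      have h1 : (crossOn q i L P x y).ncard * (δ / |w i|) * |w i| ≤
          (y' - x' + δ / |w i|) * |w i| := by gcongr
      have h2 : (crossOn q i L P x y).ncard * (δ / |w i|) * |w i| =
          δ * (crossOn q i L P x y).ncard := by field_simp
      have h3 : (y' - x' + δ / |w i|) * |w i| = |w i| * (y' - x') + δ := by field_simp
      linarith
    have hc : cnt (crossOn q i L P x y) = ENNReal.ofReal ((crossOn q i L P x y).ncard : ℝ) := by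
      unfold cnt
      rw [← hfin.cast_ncard_eq, ENNReal.ofReal_natCast]
      simp
    rw [hc, ← ENNReal.ofReal_mul hδ.le]
    calc ENNReal.ofReal (δ * (crossOn q i L P x y).ncard)
        ≤ ENNReal.ofReal (|w i| * (y' - x') + δ) := ENNReal.ofReal_le_ofReal hr
      _ = ENNReal.ofReal |w i| * ENNReal.ofReal (y' - x') + ENNReal.ofReal δ := by
          rw [ENNReal.ofReal_add (by nlinarith) hδ.le, ENNReal.ofReal_mul hw'.le]
      _ ≤ ‖w i‖ₑ * volume ((q ⁻¹' P) ∩ Ioc x y) + (1:ℕ) * ENNReal.ofReal δ := by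
          rw [Nat.cast_one, one_mul, ← Real.enorm_eq_ofReal_abs]
          gcongr

end Piece

end P073.Croft
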