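import Vale.Agent.P073.H196.Croft1

/-!
# P073, block A06-CROFT (2): chaining the pieces; weighted sums with bounded overlap
-/

open Set Metric Topology MeasureTheory Filter
open scoped ENNReal NNReal

namespace P073.Croft

open Vale.Agent.P073.St (V euc)
open P073.Net

theorem varIn_add (q : ℝ → V) (i : Fin 3) (P : Set V) {x y z : ℝ} (hxy : x ≤ y) (hyz : y ≤ z) :
    varIn q i P x z = varIn q i P x y + varIn q i P y z := by
  unfold varIn
  rw [← lintegral_inter_add_sdiff _ ((q ⁻¹' P) ∩ Ioc x z) (measurableSet_Ioc (a := x) (b := y))]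
  congr 2
  · congr 1
    ext t
    constructor
    · rintro ⟨⟨h1, h2⟩, h3⟩
      exact ⟨h1, h3⟩
    · rintro ⟨h1, h3⟩
      exact ⟨⟨h1, h3.1, h3.2.trans hyz⟩, h3⟩
  · congr 1
    ext t
    constructor
    · rintro ⟨⟨h1, h2⟩, h3⟩
      refine ⟨h1, ?_, h2.2⟩
      by_contra h
      exact h3 ⟨h2.1, not_lt.1 h⟩
    · rintro ⟨h1, h3⟩
      exact ⟨⟨h1, hxy.trans_lt h3.1, h3.2⟩, fun h => absurd h3.1 (not_lt.2 h.2)⟩

theorem RegOn.mono {q : ℝ → V} {B B' : Set ℝ} {x y : ℝ} (h : RegOn q B x y) (hB : B ⊆ B') :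
    RegOn q B' x y := fun i t ht hn => h i t ht fun hh => hn (hB hh)

theorem CntOn.mono {q : ℝ → V} {B B' : Set ℝ} {N N' : ℕ} {x y : ℝ} (h : CntOn q B N x y)
    (hB : B ⊆ B') (hN : N ≤ N') : CntOn q B' N' x y := by
  intro i P hP δ hδ L hL hLB
  obtain ⟨h1, h2⟩ := h i P hP δ hδ L hL (hLB.mono_right hB)
  refine ⟨h1, h2.trans ?_⟩
  gcongr

theorem RegOn.glue {q : ℝ → V} {B : Set ℝ} {x y z : ℝ} (hxy : x ≤ y) (hyz : y ≤ z)
    (h1 : RegOn q B x y) (h2 : RegOn q B y z) : RegOn q B x z := by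
  intro i t ht hB
  rcases le_total t y with h | h
  · obtain ⟨r, hr, w, hw, a1, a2, a3⟩ := h1 i t ⟨ht.1, h⟩ hB
    exact ⟨r, hr, w, hw, a1, a2.trans hyz, a3⟩
  · obtain ⟨r, hr, w, hw, a1, a2, a3⟩ := h2 i t ⟨h, ht.2⟩ hB
    exact ⟨r, hr, w, hw, hxy.trans a1, a2, a3⟩

theorem crossOn_union (q : ℝ → V) (i : Fin 3) (L : Set ℝ) (P : Set V) {x y z : ℝ} :
    crossOn q i L P x z ⊆ crossOn q i L P x y ∪ crossOn q i L P y z := by
  rintro t ⟨ht, h1⟩
  rcases le_total t y with h | h
  · exact Or.inl ⟨⟨ht.1, h⟩, h1⟩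
  · exact Or.inr ⟨⟨h, ht.2⟩, h1⟩

theorem cnt_union_le (s t : Set ℝ) : cnt (s ∪ t) ≤ cnt s + cnt t := by
  unfold cnt
  exact_mod_cast encard_union_le s t

theorem cnt_mono {s t : Set ℝ} (h : s ⊆ t) : cnt s ≤ cnt t := by
  unfold cnt
  exact_mod_cast encard_le_encard h

theorem CntOn.glue {q : ℝ → V} {B : Set ℝ} {N M : ℕ} {x y z : ℝ} (hxy : x ≤ y) (hyz : y ≤ z)
    (h1 : CntOn q B N x y) (h2 : CntOn q B M y z) : CntOn q B (N + M) x z := by
  intro i P hP δ hδ L hL hLB
  obtain ⟨a1, a2⟩ := h1 i P hP δ hδ L hL hLB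
  obtain ⟨b1, b2⟩ := h2 i P hP δ hδ L hL hLB
  refine ⟨(a1.union b1).subset (crossOn_union q i L P), ?_⟩
  calc ENNReal.ofReal δ * cnt (crossOn q i L P x z)
      ≤ ENNReal.ofReal δ * (cnt (crossOn q i L P x y) + cnt (crossOn q i L P y z)) := by
        gcongr
        exact (cnt_mono (crossOn_union q i L P)).trans (cnt_union_le _ _)
    _ ≤ (varIn q i P x y + N * ENNReal.ofReal δ) + (varIn q i P y z + M * ENNReal.ofReal δ) := by
        rw [mul_add]
        gcongr
    _ = varIn q i P x z + ((N + M : ℕ) : ℝ≥0∞) * ENNReal.ofReal δ := by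
        rw [varIn_add q i P hxy hyz]
        push_cast
        ring

/-- **one curve**: regularity and counting -/
theorem exists_reg_cnt {q : ℝ → V} {a b : ℝ} (hab : a ≤ b) (hq : ConicalOn q (Icc a b)) :
    ∃ (B : Set ℝ) (N : ℕ), B.Finite ∧ RegOn q B a b ∧ CntOn q B N a b := by
  refine icc_chain (P := fun x y => ∃ (B : Set ℝ) (N : ℕ), B.Finite ∧ RegOn q B x y ∧
    CntOn q B N x y) hab ?_ ?_ ?_ ?_
  · have h : ∀ s ∈ Icc a a, q s = q a + (s - a) • (0:V) := by
      intro s hs
      rw [Icc_self, mem_singleton_iff] at hs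
      subst hs; simp
    exact ⟨_, 1, badP_finite q a a, piece_reg h, piece_cnt h⟩
  · rintro x y z - hxy hyz - ⟨B, N, hB, h1, h2⟩ ⟨B', N', hB', h1', h2'⟩
    exact ⟨B ∪ B', N + N', hB.union hB',
      RegOn.glue hxy hyz (h1.mono subset_union_left) (h1'.mono subset_union_right),
      CntOn.glue hxy hyz (h2.mono subset_union_left le_rfl) (h2'.mono subset_union_right le_rfl)⟩
  · intro x hx hxb
    obtain ⟨r, hr, hrb, w, hw⟩ := conical_right' hq hx hxb
    exact ⟨r, hr, hrb, _, 1, badP_finite q _ _, piece_reg hw, piece_cnt hw⟩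
  · intro x hx hax
    obtain ⟨r, hr, hra, w, hw⟩ := conical_left' hq hx hax
    refine ⟨r, hr, hra, fun y hy => ?_⟩
    have hw' : ∀ s ∈ Icc y x, q s = q y + (s - y) • w := by
      intro s hs
      rw [hw s ⟨hy.1.le.trans hs.1, hs.2⟩, hw y ⟨hy.1.le, hy.2.le⟩]
      module
    exact ⟨_, 1, badP_finite q _ _, piece_reg hw', piece_cnt hw'⟩

/-! ### weighted sums -/

/-- **overlap**: the sum of the variations in regions with overlap at most `m` -/
theorem sum_varIn_le {κ : Type*} {q : ℝ → V} {a b : ℝ} (hab : a ≤ b)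
    (hq : ConicalOn q (Icc a b)) (F : Finset κ) (i : κ → Fin 3) (P : κ → Set V)
    (hP : ∀ f ∈ F, Convex ℝ (P f)) (m : ℕ)
    (hm : ∀ y : V, {f | f ∈ F ∧ y ∈ P f}.encard ≤ m) :
    ∑ f ∈ F, varIn q (i f) (P f) a b ≤ m * len q (Icc a b) := by
  have piece : ∀ x y : ℝ, x ≤ y → ∀ w : V, (∀ s ∈ Icc x y, q s = q x + (s - x) • w) →
      ∑ f ∈ F, varIn q (i f) (P f) x y ≤ m * len q (Icc x y) := by
    intro x y hxy w hw
    rw [len_affine hxy hw]
    have h1 : ∀ f ∈ F, varIn q (i f) (P f) x y ≤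
        ENNReal.ofReal (euc w) * volume ((q ⁻¹' (P f)) ∩ Ioc x y) := by
      intro f hf
      rw [piece_varIn hw (hP f hf)]
      gcongr
      rw [Real.enorm_eq_ofReal_abs]
      exact ENNReal.ofReal_le_ofReal ((norm_le_pi_norm w (i f)).trans (norm_le_euc w))
    have h2 : ∑ f ∈ F, volume ((q ⁻¹' (P f)) ∩ Ioc x y) ≤ m * ENNReal.ofReal (y - x) := by
      have e : ∀ f ∈ F, volume ((q ⁻¹' (P f)) ∩ Ioc x y) =
          ∫⁻ t in Ioc x y, ((q ⁻¹' (P f)) ∩ Ioc x y).indicator (fun _ => (1:ℝ≥0∞)) t := by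
        intro f hf
        rw [lintegral_indicator (piece_measurable hw (hP f hf)), lintegral_one,
          Measure.restrict_restrict (piece_measurable hw (hP f hf)), Measure.restrict_apply_univ,
          inter_assoc, inter_self]
      rw [Finset.sum_congr rfl e, ← lintegral_finsetSum]
      · calc ∫⁻ t in Ioc x y, ∑ f ∈ F, ((q ⁻¹' (P f)) ∩ Ioc x y).indicator (fun _ => (1:ℝ≥0∞)) t
            ≤ ∫⁻ _ in Ioc x y, (m : ℝ≥0∞) := by
              apply lintegral_mono
              intro t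
              classical
              have hle : ∑ f ∈ F, ((q ⁻¹' (P f)) ∩ Ioc x y).indicator (fun _ => (1:ℝ≥0∞)) t ≤
                  ∑ f ∈ F, if q t ∈ P f then (1:ℝ≥0∞) else 0 := by
                apply Finset.sum_le_sum
                intro f _
                rw [indicator_apply]
                split_ifs with c1 c2
                · exact le_refl _
                · exact absurd c1.1 c2
                · exact zero_le_one
                · exact le_refl _
              refine hle.trans ?_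
              rw [← Finset.sum_filter, Finset.sum_const, nsmul_eq_mul, mul_one]
              have h3 := hm (q t)
              have e2 : {f | f ∈ F ∧ q t ∈ P f} = ((F.filter fun f => q t ∈ P f : Finset κ) : Set κ) := by
                ext f; simp
              rw [e2, encard_coe_eq_coe_finsetCard] at h3
              have h4 : (F.filter fun f => q t ∈ P f).card ≤ m := by exact_mod_cast h3
              beta_reduce
              exact_mod_cast h4
          _ = m * ENNReal.ofReal (y - x) := by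
              rw [setLIntegral_const, Real.volume_Ioc]
      · intro f hf
        exact (measurable_const.indicator (piece_measurable hw (hP f hf)))
    calc ∑ f ∈ F, varIn q (i f) (P f) x y
        ≤ ∑ f ∈ F, ENNReal.ofReal (euc w) * volume ((q ⁻¹' (P f)) ∩ Ioc x y) :=
          Finset.sum_le_sum h1
      _ = ENNReal.ofReal (euc w) * ∑ f ∈ F, volume ((q ⁻¹' (P f)) ∩ Ioc x y) := by
          rw [Finset.mul_sum]
      _ ≤ ENNReal.ofReal (euc w) * (m * ENNReal.ofReal (y - x)) := by gcongr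
      _ = m * ENNReal.ofReal ((y - x) * euc w) := by
          rw [ENNReal.ofReal_mul (by linarith)]
          ring
  refine icc_chain (P := fun x y =>
    ∑ f ∈ F, varIn q (i f) (P f) x y ≤ m * len q (Icc x y)) hab ?_ ?_ ?_ ?_
  · refine piece a a le_rfl 0 ?_
    intro s hs
    rw [Icc_self, mem_singleton_iff] at hs
    subst hs; simp
  · intro x y z _ hxy hyz _ h1 h2
    calc ∑ f ∈ F, varIn q (i f) (P f) x z
        = ∑ f ∈ F, varIn q (i f) (P f) x y + ∑ f ∈ F, varIn q (i f) (P f) y z := by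
          rw [← Finset.sum_add_distrib]
          exact Finset.sum_congr rfl fun f _ => varIn_add q _ _ hxy hyz
      _ ≤ m * len q (Icc x y) + m * len q (Icc y z) := add_le_add h1 h2
      _ = m * len q (Icc x z) := by
          rw [← mul_add, len_add hxy hyz]
  · intro x hx hxb
    obtain ⟨r, hr, hrb, w, hw⟩ := conical_right' hq hx hxb
    exact ⟨r, hr, hrb, piece _ _ (by linarith) w hw⟩
  · intro x hx hax
    obtain ⟨r, hr, hra, w, hw⟩ := conical_left' hq hx hax
    refine ⟨r, hr, hra, fun y hy => piece y x hy.2.le w ?_⟩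
    intro s hs
    rw [hw s ⟨hy.1.le.trans hs.1, hs.2⟩, hw y ⟨hy.1.le, hy.2.le⟩]
    module

end P073.Croft
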