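import Vale.Agent.P073.H196.Croft2

/-!
# P073, block A06-CROFT (3): final statements (one curve; locally finite families; sign change)
-/

open Set Metric Topology MeasureTheory Filter
open scoped ENNReal NNReal

namespace P073.Croft

open Vale.Agent.P073.St (V euc)
open P073.Net

/-- the parameters in `[0,1]` where the curve `q` crosses the levels `L` of the coordinate `i`,
in the region `P` -/
def cross (q : ℝ → V) (i : Fin 3) (L : Set ℝ) (P : Set V) : Set ℝ :=
  {t | t ∈ Icc (0:ℝ) 1 ∧ q t ∈ P ∧ q t i ∈ L}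

/-- the crossing at the parameter `t` is transversal to the `i`-th coordinate planes -/
def TransAt (q : ℝ → V) (i : Fin 3) (t : ℝ) : Prop :=
  ∃ r > 0, ∃ w : V, w i ≠ 0 ∧ 0 ≤ t - r ∧ t + r ≤ 1 ∧
    ∀ s ∈ Icc (t - r) (t + r), q s = q t + (s - t) • w

/-- **(C1), one curve, bounded overlap.** -/
theorem sum_cross_le {κ : Type*} {q : ℝ → V} {B : Set ℝ} {N : ℕ} (hq : ConicalOn q (Icc 0 1))
    (hC : CntOn q B N 0 1) (F : Finset κ) {i : κ → Fin 3} {P : κ → Set V} {δ : κ → ℝ}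
    {L : κ → Set ℝ} (hP : ∀ f ∈ F, Convex ℝ (P f)) (hδ : ∀ f ∈ F, 0 < δ f)
    (hL : ∀ f ∈ F, SepL (δ f) (L f)) (hLB : ∀ f ∈ F, Disjoint (L f) B) (m : ℕ)
    (hm : ∀ y : V, {f | f ∈ F ∧ y ∈ P f}.encard ≤ m) :
    ∑ f ∈ F, ENNReal.ofReal (δ f) * cnt (cross q (i f) (L f) (P f)) ≤
      m * len q (Icc 0 1) + N * ∑ f ∈ F, ENNReal.ofReal (δ f) := by
  calc ∑ f ∈ F, ENNReal.ofReal (δ f) * cnt (cross q (i f) (L f) (P f))
      ≤ ∑ f ∈ F, (varIn q (i f) (P f) 0 1 + N * ENNReal.ofReal (δ f)) :=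
        Finset.sum_le_sum fun f hf =>
          (hC (i f) (P f) (hP f hf) (δ f) (hδ f hf) (L f) (hL f hf) (hLB f hf)).2
    _ = ∑ f ∈ F, varIn q (i f) (P f) 0 1 + N * ∑ f ∈ F, ENNReal.ofReal (δ f) := by
        rw [Finset.sum_add_distrib, Finset.mul_sum]
    _ ≤ _ := by
        gcongr
        exact sum_varIn_le zero_le_one hq F i P hP m hm

/-- **(C2), locally finite families.** -/
theorem exists_spacing {ι κ : Type*} {q : ι → ℝ → V} (hq : ∀ e, ConicalOn (q e) (Icc 0 1))
    {P : κ → Set V} (hP : ∀ f, Convex ℝ (P f))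
    (hfin : ∀ e, {f | ∃ t ∈ Icc (0:ℝ) 1, q e t ∈ P f}.Finite)
    (hfin' : ∀ f, {e | ∃ t ∈ Icc (0:ℝ) 1, q e t ∈ P f}.Finite)
    {m : ℕ} (hm : ∀ y : V, {f | y ∈ P f}.encard ≤ m) {ε : ι → ℝ} (hε : ∀ e, 0 < ε e) :
    ∃ (B : κ → Set ℝ) (δ₀ : κ → ℝ), (∀ f, (B f).Finite) ∧ (∀ f, 0 < δ₀ f) ∧
      ∀ (i : κ → Fin 3) (δ : κ → ℝ) (L : κ → Set ℝ), (∀ f, 0 < δ f) → (∀ f, δ f ≤ δ₀ f) →
        (∀ f, SepL (δ f) (L f)) → (∀ f, Disjoint (L f) (B f)) →
        ∀ e, (∀ f, (cross (q e) (i f) (L f) (P f)).Finite) ∧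
          (∀ f, ∀ t ∈ cross (q e) (i f) (L f) (P f), TransAt (q e) (i f) t) ∧
          ∑' f, ENNReal.ofReal (δ f) * cnt (cross (q e) (i f) (L f) (P f)) ≤
            m * len (q e) (Icc 0 1) + ENNReal.ofReal (ε e) := by
  choose B0 N hB hR hC using fun e => exists_reg_cnt zero_le_one (hq e)
  set Fe : ι → Finset κ := fun e => (hfin e).toFinset with hFe
  set Ef : κ → Finset ι := fun f => (hfin' f).toFinset with hEf
  have hc : ∀ e, 0 < ε e / ((N e + 1) * ((Fe e).card + 1)) := fun e =>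
    div_pos (hε e) (by positivity)
  have hd : ∀ f, ∃ d : ℝ, 0 < d ∧ ∀ e ∈ Ef f, d ≤ ε e / ((N e + 1) * ((Fe e).card + 1)) := by
    intro f
    rcases (Ef f).eq_empty_or_nonempty with h | h
    · exact ⟨1, one_pos, by simp [h]⟩
    · obtain ⟨e0, -, he0'⟩ := (Ef f).exists_min_image
        (fun e => ε e / ((N e + 1) * ((Fe e).card + 1))) h
      exact ⟨_, hc e0, he0'⟩
  choose δ₀ hδ₀ hδ₀' using hd
  have hmem : ∀ e f, f ∈ Fe e ↔ e ∈ Ef f := by
    intro e f
    simp [hFe, hEf]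
  refine ⟨fun f => ⋃ e ∈ Ef f, B0 e, δ₀, fun f => (Ef f).finite_toSet.biUnion fun e _ => hB e,
    hδ₀, ?_⟩
  intro i δ L hδ hδ0 hL hLB e
  have hdis : ∀ f ∈ Fe e, Disjoint (L f) (B0 e) := by
    intro f hf
    refine (hLB f).mono_right ?_
    intro b hb
    exact mem_biUnion (show e ∈ (Ef f : Set ι) from (hmem e f).1 hf) hb
  have hempty : ∀ f, f ∉ Fe e → cross (q e) (i f) (L f) (P f) = ∅ := by
    intro f hf
    rw [eq_empty_iff_forall_notMem]
    rintro t ⟨ht, htP, -⟩
    apply hf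
    simp only [hFe, Finite.mem_toFinset]
    exact ⟨t, ht, htP⟩
  refine ⟨?_, ?_, ?_⟩
  · intro f
    by_cases hf : f ∈ Fe e
    · exact (hC e (i f) (P f) (hP f) (δ f) (hδ f) (L f) (hL f) (hdis f hf)).1
    · rw [hempty f hf]; exact finite_empty
  · intro f t ht
    by_cases hf : f ∈ Fe e
    · exact hR e (i f) t ht.1 fun h => Set.disjoint_left.1 (hdis f hf) ht.2.2 h
    · rw [hempty f hf] at ht; exact absurd ht (notMem_empty _)
  · rw [tsum_eq_sum (s := Fe e)]
    · refine (sum_cross_le (hq e) (hC e) (Fe e) (fun f _ => hP f) (fun f _ => hδ f)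
        (fun f _ => hL f) hdis m ?_).trans ?_
      · intro y
        exact (encard_le_encard fun f hf => hf.2).trans (hm y)
      · gcongr
        have h1 : ∑ f ∈ Fe e, ENNReal.ofReal (δ f) ≤
            (Fe e).card * ENNReal.ofReal (ε e / ((N e + 1) * ((Fe e).card + 1))) := by
          rw [← nsmul_eq_mul]
          apply Finset.sum_le_card_nsmul
          intro f hf
          exact ENNReal.ofReal_le_ofReal ((hδ0 f).trans (hδ₀' f e ((hmem e f).1 hf)))
        calc (N e : ℝ≥0∞) * ∑ f ∈ Fe e, ENNReal.ofReal (δ f)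
            ≤ N e * ((Fe e).card * ENNReal.ofReal (ε e / ((N e + 1) * ((Fe e).card + 1)))) := by
              gcongr
          _ = ENNReal.ofReal (N e * ((Fe e).card * (ε e / ((N e + 1) * ((Fe e).card + 1))))) := by
              rw [ENNReal.ofReal_mul (by positivity), ENNReal.ofReal_mul (by positivity),
                ENNReal.ofReal_natCast, ENNReal.ofReal_natCast]
          _ ≤ ENNReal.ofReal (ε e) := by
              apply ENNReal.ofReal_le_ofReal
              have hpos : (0:ℝ) < (N e + 1) * ((Fe e).card + 1) := by positivity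
              have e1 : (N e : ℝ) * ((Fe e).card * (ε e / ((N e + 1) * ((Fe e).card + 1)))) =
                  ε e * ((N e * (Fe e).card) / ((N e + 1) * ((Fe e).card + 1))) := by ring
              rw [e1]
              have h2 : ((N e : ℝ) * (Fe e).card) / ((N e + 1) * ((Fe e).card + 1)) ≤ 1 := by
                rw [div_le_one hpos]
                nlinarith [(Nat.cast_nonneg (N e) : (0:ℝ) ≤ N e),
                  (Nat.cast_nonneg (Fe e).card : (0:ℝ) ≤ (Fe e).card)]
              nlinarith [(hε e).le]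
    · intro f hf
      rw [hempty f hf]
      simp [cnt]

/-! ### sign change -/

theorem TransAt.mem_closure_aux {q : ℝ → V} {i : Fin 3} {t : ℝ} (h : TransAt q i t) :
    (t ∈ closure {s | s ∈ Ioo (0:ℝ) 1 ∧ q t i < q s i}) ∧
      t ∈ closure {s | s ∈ Ioo (0:ℝ) 1 ∧ q s i < q t i} := by
  obtain ⟨r, hr, w, hw, h0, h1, hq⟩ := h
  have hval : ∀ s ∈ Icc (t - r) (t + r), q s i = q t i + (s - t) * w i := by
    intro s hs
    rw [hq s hs]; simp
  have hright : t ∈ closure (Ioo t (t + r)) := by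
    rw [closure_Ioo (by linarith)]; exact ⟨le_refl _, by linarith⟩
  have hleft : t ∈ closure (Ioo (t - r) t) := by
    rw [closure_Ioo (by linarith)]; exact ⟨by linarith, le_refl _⟩
  have hs1 : ∀ s ∈ Ioo t (t + r), s ∈ Ioo (0:ℝ) 1 := fun s hs =>
    ⟨by linarith [hs.1], by linarith [hs.2]⟩
  have hs2 : ∀ s ∈ Ioo (t - r) t, s ∈ Ioo (0:ℝ) 1 := fun s hs =>
    ⟨by linarith [hs.1], by linarith [hs.2]⟩
  rcases lt_or_gt_of_ne hw with hn | hp
  · constructor
    · refine closure_mono ?_ hleft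
      intro s hs
      refine ⟨hs2 s hs, ?_⟩
      rw [hval s ⟨hs.1.le, by linarith [hs.2]⟩]
      nlinarith [mul_pos_of_neg_of_neg (show s - t < 0 by linarith [hs.2]) hn]
    · refine closure_mono ?_ hright
      intro s hs
      refine ⟨hs1 s hs, ?_⟩
      rw [hval s ⟨by linarith [hs.1], hs.2.le⟩]
      nlinarith [mul_neg_of_pos_of_neg (show 0 < s - t by linarith [hs.1]) hn]
  · constructor
    · refine closure_mono ?_ hright
      intro s hs
      refine ⟨hs1 s hs, ?_⟩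
      rw [hval s ⟨by linarith [hs.1], hs.2.le⟩]
      nlinarith [mul_pos (show 0 < s - t by linarith [hs.1]) hp]
    · refine closure_mono ?_ hleft
      intro s hs
      refine ⟨hs2 s hs, ?_⟩
      rw [hval s ⟨hs.1.le, by linarith [hs.2]⟩]
      nlinarith [mul_neg_of_neg_of_pos (show s - t < 0 by linarith [hs.2]) hp]

theorem TransAt.mem_Ioo {q : ℝ → V} {i : Fin 3} {t : ℝ} (h : TransAt q i t) :
    t ∈ Ioo (0:ℝ) 1 := by
  obtain ⟨r, hr, w, hw, h0, h1, hq⟩ := h
  exact ⟨by linarith, by linarith⟩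

/-- **sign change, point form**: on the open edge `(a,b)` the point `x` with a transversal
crossing is in the closure of the two sides -/
theorem TransAt.sign {h : V → V} {a b : V} {i : Fin 3} {t : ℝ}
    (H : TransAt (fun t => h (a + t • (b - a))) i t) :
    a + t • (b - a) ∈ closure {z | z ∈ openSegment ℝ a b ∧ h (a + t • (b - a)) i < h z i} ∧
    a + t • (b - a) ∈ closure {z | z ∈ openSegment ℝ a b ∧ h z i < h (a + t • (b - a)) i} := by
  obtain ⟨h1, h2⟩ := H.mem_closure_aux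
  set γ : ℝ → V := fun t => a + t • (b - a) with hγ
  have hγc : Continuous γ := by fun_prop
  have hseg : ∀ s ∈ Ioo (0:ℝ) 1, γ s ∈ openSegment ℝ a b := by
    intro s hs
    rw [openSegment_eq_image']
    exact ⟨s, hs, rfl⟩
  constructor
  · refine closure_mono ?_ (image_closure_subset_closure_image hγc (mem_image_of_mem γ h1))
    rintro _ ⟨s, hs, rfl⟩
    exact ⟨hseg s hs.1, hs.2⟩
  · refine closure_mono ?_ (image_closure_subset_closure_image hγc (mem_image_of_mem γ h2))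
    rintro _ ⟨s, hs, rfl⟩
    exact ⟨hseg s hs.1, hs.2⟩

end P073.Croft
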