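import Vale.Agent.P073.H196.Croft4
import Vale.Agent.P073.H196.Cells

/-!
# P073, block A14.6 [CROFT-T], [CROFT-P]: the final statements

See `exists_croft` and `exists_croft_cells`.
-/

open Set Metric Topology MeasureTheory Filter
open scoped ENNReal NNReal

namespace P073.Croft

open Vale.Agent.P073.St (V euc)
open P073.Net P073.TR P073.H805

/-! ### flow boxes -/

section Reg

variable {E F : Type*} [NormedAddCommGroup E] [NormedSpace ℝ E]
  [NormedAddCommGroup F] [NormedSpace ℝ F]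

/-- a flow box for a family is a flow box for every subfamily -/
theorem Reg.sub {ι κ : Type*} {u : E → F} {M : ι → Set E} {M' : κ → Set E} {x : E}
    (h : Reg u M x) (hM : ∀ k, ∃ i, M' k = M i) : Reg u M' x := by
  obtain ⟨σ, r, h⟩ := h
  refine ⟨σ, r, h.pos, h.add, fun k w s hw hs => ?_⟩
  obtain ⟨i, hi⟩ := hM k
  rw [hi]
  exact h.iff i w s hw hs

/-- flow box for a pair of coordinates -/
theorem reg_pair {ι : Type*} {h : E → Fin 3 → ℝ} {M : ι → Set E} {x : E} {i j : Fin 3}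
    (hij : i ≠ j) {J : Finset (Fin 3)} (hi : i ∈ J) (hj : j ∈ J)
    (hf : Reg (fun y (k : J) => h y k) M x) : Reg (fun y => (h y i, h y j)) M x := by
  classical
  obtain ⟨σ, r, hf⟩ := hf
  let L : (J → ℝ) →ₗ[ℝ] (ℝ × ℝ) :=
    (LinearMap.proj (⟨i, hi⟩ : J)).prod (LinearMap.proj (⟨j, hj⟩ : J))
  let τ : (ℝ × ℝ) →ₗ[ℝ] (J → ℝ) :=
    LinearMap.coprod (LinearMap.single ℝ (fun _ : J => ℝ) ⟨i, hi⟩)
      (LinearMap.single ℝ (fun _ : J => ℝ) ⟨j, hj⟩)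
  obtain ⟨r', hr'⟩ := P073.H84.FlowBox.comp hf L τ (by
    rintro ⟨s, t⟩
    have hne : (⟨j, hj⟩ : J) ≠ ⟨i, hi⟩ := fun h => hij (congrArg Subtype.val h).symm
    simp [L, τ, hne, hne.symm])
  exact ⟨_, r', hr'⟩

/-- the preimage of a locally conical set under a conical homeomorphism -/
theorem locConeAt_invFun_image {Ω : Set E} {Λ : Set F} (h : P073.ConHomeo Ω Λ) (hΩ : IsOpen Ω)
    {P : Set F} (hP : ∀ y ∈ Λ, LocConeAt P y) (hPΛ : P ⊆ Λ) {x : E} (hx : x ∈ Ω) :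
    LocConeAt (h.invFun '' P) x := by
  have h1 : LocConeAt (h.toFun ⁻¹' P) x :=
    locConeAt_preimage (h.conical.conicalAt hΩ hx) (h.cont.continuousAt (hΩ.mem_nhds hx))
      (hP _ (h.mapsTo hx))
  refine (locConeAt_congr ?_).1 h1
  filter_upwards [hΩ.mem_nhds hx] with y hy
  constructor
  · intro hy'
    exact ⟨h.toFun y, hy', h.left_inv hy⟩
  · rintro ⟨z, hz, rfl⟩
    rw [mem_preimage, h.right_inv (hPΛ hz)]
    exact hz

end Reg

/-! ### generic offsets -/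

/-- The offset `θ` is generic: all levels `θ j + ℚ` avoid `C` and are jointly regular for the
family `M`. -/
structure Generic {τ : Type*} (h : V → V) (M : τ → Set V) (Ω : Set V) (C : Set ℝ)
    (θ : Fin 3 → ℝ) : Prop where
  notMem : ∀ j (r : ℚ), θ j + r ∉ C
  reg : ∀ (J : Finset (Fin 3)), ∀ x ∈ Ω, (∀ j ∈ J, ∃ r : ℚ, h x j = θ j + r) →
    Reg (fun y (j : J) => h y j) M x

theorem Generic.reg1 {τ : Type*} {h : V → V} {M : τ → Set V} {Ω : Set V} {C : Set ℝ}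
    {θ : Fin 3 → ℝ} (H : Generic h M Ω C θ) {x : V} (hx : x ∈ Ω) {j : Fin 3} {r : ℚ}
    (hj : h x j = θ j + r) : Reg (fun y => h y j) M x := by
  obtain ⟨σ, r', hf⟩ := H.reg {j} x hx (by
    intro k hk
    rw [Finset.mem_singleton] at hk
    subst hk
    exact ⟨r, hj⟩)
  exact P073.H84.FlowBox.single hf (Finset.mem_singleton_self j)

theorem Generic.reg2 {τ : Type*} {h : V → V} {M : τ → Set V} {Ω : Set V} {C : Set ℝ}
    {θ : Fin 3 → ℝ} (H : Generic h M Ω C θ) {x : V} (hx : x ∈ Ω) {i j : Fin 3} (hij : i ≠ j)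
    {r s : ℚ} (hi : h x i = θ i + r) (hj : h x j = θ j + s) :
    Reg (fun y => (h y i, h y j)) M x := by
  refine reg_pair (J := {i, j}) hij (by simp) (by simp) (H.reg {i, j} x hx ?_)
  intro k hk
  rw [Finset.mem_insert, Finset.mem_singleton] at hk
  rcases hk with rfl | rfl
  · exact ⟨r, hi⟩
  · exact ⟨s, hj⟩

/-! ### crossings -/

/-- the number of crossings of the segment `[a, b]` against the variation -/
structure Crs {κ : Type*} (h : V → V) (a b : V) (i : κ → Fin 3) (P : κ → Set V) (δ : κ → ℝ)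
    (L : κ → Set ℝ) (K ε : ℝ) : Prop where
  fin : ∀ f, (cross (onS h a b) (i f) (L f) (P f)).Finite
  trans : ∀ f, ∀ t ∈ cross (onS h a b) (i f) (L f) (P f), TransAt (onS h a b) (i f) t
  one : ∀ f, ENNReal.ofReal (δ f) * cnt (cross (onS h a b) (i f) (L f) (P f)) ≤
    ENNReal.ofReal K * varIn (onS h a b) (i f) (P f) 0 1 + ENNReal.ofReal ε
  sum : ∑' f, ENNReal.ofReal (δ f) * cnt (cross (onS h a b) (i f) (L f) (P f)) ≤
    ENNReal.ofReal K * ∑' f, varIn (onS h a b) (i f) (P f) 0 1 + ENNReal.ofReal ε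

/-- **[CROFT]**: one generic offset for all boxes, and bounds for the spacings. -/
theorem exists_croft {ι κ τ : Type*} [Countable κ] {Ω Λ : Set V} (h : P073.ConHomeo Ω Λ)
    (hΩ : IsOpen Ω) {M : τ → Set V} (hM : ∀ m, ∀ x ∈ Ω, LocConeAt (M m) x)
    (hlf : ∀ x ∈ Ω, ∃ U ∈ 𝓝 x, {m | (M m ∩ U).Nonempty}.Finite)
    {a b : ι → V} (hseg : ∀ e, segment ℝ (a e) (b e) ⊆ Ω)
    {P : κ → Set V} (hP : ∀ f, Convex ℝ (P f))
    (hfin : ∀ e, {f | (h.toFun '' segment ℝ (a e) (b e) ∩ P f).Nonempty}.Finite)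
    (hfin' : ∀ f, {e | (h.toFun '' segment ℝ (a e) (b e) ∩ P f).Nonempty}.Finite)
    (i : κ → Fin 3) {ε : ι → ℝ} (hε : ∀ e, 0 < ε e) {C : Set ℝ} (hC : C.Countable)
    {O : Set (Fin 3 → ℝ)} (hO : IsOpen O) (hne : O.Nonempty) {K : ℝ} (hK : 1 ≤ K) :
    ∃ θ ∈ O, Generic h.toFun M Ω C θ ∧ ∃ δ₀ : κ → ℝ, (∀ f, 0 < δ₀ f) ∧
      ∀ (δ : κ → ℝ) (L : κ → Set ℝ), (∀ f, 0 < δ f) → (∀ f, δ f ≤ δ₀ f) →
        (∀ f, SepL (δ f / K) (L f)) → (∀ f, ∀ t ∈ L f, ∃ r : ℚ, t = θ (i f) + r) →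
        ∀ e, Crs h.toFun (a e) (b e) i P δ L K (ε e) := by
  have hK0 : 0 < K := by linarith
  have hq : ∀ e, ConicalOn (onS h.toFun (a e) (b e)) (Icc 0 1) := fun e =>
    conicalOn_onS h.conical (hseg e)
  have hmem : ∀ e f, (∃ t ∈ Icc (0:ℝ) 1, onS h.toFun (a e) (b e) t ∈ P f) →
      (h.toFun '' segment ℝ (a e) (b e) ∩ P f).Nonempty := by
    rintro e f ⟨t, ht, htP⟩
    exact ⟨_, ⟨_, onS_mem ht, rfl⟩, htP⟩
  obtain ⟨B, δ₀, hB, hδ₀, H⟩ := exists_spacing_var hq hP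
    (fun e => (hfin e).subset fun f hf => hmem e f hf)
    (fun f => (hfin' f).subset fun e he => hmem e f he)
    (ε := fun e => ε e / K) (fun e => div_pos (hε e) hK0)
  have hCB : (C ∪ ⋃ f, B f).Countable :=
    hC.union (countable_iUnion fun f => (hB f).countable)
  obtain ⟨θ, hθO, -, hθ2, hθ3⟩ := P073.H84.exists_offset hΩ h.conical h.cont hM hlf
    (Q := range ((↑) : ℚ → ℝ)) (countable_range _) hCB
    (p := fun _ => True) (Filter.Eventually.of_forall fun _ => trivial) hO hne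
  have hrat : ∀ j (r : ℚ), θ j + r ∉ C ∪ ⋃ f, B f := fun j r => hθ2 j r ⟨r, rfl⟩
  refine ⟨θ, hθO, ⟨fun j r hr => hrat j r (Or.inl hr), fun J x hx hJ => ?_⟩, δ₀, hδ₀, ?_⟩
  · obtain ⟨σ, r, hf⟩ := hθ3 J x hx (fun j hj => by
      obtain ⟨r, hr⟩ := hJ j hj
      exact ⟨r, ⟨r, rfl⟩, hr⟩)
    exact ⟨σ, r, hf⟩
  intro δ L hδ hδ0 hL hLr e
  obtain ⟨h1, h2, h3, h4⟩ := H i (fun f => δ f / K) L (fun f => div_pos (hδ f) hK0)
    (fun f => (div_le_self (hδ f).le hK).trans (hδ0 f)) hL (fun f => by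
      rw [Set.disjoint_left]
      intro t ht htB
      obtain ⟨r, rfl⟩ := hLr f t ht
      exact hrat (i f) r (Or.inr (mem_iUnion.2 ⟨f, htB⟩))) e
  have hKe : ∀ f, ENNReal.ofReal (δ f) = ENNReal.ofReal K * ENNReal.ofReal (δ f / K) := by
    intro f
    rw [← ENNReal.ofReal_mul hK0.le]
    congr 1
    field_simp
  have hεe : ENNReal.ofReal K * ENNReal.ofReal (ε e / K) = ENNReal.ofReal (ε e) := by
    rw [← ENNReal.ofReal_mul hK0.le]
    congr 1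
    field_simp
  refine ⟨h1, h2, fun f => ?_, ?_⟩
  · rw [hKe f, mul_assoc, ← hεe, ← mul_add]
    gcongr
    exact h3 f
  · calc ∑' f, ENNReal.ofReal (δ f) * cnt (cross (onS h.toFun (a e) (b e)) (i f) (L f) (P f))
        = ENNReal.ofReal K * ∑' f, ENNReal.ofReal (δ f / K) *
            cnt (cross (onS h.toFun (a e) (b e)) (i f) (L f) (P f)) := by
          rw [← ENNReal.tsum_mul_left]
          congr 1
          funext f
          rw [hKe f, mul_assoc]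
      _ ≤ ENNReal.ofReal K * (∑' f, varIn (onS h.toFun (a e) (b e)) (i f) (P f) 0 1 +
            ENNReal.ofReal (ε e / K)) := by gcongr
      _ = _ := by rw [mul_add, hεe]

/-- the bound by the length, for regions of bounded overlap -/
theorem Crs.sum_le_len {κ : Type*} {h : V → V} {a b : V} {i : κ → Fin 3} {P : κ → Set V}
    {δ : κ → ℝ} {L : κ → Set ℝ} {K ε : ℝ} (H : Crs h a b i P δ L K ε)
    (hq : ConicalOn (onS h a b) (Icc 0 1)) (hP : ∀ f, Convex ℝ (P f)) {m : ℕ}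
    (hm : ∀ y : V, {f | y ∈ P f}.encard ≤ m) :
    ∑' f, ENNReal.ofReal (δ f) * cnt (cross (onS h a b) (i f) (L f) (P f)) ≤
      ENNReal.ofReal K * (m * len (onS h a b) (Icc 0 1)) + ENNReal.ofReal ε := by
  refine H.sum.trans ?_
  gcongr
  exact tsum_varIn_le hq hP i hm

/-- **[CROFT-T], [CROFT-P]**: in each box `f` uniform cells of length `δ f` in `[lo f, hi f]`, away
from the slivers `T f`, and levels `a f k` close to their midpoints. -/
theorem exists_croft_cells {ι κ τ : Type*} [Countable κ] {Ω Λ : Set V} (h : P073.ConHomeo Ω Λ)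
    (hΩ : IsOpen Ω) {M : τ → Set V} (hM : ∀ m, ∀ x ∈ Ω, LocConeAt (M m) x)
    (hlf : ∀ x ∈ Ω, ∃ U ∈ 𝓝 x, {m | (M m ∩ U).Nonempty}.Finite)
    {a b : ι → V} (hseg : ∀ e, segment ℝ (a e) (b e) ⊆ Ω)
    {P : κ → Set V} (hP : ∀ f, Convex ℝ (P f))
    (hfin : ∀ e, {f | (h.toFun '' segment ℝ (a e) (b e) ∩ P f).Nonempty}.Finite)
    (hfin' : ∀ f, {e | (h.toFun '' segment ℝ (a e) (b e) ∩ P f).Nonempty}.Finite)
    (i : κ → Fin 3) {ε : ι → ℝ} (hε : ∀ e, 0 < ε e) {C : Set ℝ} (hC : C.Countable)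
    {O : Set (Fin 3 → ℝ)} (hO : IsOpen O) (hne : O.Nonempty) {η : ℝ} (hη : 0 < η)
    (hη' : η ≤ 1 / 4) :
    ∃ θ ∈ O, Generic h.toFun M Ω C θ ∧ ∃ δ₀ : κ → ℝ, (∀ f, 0 < δ₀ f) ∧
      ∀ δ : κ → ℝ, (∀ f, 0 < δ f) → (∀ f, δ f ≤ δ₀ f) →
      ∀ (lo hi : κ → ℝ) (T : κ → Finset (ℝ × ℝ)), (∀ f, lo f ≤ hi f) →
        (∀ f, ∀ p ∈ T f, p.1 ≤ p.2) → ∃ (n : κ → ℕ) (x l : κ → ℕ → ℝ),
          (∀ f, Cells (lo f) (hi f) (θ (i f)) (δ f) η (T f) (n f) (x f) (l f)) ∧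
          ∀ e, Crs h.toFun (a e) (b e) i P δ (fun f => levs (n f) (l f))
            (1 - 2 * η)⁻¹ (ε e) := by
  have hK0 : 0 < 1 - 2 * η := by linarith
  have hK : 1 ≤ (1 - 2 * η)⁻¹ := (one_le_inv₀ hK0).2 (by linarith)
  obtain ⟨θ, hθ, hgen, δ₀, hδ₀, H⟩ := exists_croft h hΩ hM hlf hseg hP hfin hfin' i hε hC hO hne hK
  refine ⟨θ, hθ, hgen, δ₀, hδ₀, fun δ hδ hδ0 lo hi T hlh hT => ?_⟩
  choose n x l hc using fun f => exists_cells (θ (i f)) (hlh f) (hδ f) hη (T f) (hT f)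
  refine ⟨n, x, l, hc, H δ _ hδ hδ0 (fun f => ?_) (fun f t ht => ?_)⟩
  · have := (hc f).sepL (hδ f) hη'
    have e : δ f / (1 - 2 * η)⁻¹ = (1 - 2 * η) * δ f := by
      rw [div_inv_eq_mul]; ring
    rwa [e]
  · obtain ⟨k, -, rfl⟩ := ht
    exact (hc f).rat k

end P073.Croft
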