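import Vale.Agent.P073.H579.HFaceA

/-!
# P073, H196, [GE-G]: the numbers of the edges of given cells

The edge is respected by the chart `Γ` of the band of a level; `ρ x`: parameter of `s ↦ Γ (x, s)` on
the edge; the inserted map is `b + s / r` on `|s| ≤ m`. Then the edge has numbers (`EdgeNum`).
-/

open Set Metric Topology Filter

namespace P073.H196

open P073 P073.H579

variable {E : Type*} [NormedAddCommGroup E] [NormedSpace ℝ E] {n : ℕ}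

/-- the four parameters of one crossing -/
theorem exists_four {ρ : ℝ → ℝ} {m Λ : ℝ} (hm0 : 0 < m) (hm1 : m ≤ 1 / 2)
    (hc : ContinuousOn ρ (Icc (-1:ℝ) 1)) (hi : InjOn ρ (Icc (-1:ℝ) 1))
    (hr : ∀ s ∈ Icc (-1:ℝ) 1, ρ s ∈ Ioo (0:ℝ) 1)
    (hL : ∀ s ∈ Icc (-1:ℝ) 1, ∀ s' ∈ Icc (-1:ℝ) 1, |s - s'| ≤ Λ * |ρ s - ρ s'|) :
    ∃ s1 s2 s3 s4 : ℝ, 0 < s1 ∧ s1 < s2 ∧ s2 < s3 ∧ s3 < s4 ∧ s4 < 1 ∧
      Icc s1 s4 = ρ '' Icc (-1) 1 ∧ Icc s2 s3 = ρ '' Icc (-m) m ∧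
      1 / 2 ≤ Λ * (s2 - s1) ∧ 1 / 2 ≤ Λ * (s4 - s3) := by
  have e1 : (-1:ℝ) ∈ Icc (-1:ℝ) 1 := ⟨le_rfl, by norm_num⟩
  have e2 : -m ∈ Icc (-1:ℝ) 1 := ⟨by linarith, by linarith⟩
  have e3 : m ∈ Icc (-1:ℝ) 1 := ⟨by linarith, by linarith⟩
  have e4 : (1:ℝ) ∈ Icc (-1:ℝ) 1 := ⟨by norm_num, le_rfl⟩
  have hsub : Icc (-m) m ⊆ Icc (-1:ℝ) 1 := Icc_subset_Icc e2.1 e3.2
  rcases hc.strictMonoOn_of_injOn_Icc' (by norm_num) hi with hmo | hmo
  · have a1 : ρ (-1) < ρ (-m) := hmo e1 e2 (by linarith)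
    have a2 : ρ (-m) < ρ m := hmo e2 e3 (by linarith)
    have a3 : ρ m < ρ 1 := hmo e3 e4 (by linarith)
    have L1 := hL (-m) e2 (-1) e1
    have L2 := hL 1 e4 m e3
    rw [abs_of_nonneg (by linarith : 0 ≤ ρ (-m) - ρ (-1)), abs_of_nonneg (by linarith)] at L1
    rw [abs_of_nonneg (by linarith : 0 ≤ ρ 1 - ρ m), abs_of_nonneg (by linarith)] at L2
    refine ⟨ρ (-1), ρ (-m), ρ m, ρ 1, (hr _ e1).1, a1, a2, a3, (hr _ e4).2, ?_, ?_, by linarith,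
      by linarith⟩
    · refine Subset.antisymm (intermediate_value_Icc (by norm_num) hc) ?_
      rintro _ ⟨s, hs, rfl⟩
      exact ⟨hmo.monotoneOn e1 hs hs.1, hmo.monotoneOn hs e4 hs.2⟩
    · refine Subset.antisymm (intermediate_value_Icc (by linarith) (hc.mono hsub)) ?_
      rintro _ ⟨s, hs, rfl⟩
      exact ⟨hmo.monotoneOn e2 (hsub hs) hs.1, hmo.monotoneOn (hsub hs) e3 hs.2⟩
  · have a1 : ρ 1 < ρ m := hmo e3 e4 (by linarith)
    have a2 : ρ m < ρ (-m) := hmo e2 e3 (by linarith)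
    have a3 : ρ (-m) < ρ (-1) := hmo e1 e2 (by linarith)
    have L1 := hL 1 e4 m e3
    have L2 := hL (-m) e2 (-1) e1
    rw [abs_of_nonpos (by linarith : ρ 1 - ρ m ≤ 0), abs_of_nonneg (by linarith)] at L1
    rw [abs_of_nonpos (by linarith : ρ (-m) - ρ (-1) ≤ 0), abs_of_nonneg (by linarith)] at L2
    refine ⟨ρ 1, ρ m, ρ (-m), ρ (-1), (hr _ e4).1, a1, a2, a3, (hr _ e1).2, ?_, ?_, by linarith,
      by linarith⟩
    · refine Subset.antisymm (intermediate_value_Icc' (by norm_num) hc) ?_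
      rintro _ ⟨s, hs, rfl⟩
      exact ⟨hmo.antitoneOn hs e4 hs.2, hmo.antitoneOn e1 hs hs.1⟩
    · refine Subset.antisymm (intermediate_value_Icc' (by linarith) (hc.mono hsub)) ?_
      rintro _ ⟨s, hs, rfl⟩
      exact ⟨hmo.antitoneOn (hsub hs) e3 hs.2, hmo.antitoneOn e2 (hsub hs) hs.1⟩

/-- the crossings of an edge with the levels of the coordinate `i`; `f` the inserted map -/
structure EPass (a b : E) (h f : E → Fin n → ℝ) (k : Fin n → ℝ → ℝ) (L : Fin n → Finset ℝ)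
    (i : Fin n) (ρ : E → ℝ → ℝ) (m r Λ : E → ℝ) : Prop where
  lev : ∀ j, j ≠ i → L j = ∅
  m0 : ∀ x, CrsPt a b h L x → 0 < m x
  m1 : ∀ x, CrsPt a b h L x → m x ≤ 1 / 2
  cont : ∀ x, CrsPt a b h L x → ContinuousOn (ρ x) (Icc (-1:ℝ) 1)
  inj : ∀ x, CrsPt a b h L x → InjOn (ρ x) (Icc (-1:ℝ) 1)
  rng : ∀ x, CrsPt a b h L x → ∀ s ∈ Icc (-1:ℝ) 1, ρ x s ∈ Ioo (0:ℝ) 1
  lip : ∀ x, CrsPt a b h L x → ∀ s ∈ Icc (-1:ℝ) 1, ∀ s' ∈ Icc (-1:ℝ) 1,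
    |s - s'| ≤ Λ x * |ρ x s - ρ x s'|
  /-- the fibre over the crossing point is `|s| ≤ m` -/
  fib : ∀ x, CrsPt a b h L x → ∀ t ∈ Icc (0:ℝ) 1,
    (prodK k (f (AffineMap.lineMap a b t)) = h x ↔ ∃ s ∈ Icc (-m x) (m x), ρ x s = t)
  val : ∀ x, CrsPt a b h L x → ∀ s ∈ Icc (-m x) (m x),
    f (AffineMap.lineMap a b (ρ x s)) i = h x i + s / r x
  dis : ∀ x y, CrsPt a b h L x → CrsPt a b h L y → x ≠ y → ∀ s ∈ Icc (-1:ℝ) 1,
    ∀ s' ∈ Icc (-1:ℝ) 1, ρ x s ≠ ρ y s'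

/-- **[GE-G]** -/
theorem EPass.exists_edgeNum {a b : E} {h f : E → Fin n → ℝ} {k : Fin n → ℝ → ℝ}
    {L : Fin n → Finset ℝ} {i : Fin n} {ρ : E → ℝ → ℝ} {m r Λ : E → ℝ}
    (H : EPass a b h f k L i ρ m r Λ) {lo hi om : Fin n → ℝ → ℝ} {La : ℝ}
    (hr : ∀ x, CrsPt a b h L x → 0 < r x)
    (hom : ∀ x, CrsPt a b h L x → 0 ≤ om i (h x i))
    (hLa : ∀ x, CrsPt a b h L x → 2 * Λ x * om i (h x i) ≤ La * ‖b - a‖)
    (hw : ∀ x, CrsPt a b h L x → om i (h x i) * (Λ x / r x) ≤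
      (hi i (h x i) - lo i (h x i)) * (La * ‖b - a‖)) :
    ∃ s1 s2 s3 s4 : E → ℝ, EdgeNum a b h k L lo hi om La f s1 s2 s3 s4 := by
  classical
  have hex : ∀ x, ∃ s1 s2 s3 s4 : ℝ, CrsPt a b h L x → (0 < s1 ∧ s1 < s2 ∧ s2 < s3 ∧ s3 < s4 ∧
      s4 < 1 ∧ Icc s1 s4 = ρ x '' Icc (-1) 1 ∧ Icc s2 s3 = ρ x '' Icc (-m x) (m x) ∧
      1 / 2 ≤ Λ x * (s2 - s1) ∧ 1 / 2 ≤ Λ x * (s4 - s3)) := by
    intro x
    by_cases hx : CrsPt a b h L x
    · obtain ⟨s1, s2, s3, s4, h1⟩ := exists_four (H.m0 x hx) (H.m1 x hx) (H.cont x hx)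
        (H.inj x hx) (H.rng x hx) (H.lip x hx)
      exact ⟨s1, s2, s3, s4, fun _ => h1⟩
    · exact ⟨0, 0, 0, 0, fun h => absurd h hx⟩
  choose s1 s2 s3 s4 hs using hex
  have hj : ∀ {x j}, h x j ∈ L j → j = i := by
    intro x j hxj
    by_contra hne
    rw [H.lev j hne] at hxj
    simp at hxj
  have hsub : ∀ x, CrsPt a b h L x → Icc (-m x) (m x) ⊆ Icc (-1:ℝ) 1 := fun x hx =>
    Icc_subset_Icc (by linarith [H.m1 x hx]) (by linarith [H.m1 x hx])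
  refine ⟨s1, s2, s3, s4, fun x hx => (hs x hx).1, fun x hx => (hs x hx).2.1,
    fun x hx => (hs x hx).2.2.1, fun x hx => (hs x hx).2.2.2.1, fun x hx => (hs x hx).2.2.2.2.1,
    fun x y hx hy hxy => ?_, fun x hx s hs' => ?_, fun x hx j hxj => ?_, fun x hx j hxj => ?_,
    fun x hx j hxj s hs1 s' hs1' => ?_⟩
  · obtain ⟨-, a1, a2, a3, -, a4, -⟩ := hs x hx
    obtain ⟨-, b1, b2, b3, -, b4, -⟩ := hs y hy
    by_contra hcon
    push Not at hcon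
    -- a common point
    have c1 : max (s1 x) (s1 y) ∈ Icc (s1 x) (s4 x) :=
      ⟨le_max_left _ _, max_le (by linarith) (by linarith)⟩
    have c2 : max (s1 x) (s1 y) ∈ Icc (s1 y) (s4 y) :=
      ⟨le_max_right _ _, max_le (by linarith) (by linarith)⟩
    rw [a4] at c1
    rw [b4] at c2
    obtain ⟨s, hs2, hs3⟩ := c1
    obtain ⟨s', hs4, hs5⟩ := c2
    exact H.dis x y hx hy hxy s hs2 s' hs4 (hs3.trans hs5.symm)
  · obtain ⟨-, -, -, -, -, -, a5, -⟩ := hs x hx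
    rw [H.fib x hx s hs']
    show s ∈ ρ x '' Icc (-m x) (m x) ↔ s ∈ Icc (s2 x) (s3 x)
    rw [a5]
  · have hx' : CrsPt a b h L x := ⟨hx, j, hxj⟩
    have hji := hj hxj
    subst hji
    obtain ⟨-, a1, -, -, -, -, -, a6, -⟩ := hs x hx'
    have h1 := hLa x hx'
    have h2 := hom x hx'
    have h3 : om j (h x j) * (1 / 2) ≤ om j (h x j) * (Λ x * (s2 x - s1 x)) :=
      mul_le_mul_of_nonneg_left a6 h2
    have h4 := mul_le_mul_of_nonneg_right h1 (by linarith : 0 ≤ s2 x - s1 x)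
    nlinarith
  · have hx' : CrsPt a b h L x := ⟨hx, j, hxj⟩
    have hji := hj hxj
    subst hji
    obtain ⟨-, -, -, a1, -, -, -, -, a6⟩ := hs x hx'
    have h1 := hLa x hx'
    have h2 := hom x hx'
    have h3 : om j (h x j) * (1 / 2) ≤ om j (h x j) * (Λ x * (s4 x - s3 x)) :=
      mul_le_mul_of_nonneg_left a6 h2
    have h4 := mul_le_mul_of_nonneg_right h1 (by linarith : 0 ≤ s4 x - s3 x)
    nlinarith
  · have hx' : CrsPt a b h L x := ⟨hx, j, hxj⟩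
    have hji := hj hxj
    subst hji
    obtain ⟨-, -, -, -, -, -, a5, -⟩ := hs x hx'
    rw [a5] at hs1 hs1'
    obtain ⟨t, ht, rfl⟩ := hs1
    obtain ⟨t', ht', rfl⟩ := hs1'
    have hr' := hr x hx'
    rw [H.val x hx' t ht, H.val x hx' t' ht']
    have e1 : h x j + t / r x - (h x j + t' / r x) = (t - t') / r x := by ring
    rw [e1, abs_div, abs_of_pos hr']
    have e2 := H.lip x hx' t (hsub x hx' ht) t' (hsub x hx' ht')
    have e3 : |t - t'| / r x ≤ Λ x / r x * |ρ x t - ρ x t'| := by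
      rw [div_mul_eq_mul_div]
      exact div_le_div_of_nonneg_right e2 hr'.le
    have e4 := mul_le_mul_of_nonneg_left e3 (hom x hx')
    have e5 := mul_le_mul_of_nonneg_right (hw x hx') (abs_nonneg (ρ x t - ρ x t'))
    calc om j (h x j) * (|t - t'| / r x) ≤ om j (h x j) * (Λ x / r x * |ρ x t - ρ x t'|) := e4
      _ = om j (h x j) * (Λ x / r x) * |ρ x t - ρ x t'| := by ring
      _ ≤ (hi j (h x j) - lo j (h x j)) * (La * ‖b - a‖) * |ρ x t - ρ x t'| := e5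
      _ = _ := by ring

end P073.H196
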