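import Vale.Agent.P073.H196.EdgePass
import Vale.Agent.P073.H345.PassA

/-!
# P073, H196, [GE-G], part 2: edges of given cells, from the output of `exists_passM` (H399)
-/

open Set Metric Topology Filter

namespace P073.H196

open P073 P073.H579 P073.H345

variable {E : Type*} [NormedAddCommGroup E] [NormedSpace ℝ E] {n : ℕ}

/-- the parameter on a segment -/
theorem exists_prm (a b : E) : ∃ p : E → ℝ, ∀ y ∈ segment ℝ a b, p y ∈ Icc (0:ℝ) 1 ∧
    (AffineMap.lineMap a b (p y) : E) = y := by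
  classical
  refine ⟨fun y => if h : y ∈ segment ℝ a b then
    ((segment_eq_image_lineMap ℝ a b ▸ h : y ∈ AffineMap.lineMap a b '' Icc (0:ℝ) 1)).choose
    else 0, fun y hy => ?_⟩
  simp only [dif_pos hy]
  exact ((segment_eq_image_lineMap ℝ a b ▸ hy :
    y ∈ AffineMap.lineMap a b '' Icc (0:ℝ) 1)).choose_spec

theorem norm_lineMap_sub (a b : E) (s t : ℝ) :
    ‖(AffineMap.lineMap a b s : E) - AffineMap.lineMap a b t‖ = |s - t| * ‖b - a‖ := by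
  rw [AffineMap.lineMap_apply_module', AffineMap.lineMap_apply_module', add_sub_add_right_eq_sub,
    ← sub_smul, norm_smul, Real.norm_eq_abs]

/-- **[GE-G], from the output of `exists_passM`** -/
theorem exists_edgeNum_pass {J : Type*} {C A : Set E} {h Φ : E → Fin n → ℝ} {γ : E → E}
    {i : J → Fin n} {bb r : J → ℝ} {μ : J → (Fin n → ℝ) → ℝ} {Lv N : J → Set E}
    {Γ : ∀ j, ConHomeo (Lv j ×ˢ Icc (-1:ℝ) 1) (N j)}
    (hzero : ∀ j, ∀ z ∈ Lv j, (Γ j).toFun (z, 0) = z)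
    (hdis : ∀ j j', j ≠ j' → Disjoint (N j) (N j'))
    (hcov : C ⊆ A ∪ ⋃ j, N j)
    (hAN : ∀ j, ∀ z ∈ Lv j, ∀ s ∈ Icc (-1:ℝ) 1, (Γ j).toFun (z, s) ∈ A →
      s = 1 ∨ s = -1 ∨ μ j (h z) = 0)
    (hr : ∀ j, 0 < r j) (hμ0 : ∀ j y, 0 ≤ μ j y) (hrμ : ∀ j y, r j * μ j y ≤ 1 / 2)
    (o1 : ∀ x ∈ A, γ x = x)
    (o2 : ∀ j, ∀ z ∈ Lv j, ∀ s ∈ Icc (-1:ℝ) 1, γ ((Γ j).toFun (z, s)) =
      (Γ j).toFun (z, ph 1 (r j * μ j (h z)) s))
    (o3 : ∀ j, ∀ z ∈ Lv j, ∀ s ∈ Icc (-1:ℝ) 1, |s| ≤ r j * μ j (h z) →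
      Φ ((Γ j).toFun (z, s)) = Function.update (h z) (i j) (bb j + s / r j))
    {a b : E} (hab : a ≠ b) (hsub : segment ℝ a b ⊆ C)
    (hseg : ∀ j, ∀ z ∈ Lv j, z ∈ segment ℝ a b → ∀ s ∈ Icc (-1:ℝ) 1,
      (Γ j).toFun (z, s) ∈ segment ℝ a b)
    {k : Fin n → ℝ → ℝ} {L : Fin n → Finset ℝ} {i₀ : Fin n} (hL : ∀ j, j ≠ i₀ → L j = ∅)
    (hcr : ∀ x, CrsPt a b h L x → ∃ j, x ∈ Lv j ∧ bb j = h x i₀ ∧ i j = i₀ ∧ 0 < μ j (h x))
    (hends : ∀ x, CrsPt a b h L x → ∀ j, x ∈ Lv j → a ∉ N j ∧ b ∉ N j)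
    (hfib : ∀ x, CrsPt a b h L x → ∀ y ∈ segment ℝ a b, (prodK k (Φ y) = h x ↔ γ y = x))
    {u : E → ℝ} {w t₀ : J → ℝ} (hw0 : ∀ j, 0 < w j)
    (hu : ∀ j, ∀ z ∈ Lv j, ∀ s ∈ Icc (-1:ℝ) 1, u ((Γ j).toFun (z, s)) = t₀ j + w j * s)
    {Lp : ℝ} (hLip : ∀ x ∈ segment ℝ a b, ∀ y ∈ segment ℝ a b, |u x - u y| ≤ Lp * ‖x - y‖)
    {lo hi om : Fin n → ℝ → ℝ} {La : ℝ} (hom : ∀ x, CrsPt a b h L x → 0 ≤ om i₀ (h x i₀))
    (hLa : ∀ x, CrsPt a b h L x → ∀ j, x ∈ Lv j → 2 * Lp * om i₀ (h x i₀) ≤ La * w j)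
    (hwd : ∀ x, CrsPt a b h L x → ∀ j, x ∈ Lv j → om i₀ (h x i₀) * Lp ≤
      (hi i₀ (h x i₀) - lo i₀ (h x i₀)) * (La * (w j * r j))) :
    ∃ s1 s2 s3 s4 : E → ℝ, EdgeNum a b h k L lo hi om La Φ s1 s2 s3 s4 := by
  classical
  have hnrm : 0 < ‖b - a‖ := norm_pos_iff.2 (sub_ne_zero.2 hab.symm)
  by_cases hne : ∃ x, CrsPt a b h L x
  swap
  · push Not at hne
    refine ⟨fun _ => 0, fun _ => 0, fun _ => 0, fun _ => 0, fun x hx => absurd hx (hne x),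
      fun x hx => absurd hx (hne x), fun x hx => absurd hx (hne x), fun x hx => absurd hx (hne x),
      fun x hx => absurd hx (hne x), fun x _ hx => absurd hx (hne x),
      fun x hx => absurd hx (hne x), fun x hx j hj => absurd ⟨hx, j, hj⟩ (hne x),
      fun x hx j hj => absurd ⟨hx, j, hj⟩ (hne x), fun x hx j hj => absurd ⟨hx, j, hj⟩ (hne x)⟩
  obtain ⟨x₀, hx₀⟩ := hne
  have : Nonempty J := ⟨(hcr x₀ hx₀).choose⟩
  choose! jx j1 j2 j3 j4 using hcr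
  obtain ⟨p, hp⟩ := exists_prm a b
  set ρ : E → ℝ → ℝ := fun x s => p ((Γ (jx x)).toFun (x, s)) with hρ
  have hS : ∀ x, CrsPt a b h L x → ∀ s ∈ Icc (-1:ℝ) 1, (Γ (jx x)).toFun (x, s) ∈ segment ℝ a b :=
    fun x hx s hs => hseg _ x (j1 x hx) hx.1 s hs
  have hρl : ∀ x, CrsPt a b h L x → ∀ s ∈ Icc (-1:ℝ) 1,
      (AffineMap.lineMap a b (ρ x s) : E) = (Γ (jx x)).toFun (x, s) := fun x hx s hs =>
    (hp _ (hS x hx s hs)).2
  have hdist : ∀ x, CrsPt a b h L x → ∀ s ∈ Icc (-1:ℝ) 1, ∀ s' ∈ Icc (-1:ℝ) 1,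
      ‖(Γ (jx x)).toFun (x, s) - (Γ (jx x)).toFun (x, s')‖ = |ρ x s - ρ x s'| * ‖b - a‖ := by
    intro x hx s hs s' hs'
    rw [← hρl x hx s hs, ← hρl x hx s' hs', norm_lineMap_sub]
  have hlip : ∀ x, CrsPt a b h L x → ∀ s ∈ Icc (-1:ℝ) 1, ∀ s' ∈ Icc (-1:ℝ) 1,
      w (jx x) * |s - s'| ≤ Lp * (|ρ x s - ρ x s'| * ‖b - a‖) := by
    intro x hx s hs s' hs'
    have h1 := hLip _ (hS x hx s hs) _ (hS x hx s' hs')
    rw [hu _ x (j1 x hx) s hs, hu _ x (j1 x hx) s' hs', hdist x hx s hs s' hs',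
      add_sub_add_left_eq_sub, ← mul_sub, abs_mul, abs_of_pos (hw0 _)] at h1
    exact h1
  have key : EPass a b h Φ k L i₀ ρ (fun x => r (jx x) * μ (jx x) (h x)) (fun x => r (jx x))
      (fun x => Lp * ‖b - a‖ / w (jx x)) := by
    refine ⟨hL, fun x hx => mul_pos (hr _) (j4 x hx), fun x hx => hrμ _ _, fun x hx => ?_,
      fun x hx s hs s' hs' he => ?_, fun x hx s hs => ?_, fun x hx s hs s' hs' => ?_,
      fun x hx t ht => ?_, fun x hx s hs => ?_, fun x y hx hy hxy s hs s' hs' he => ?_⟩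
    · -- continuity
      have hc1 : ContinuousOn (fun s : ℝ => (Γ (jx x)).toFun (x, s)) (Icc (-1) 1) :=
        (Γ (jx x)).cont.comp (by fun_prop) fun s hs => ⟨j1 x hx, hs⟩
      rw [Metric.continuousOn_iff] at hc1 ⊢
      intro s hs ε hε
      obtain ⟨δ, hδ, h1⟩ := hc1 s hs (ε * ‖b - a‖) (mul_pos hε hnrm)
      refine ⟨δ, hδ, fun s' hs' hd => ?_⟩
      have h2 := h1 s' hs' hd
      rw [dist_eq_norm, hdist x hx s' hs' s hs] at h2
      rw [Real.dist_eq]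
      exact lt_of_mul_lt_mul_right h2 hnrm.le
    · -- injectivity
      have h1 : (Γ (jx x)).toFun (x, s) = (Γ (jx x)).toFun (x, s') := by
        rw [← hρl x hx s hs, ← hρl x hx s' hs', he]
      have h2 := (Γ (jx x)).injOn (show (x, s) ∈ Lv (jx x) ×ˢ Icc (-1:ℝ) 1 from ⟨j1 x hx, hs⟩)
        (show (x, s') ∈ Lv (jx x) ×ˢ Icc (-1:ℝ) 1 from ⟨j1 x hx, hs'⟩) h1
      exact (Prod.mk.inj h2).2
    · -- range
      have h1 := hp _ (hS x hx s hs)
      have h2 := hends x hx _ (j1 x hx)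
      have h3 : (Γ (jx x)).toFun (x, s) ∈ N (jx x) := (Γ (jx x)).mapsTo
        (show (x, s) ∈ Lv (jx x) ×ˢ Icc (-1:ℝ) 1 from ⟨j1 x hx, hs⟩)
      refine ⟨lt_of_le_of_ne h1.1.1 fun h0 => h2.1 ?_, lt_of_le_of_ne h1.1.2 fun h0 => h2.2 ?_⟩
      · have h4 := hρl x hx s hs
        rw [← h0, AffineMap.lineMap_apply_zero] at h4
        rw [h4]; exact h3
      · have h4 := hρl x hx s hs
        rw [h0, AffineMap.lineMap_apply_one] at h4
        rw [h4]; exact h3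
    · -- Lipschitz
      have h1 := hlip x hx s hs s' hs'
      have h2 := hw0 (jx x)
      show |s - s'| ≤ Lp * ‖b - a‖ / w (jx x) * |ρ x s - ρ x s'|
      rw [div_mul_eq_mul_div, le_div_iff₀ h2]
      calc |s - s'| * w (jx x) = w (jx x) * |s - s'| := mul_comm _ _
        _ ≤ Lp * (|ρ x s - ρ x s'| * ‖b - a‖) := h1
        _ = _ := by ring
    · -- fibres
      have hy : (AffineMap.lineMap a b t : E) ∈ segment ℝ a b := by
        rw [segment_eq_image_lineMap]; exact ⟨t, ht, rfl⟩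
      rw [hfib x hx _ hy]
      have hxN : x ∈ N (jx x) := by
        have := (Γ (jx x)).mapsTo (show (x, (0:ℝ)) ∈ Lv (jx x) ×ˢ Icc (-1:ℝ) 1 from
          ⟨j1 x hx, by norm_num, by norm_num⟩)
        rwa [hzero _ x (j1 x hx)] at this
      have hm : r (jx x) * μ (jx x) (h x) ≤ 1 / 2 := hrμ _ _
      constructor
      · intro hγ
        have hC := hsub hy
        rcases hcov hC with hyA | hyN
        · exfalso
          rw [o1 _ hyA] at hγ
          rw [hγ] at hyA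
          have h1 := hAN (jx x) x (j1 x hx) 0 ⟨by norm_num, by norm_num⟩
            (by rw [hzero _ x (j1 x hx)]; exact hyA)
          rcases h1 with h1 | h1 | h1
          · norm_num at h1
          · norm_num at h1
          · exact (j4 x hx).ne' h1
        · obtain ⟨j', hj'⟩ := mem_iUnion.1 hyN
          obtain ⟨z, s, hz, hs, hzs⟩ : ∃ z s, z ∈ Lv j' ∧ s ∈ Icc (-1:ℝ) 1 ∧
              (Γ j').toFun (z, s) = AffineMap.lineMap a b t := by
            have h1 := (Γ j').mapsTo_inv hj'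
            exact ⟨((Γ j').invFun (AffineMap.lineMap a b t)).1,
              ((Γ j').invFun (AffineMap.lineMap a b t)).2, h1.1, h1.2, (Γ j').right_inv hj'⟩
          rw [← hzs, o2 j' z hz s hs] at hγ
          have hph : ph 1 (r j' * μ j' (h z)) s ∈ Icc (-1:ℝ) 1 := by
            have h1 : |ph 1 (r j' * μ j' (h z)) s| ≤ |s| := abs_ph_le
            exact abs_le.1 (h1.trans (abs_le.2 hs))
          have hxN' : x ∈ N j' := by
            rw [← hγ]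
            exact (Γ j').mapsTo (show (z, ph 1 (r j' * μ j' (h z)) s) ∈ Lv j' ×ˢ Icc (-1:ℝ) 1 from
              ⟨hz, hph⟩)
          have hjj : j' = jx x := by
            by_contra hcon
            exact Set.disjoint_left.1 (hdis _ _ hcon) hxN' hxN
          subst hjj
          have h2 := (Γ (jx x)).injOn (show (z, ph 1 (r (jx x) * μ (jx x) (h z)) s) ∈
            Lv (jx x) ×ˢ Icc (-1:ℝ) 1 from ⟨hz, hph⟩)
            (show (x, (0:ℝ)) ∈ Lv (jx x) ×ˢ Icc (-1:ℝ) 1 from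
              ⟨j1 x hx, by norm_num, by norm_num⟩) (hγ.trans (hzero _ x (j1 x hx)).symm)
          obtain ⟨h3, h4⟩ := Prod.mk.inj h2
          subst h3
          have h5 := (ph_zero_iff (mul_nonneg (hr _).le (hμ0 _ _)) hm).1 h4
          refine ⟨s, abs_le.1 h5, ?_⟩
          have h6 := hp _ (hS z hx s hs)
          have h7 : (AffineMap.lineMap a b (ρ z s) : E) = AffineMap.lineMap a b t :=
            h6.2.trans hzs
          exact AffineMap.lineMap_injective ℝ hab h7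
      · rintro ⟨s, hs, hst⟩
        have hs' : s ∈ Icc (-1:ℝ) 1 := ⟨by linarith [hs.1], by linarith [hs.2]⟩
        rw [← hst, hρl x hx s hs', o2 _ x (j1 x hx) s hs',
          (ph_zero_iff (mul_nonneg (hr _).le (hμ0 _ _)) hm).2 (abs_le.2 hs),
          hzero _ x (j1 x hx)]
    · have hm : r (jx x) * μ (jx x) (h x) ≤ 1 / 2 := hrμ _ _
      have hs' : s ∈ Icc (-1:ℝ) 1 := ⟨by linarith [hs.1], by linarith [hs.2]⟩
      show Φ (AffineMap.lineMap a b (ρ x s)) i₀ = h x i₀ + s / r (jx x)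
      rw [hρl x hx s hs', o3 _ x (j1 x hx) s hs' (abs_le.2 hs), j3 x hx, Function.update_self,
        j2 x hx]
    · -- disjointness
      have h1 : (Γ (jx x)).toFun (x, s) = (Γ (jx y)).toFun (y, s') := by
        rw [← hρl x hx s hs, ← hρl y hy s' hs', he]
      have m1 : (Γ (jx x)).toFun (x, s) ∈ N (jx x) := (Γ (jx x)).mapsTo
        (show (x, s) ∈ Lv (jx x) ×ˢ Icc (-1:ℝ) 1 from ⟨j1 x hx, hs⟩)
      have m2 : (Γ (jx y)).toFun (y, s') ∈ N (jx y) := (Γ (jx y)).mapsTo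
        (show (y, s') ∈ Lv (jx y) ×ˢ Icc (-1:ℝ) 1 from ⟨j1 y hy, hs'⟩)
      by_cases hj : jx x = jx y
      · have hy1 := j1 y hy
        rw [← hj] at h1 hy1
        have h2 := (Γ (jx x)).injOn (show (x, s) ∈ Lv (jx x) ×ˢ Icc (-1:ℝ) 1 from ⟨j1 x hx, hs⟩)
          (show (y, s') ∈ Lv (jx x) ×ˢ Icc (-1:ℝ) 1 from ⟨hy1, hs'⟩) h1
        exact hxy (Prod.mk.inj h2).1
      · exact Set.disjoint_left.1 (hdis _ _ hj) m1 (h1 ▸ m2)
  refine key.exists_edgeNum (fun x _ => hr _) hom (fun x hx => ?_) (fun x hx => ?_)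
  · have h1 := hLa x hx _ (j1 x hx)
    have h2 := hw0 (jx x)
    show 2 * (Lp * ‖b - a‖ / w (jx x)) * om i₀ (h x i₀) ≤ La * ‖b - a‖
    have e : 2 * (Lp * ‖b - a‖ / w (jx x)) * om i₀ (h x i₀) =
        2 * Lp * om i₀ (h x i₀) * ‖b - a‖ / w (jx x) := by ring
    rw [e, div_le_iff₀ h2]
    have := mul_le_mul_of_nonneg_right h1 hnrm.le
    nlinarith
  · have h1 := hwd x hx _ (j1 x hx)
    have h2 := hw0 (jx x)
    have h3 := hr (jx x)
    show om i₀ (h x i₀) * (Lp * ‖b - a‖ / w (jx x) / r (jx x)) ≤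
      (hi i₀ (h x i₀) - lo i₀ (h x i₀)) * (La * ‖b - a‖)
    have e : om i₀ (h x i₀) * (Lp * ‖b - a‖ / w (jx x) / r (jx x)) =
        om i₀ (h x i₀) * Lp * ‖b - a‖ / (w (jx x) * r (jx x)) := by
      rw [div_div]; ring
    rw [e, div_le_iff₀ (mul_pos h2 h3)]
    have := mul_le_mul_of_nonneg_right h1 hnrm.le
    nlinarith

end P073.H196
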