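import Vale.Agent.P073.H196.ThetaQ3
import Vale.Agent.P073.H142.FaceG

/-!
# P073, H196: `giv_rel` for a general given map

As 142's `giv_rel`, for a map `h4 = Tm ∘ g1` on the given set, where `Tm` satisfies `LocJ1` in the
coordinate `j` (two-stage staircases: `ThP2.locJ1`) and a local Lipschitz bound (`ThP2.loc_norm`).
-/

open Set Metric Topology Filter MeasureTheory
open scoped ENNReal

set_option linter.unusedSectionVars false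

namespace P073.H196

open P073 P073.Net P073.PA691 P073.H236 P073.H429 P073.H880 P073.H880.RP P073.H936 P073.H936.K3
  P073.H345 P073.H579 P073.H950 P073.H919 P073.H228 P073.H142
open Vale.Agent.P073.St (V)
open Vale.Agent.P073.AB (Idx squ)
open Vale.Agent.P073.H73 (Mesh)
open Vale.Agent.P073.H471 Vale.Agent.P073.H267
open Vale.Agent.P073.H233 (PSet LAt FaceOK3)
open Vale.Agent.P073.H193 (LAtC FaceCl edges)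

variable {Ω Λ : Set V} {v : V} {K : BoxCx Λ v} {S : Rad K} {W : Wid K S} {B : Boxes W}
  {G : Geo B} {L : PLev G} {S₀ : Set K.S} {F : Bool → BFam 3 S₀ Λ}
  {T : Bool → ConHomeo Λ Λ} {M : Mesh Ω} {κ₀ κ₁ : V → V} {c d : ℝ} {Zb : S₀ → Set M.ι}
  {h2 h3 h4 : ConHomeo Ω Λ} {u : V}

/-- **[REL] for given sets, for a general given map** -/
theorem giv_rel_of {H : HkG M L (Subtype.val : S₀ → K.S) F T κ₀ κ₁ c d Zb h2 h3 h4 u}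
    {hΩ : IsOpen Ω} {r : S₀ → ℝ} {h5 : ConHomeo Ω Λ} (O : HkGO H hΩ r h5)
    (hΛ : IsOpen Λ) {Fσ : Bool → BFam 3 S₀ Λ} {ς : Bool → S₀ → ℝ}
    {Tσ : Bool → ConHomeo Λ Λ} (P : Sg3 L S₀ Fσ ς Tσ) {A : Set V} (hA : A ⊆ Ω)
    (hpas : ∀ s : S₀, ∀ i ∈ Zb s, Disjoint A (interior (M.Q i)))
    -- the given map
    {Tm : V → V} {g1 : ConHomeo Ω Λ} (hg : ∀ y ∈ A, h4.toFun y = Tm (g1.toFun y))
    {x : V} (hx : x ∈ A) {j : Fin 3} {A' Aθ q₁ K₁ ε' ςm : ℝ}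
    (hJ : LocJ1 Tm Aθ q₁ (g1.toFun x) j)
    (hN : ∀ᶠ y' in 𝓝 (g1.toFun x), ‖Tm y' - Tm (g1.toFun x)‖ ≤ K₁ * ‖y' - g1.toFun x‖)
    (hA' : 1 ≤ A') (hε0 : 0 ≤ ε') (hςm : 0 ≤ ςm)
    (hsl : ∀ s : S₀, h4.toFun x ∈ PK G s.1 → ∀ β, slAK (Fσ β) (ς β) s ≤ A')
    (hε : ∀ s : S₀, h4.toFun x ∈ PK G s.1 → ∀ β, (Fσ β).e s * (4 / B.τ s.1) ≤ ε')
    (hς : ∀ s : S₀, h4.toFun x ∈ HB G c d s.1 → ∀ β, ς β s ≤ ςm)
    {r' : S₀ → ℝ} (r0' : ∀ s, 0 < r' s) (rr : ∀ s, r' s ≤ r s) (r1 : ∀ s, r s < 1)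
    (he : ∀ s : S₀, ∀ β, (Fσ β).e s = stp (L.N s.1 β) (K.slo s.1 (tg s.1 β) + G.a s.1)
      (K.shi s.1 (tg s.1 β) - G.a s.1) / 2 - r' s * bw (L.N s.1 β)
        (K.slo s.1 (tg s.1 β) + G.a s.1) (K.shi s.1 (tg s.1 β) - G.a s.1) ((F β).e s))
    (he0 : ∀ s : S₀, ∀ β, 0 < (F β).e s)
    (heo : ∀ s : S₀, ∀ β, 2 * (F β).e s < stp (L.N s.1 β) (K.slo s.1 (tg s.1 β) + G.a s.1)
      (K.shi s.1 (tg s.1 β) - G.a s.1))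
    (hcol : ∀ s : S₀, h4.toFun x ∈ HB G c d s.1 → ∃ β, j = tg s.1 β ∧
      PS.map Tσ (h5.toFun x) j ∈ Ioo (K.slo s.1 j + G.a s.1) (K.shi s.1 j - G.a s.1) ∧
      ∀ k : Fin (L.N s.1 (!β)), pwid L (fun β => (F β).e s) s.1 ⟨!β, k⟩ <
        |h4.toFun x (tg s.1 (!β)) - pcen L s.1 ⟨!β, k⟩|)
    {Q : ℝ} (hQ : A' * A' * q₁ + (A' * ε' + ε' * (A' + ε')) * K₁ ≤ Q) :
    ∀ᶠ x' in 𝓝[A] x, |PS.map Tσ (h5.toFun x') j - PS.map Tσ (h5.toFun x) j| ≤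
      A' * A' * Aθ * |g1.toFun x' j - g1.toFun x j| + ςm * |h5.toFun x' j - h5.toFun x j| +
        Q * ‖g1.toFun x' - g1.toFun x‖ := by
  have hc1 : ContinuousWithinAt g1.toFun A x := (g1.cont.mono hA) x hx
  have e1 := hkGO_rel O hΛ P hA hpas hx (j := j) hA' hε0 hςm hsl hε hς r0' rr r1 he he0 heo hcol
  have e3 := hc1.eventually hJ
  have e4 := hc1.eventually hN
  filter_upwards [e1, e3, e4, self_mem_nhdsWithin] with x' h1' h2' h3' hx'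
  rw [hg x' hx', hg x hx] at h1'
  have hN := norm_nonneg (g1.toFun x' - g1.toFun x)
  have hq : 0 ≤ A' * ε' + ε' * (A' + ε') := by positivity
  have h6 := mul_le_mul_of_nonneg_left h2' (show 0 ≤ A' * A' by positivity)
  have h7 := mul_le_mul_of_nonneg_left h3' hq
  have h8 := mul_le_mul_of_nonneg_right hQ hN
  nlinarith

/-- **[REL] for given sets, two-stage staircases** -/
theorem giv_rel2 {H : HkG M L (Subtype.val : S₀ → K.S) F T κ₀ κ₁ c d Zb h2 h3 h4 u}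
    {hΩ : IsOpen Ω} {r : S₀ → ℝ} {h5 : ConHomeo Ω Λ} (O : HkGO H hΩ r h5)
    (hΛ : IsOpen Λ) {Fσ : Bool → BFam 3 S₀ Λ} {ς : Bool → S₀ → ℝ}
    {Tσ : Bool → ConHomeo Λ Λ} (P : Sg3 L S₀ Fσ ς Tσ) {A : Set V} (hA : A ⊆ Ω)
    (hpas : ∀ s : S₀, ∀ i ∈ Zb s, Disjoint A (interior (M.Q i)))
    -- the given map
    {L₀ : PLev G} {cθ : K.S → Bool → ℝ} {c0 : ∀ s β, 0 < cθ s β} {c1 : ∀ s β, cθ s β ≤ L₀.c s β}
    {μ : Bool → S₀ → ℝ} {T2 Θ : Bool → ConHomeo Λ Λ} {Aθ : ℝ}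
    (HΘ : ThP2 L₀ cθ c0 c1 hΛ S₀ F μ T2 Θ Aθ) {g1 : ConHomeo Ω Λ}
    (hg : ∀ y ∈ A, h4.toFun y =
      (T2 true).toFun ((T2 false).toFun ((Θ true).toFun ((Θ false).toFun (g1.toFun y)))))
    {x : V} (hx : x ∈ A) {j : Fin 3} {A' εθ εq ε' ςm : ℝ} (hA' : 1 ≤ A') (hεθ0 : 0 ≤ εθ)
    (hεq0 : 0 ≤ εq) (hε0 : 0 ≤ ε') (hςm : 0 ≤ ςm)
    (hεq : ∀ s : S₀, g1.toFun x ∈ PK G s.1 → ∀ β,
      (6 * (F β).D s + L₀.c s.1 β) * (4 / B.τ s.1) ≤ εq)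
    (hεθ : ∀ s : S₀, g1.toFun x ∈ PK G s.1 → ∀ β, j = tg s.1 β →
      (6 * (F β).D s + L₀.c s.1 β) * (4 / B.τ s.1) ≤ εθ ∨
      ((6 * μ β s + L₀.c s.1 β) * (4 / B.τ s.1) ≤ εθ ∧ ∃ r₀, L₀.c s.1 β < r₀ ∧
        ∀ t, |t - g1.toFun x j| ≤ r₀ → |(F β).σ s t - t| ≤ μ β s))
    (hsl : ∀ s : S₀, h4.toFun x ∈ PK G s.1 → ∀ β, slAK (Fσ β) (ς β) s ≤ A')
    (hε : ∀ s : S₀, h4.toFun x ∈ PK G s.1 → ∀ β, (Fσ β).e s * (4 / B.τ s.1) ≤ ε')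
    (hς : ∀ s : S₀, h4.toFun x ∈ HB G c d s.1 → ∀ β, ς β s ≤ ςm)
    {r' : S₀ → ℝ} (r0' : ∀ s, 0 < r' s) (rr : ∀ s, r' s ≤ r s) (r1 : ∀ s, r s < 1)
    (he : ∀ s : S₀, ∀ β, (Fσ β).e s = stp (L.N s.1 β) (K.slo s.1 (tg s.1 β) + G.a s.1)
      (K.shi s.1 (tg s.1 β) - G.a s.1) / 2 - r' s * bw (L.N s.1 β)
        (K.slo s.1 (tg s.1 β) + G.a s.1) (K.shi s.1 (tg s.1 β) - G.a s.1) ((F β).e s))
    (he0 : ∀ s : S₀, ∀ β, 0 < (F β).e s)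
    (heo : ∀ s : S₀, ∀ β, 2 * (F β).e s < stp (L.N s.1 β) (K.slo s.1 (tg s.1 β) + G.a s.1)
      (K.shi s.1 (tg s.1 β) - G.a s.1))
    (hcol : ∀ s : S₀, h4.toFun x ∈ HB G c d s.1 → ∃ β, j = tg s.1 β ∧
      PS.map Tσ (h5.toFun x) j ∈ Ioo (K.slo s.1 j + G.a s.1) (K.shi s.1 j - G.a s.1) ∧
      ∀ k : Fin (L.N s.1 (!β)), pwid L (fun β => (F β).e s) s.1 ⟨!β, k⟩ <
        |h4.toFun x (tg s.1 (!β)) - pcen L s.1 ⟨!β, k⟩|)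
    {Q : ℝ} (hQ : A' * A' * (εθ * (Aθ + εq)) +
      (A' * ε' + ε' * (A' + ε')) * (Aθ + εq * (Aθ + εq)) ≤ Q) :
    ∀ᶠ x' in 𝓝[A] x, |PS.map Tσ (h5.toFun x') j - PS.map Tσ (h5.toFun x) j| ≤
      A' * A' * Aθ * |g1.toFun x' j - g1.toFun x j| + ςm * |h5.toFun x' j - h5.toFun x j| +
        Q * ‖g1.toFun x' - g1.toFun x‖ :=
  giv_rel_of O hΛ P hA hpas (Tm := fun y =>
    (T2 true).toFun ((T2 false).toFun ((Θ true).toFun ((Θ false).toFun y)))) hg hx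
    (HΘ.locJ1 (g1.mapsTo (hA hx)) j hεθ0 hεq0 hεq hεθ)
    (HΘ.loc_norm (g1.mapsTo (hA hx)) hεq0 hεq) hA' hε0 hςm hsl hε hς r0' rr r1 he he0 heo hcol hQ

end P073.H196
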