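import Vale.Agent.P073.H196.Kuhn

/-!
# P073 / H196: the conical hat function, Kuhn interpolation is conical
-/

open Set Metric Topology Filter MeasureTheory
open scoped Interval

namespace Vale.Agent.P073.H196

open _root_.P073

variable {ι : Type*} [Fintype ι] [Nonempty ι] {F : Type*} [NormedAddCommGroup F] [NormedSpace ℝ F]

section conical

variable {E : Type*} [NormedAddCommGroup E] [NormedSpace ℝ E]

omit [Fintype ι] [Nonempty ι] in
theorem conicalOn_sup' {s : Finset ι} (hs : s.Nonempty) {f : ι → E → ℝ} {X : Set E}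
    (h : ∀ i, ConicalOn (f i) X) (hc : ∀ i, ContinuousOn (f i) X) :
    ConicalOn (fun x => s.sup' hs fun i => f i x) X ∧
      ContinuousOn (fun x => s.sup' hs fun i => f i x) X := by
  classical
  induction hs using Finset.Nonempty.cons_induction with
  | singleton a => simpa using ⟨h a, hc a⟩
  | cons a s ha hs ih =>
    simp only [Finset.sup'_cons hs]
    exact ⟨(h a).rmax ih.1 (hc a) ih.2, (hc a).sup ih.2⟩

omit [Fintype ι] [Nonempty ι] in
theorem conicalOn_inf' {s : Finset ι} (hs : s.Nonempty) {f : ι → E → ℝ} {X : Set E}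
    (h : ∀ i, ConicalOn (f i) X) (hc : ∀ i, ContinuousOn (f i) X) :
    ConicalOn (fun x => s.inf' hs fun i => f i x) X ∧
      ContinuousOn (fun x => s.inf' hs fun i => f i x) X := by
  classical
  induction hs using Finset.Nonempty.cons_induction with
  | singleton a => simpa using ⟨h a, hc a⟩
  | cons a s ha hs ih =>
    simp only [Finset.inf'_cons hs]
    exact ⟨(h a).rmin ih.1 (hc a) ih.2, (hc a).inf ih.2⟩

end conical

/-- lower end of the interval of `θ` with `⌈y - θ⌉ = 0` -/
noncomputable def lo (y : ι → ℝ) : ℝ := max 0 (Finset.univ.sup' Finset.univ_nonempty y)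

/-- upper end of the interval of `θ` with `⌈y - θ⌉ = 0` -/
noncomputable def up (y : ι → ℝ) : ℝ := min 1 (1 + Finset.univ.inf' Finset.univ_nonempty y)

/-- the conical hat function of the Kuhn triangulation -/
noncomputable def hat (y : ι → ℝ) : ℝ := max 0 (up y - lo y)

theorem conicalOn_hat : ConicalOn (hat (ι := ι)) univ := by
  have hX : ConicalSet (univ : Set (ι → ℝ)) := isOpen_univ.conicalSet
  have h1 : ∀ i : ι, ConicalOn (fun y : ι → ℝ => y i) univ := fun i =>
    conicalOn_linear (LinearMap.proj i) hX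
  have h2 : ∀ i : ι, ContinuousOn (fun y : ι → ℝ => y i) univ := fun i =>
    (continuous_apply i).continuousOn
  have hs := conicalOn_sup' (s := Finset.univ) Finset.univ_nonempty (f := fun (i : ι) (y : ι → ℝ) => y i)
    h1 h2
  have hi := conicalOn_inf' (s := Finset.univ) Finset.univ_nonempty (f := fun (i : ι) (y : ι → ℝ) => y i)
    h1 h2
  have hlo : ConicalOn (lo (ι := ι)) univ := (conicalOn_const 0 hX).rmax hs.1 continuousOn_const hs.2
  have hloc : ContinuousOn (lo (ι := ι)) univ := continuousOn_const.sup hs.2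
  have hup : ConicalOn (up (ι := ι)) univ :=
    (conicalOn_const 1 hX).rmin ((conicalOn_const 1 hX).add hi.1) continuousOn_const
      (continuousOn_const.add hi.2)
  have hupc : ContinuousOn (up (ι := ι)) univ := continuousOn_const.inf (continuousOn_const.add hi.2)
  exact (conicalOn_const 0 hX).rmax (hup.sub hlo) continuousOn_const (hupc.sub hloc)

theorem continuous_hat : Continuous (hat (ι := ι)) := by
  have h2 : ∀ i : ι, Continuous (fun y : ι → ℝ => y i) := fun i => continuous_apply i
  have hs : Continuous fun y : ι → ℝ => Finset.univ.sup' Finset.univ_nonempty y := by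
    have := Continuous.finset_sup'_apply (f := fun (i : ι) (y : ι → ℝ) => y i)
      (s := Finset.univ) Finset.univ_nonempty (fun i _ => h2 i)
    exact this
  have hi : Continuous fun y : ι → ℝ => Finset.univ.inf' Finset.univ_nonempty y := by
    have := Continuous.finset_inf'_apply (f := fun (i : ι) (y : ι → ℝ) => y i)
      (s := Finset.univ) Finset.univ_nonempty (fun i _ => h2 i)
    exact this
  exact continuous_const.max ((continuous_const.min (continuous_const.add hi)).sub
    (continuous_const.max hs))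

theorem integral_hat (y : ι → ℝ) :
    ∫ θ in (0:ℝ)..1, (if ∀ i, ⌈y i - θ⌉ = 0 then (1:ℝ) else 0) = hat y := by
  classical
  have hset : MeasurableSet {θ : ℝ | ∀ i, ⌈y i - θ⌉ = 0} := by
    have : {θ : ℝ | ∀ i, ⌈y i - θ⌉ = 0} = ⋂ i, (fun θ : ℝ => ⌈y i - θ⌉) ⁻¹' {0} := by
      ext θ; simp
    rw [this]
    exact MeasurableSet.iInter fun i => measurable_ceil_sub (y i) (measurableSet_singleton 0)
  rw [intervalIntegral.integral_of_le zero_le_one]
  have h1 : (fun θ : ℝ => (if ∀ i, ⌈y i - θ⌉ = 0 then (1:ℝ) else 0)) =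
      ({θ : ℝ | ∀ i, ⌈y i - θ⌉ = 0}).indicator 1 := by
    ext θ
    simp [indicator]
  rw [h1, integral_indicator_one hset, measureReal_restrict_apply hset]
  have h2 : ({θ : ℝ | ∀ i, ⌈y i - θ⌉ = 0} ∩ Ioc (0:ℝ) 1 : Set ℝ) =ᵐ[volume] Ico (lo y) (up y) := by
    have n0 : ∀ᵐ θ : ℝ, θ ≠ 0 := by simp [ae_iff, measure_singleton]
    have n1 : ∀ᵐ θ : ℝ, θ ≠ 1 := by simp [ae_iff, measure_singleton]
    filter_upwards [n0, n1] with θ h0 h1
    have key : (∀ i, ⌈y i - θ⌉ = 0) ↔ (Finset.univ.sup' Finset.univ_nonempty y ≤ θ ∧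
        θ < 1 + Finset.univ.inf' Finset.univ_nonempty y) := by
      rw [Finset.sup'_le_iff]
      have : (θ < 1 + Finset.univ.inf' Finset.univ_nonempty y) ↔ ∀ i, θ < 1 + y i := by
        rw [← sub_lt_iff_lt_add', Finset.lt_inf'_iff]
        simp [sub_lt_iff_lt_add']
      rw [this]
      constructor
      · intro h
        refine ⟨fun i _ => ?_, fun i => ?_⟩
        · have := (Int.ceil_eq_iff.1 (h i)).2; push_cast at this; linarith
        · have := (Int.ceil_eq_iff.1 (h i)).1; push_cast at this; linarith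
      · rintro ⟨ha, hb⟩ i
        rw [Int.ceil_eq_iff]
        push_cast
        constructor
        · linarith [hb i]
        · linarith [ha i (Finset.mem_univ i)]
    refine propext ?_
    show (θ ∈ {θ : ℝ | ∀ i, ⌈y i - θ⌉ = 0} ∩ Ioc (0:ℝ) 1) ↔ θ ∈ Ico (lo y) (up y)
    simp only [mem_inter_iff, mem_ofPred_eq, mem_Ioc, mem_Ico, lo, up, max_le_iff, lt_min_iff, key]
    constructor
    · rintro ⟨⟨a, b⟩, c, d⟩
      exact ⟨⟨c.le, a⟩, lt_of_le_of_ne d h1, b⟩
    · rintro ⟨⟨a, b⟩, c, d⟩
      exact ⟨⟨b, d⟩, lt_of_le_of_ne a (Ne.symm h0), c.le⟩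
  rw [measureReal_congr h2, measureReal_def, Real.volume_Ico, ENNReal.toReal_ofReal', max_comm]
  rfl

/-- the finite sum formula -/
theorem itp_eq_sum [CompleteSpace F] {e : ℝ} (he : 0 < e) {D : (ι → ℝ) → F} {s : Finset (ι → ℤ)}
    (hs : ∀ z : ι → ℤ, z ∉ s → D (fun i => e * (z i : ℝ)) = 0) (x : ι → ℝ) :
    itp e D x = ∑ z ∈ s, hat (fun i => x i / e - z i) • D (fun i => e * (z i : ℝ)) := by
  classical
  have h1 : ∀ θ : ℝ, D (cv e x θ) = ∑ z ∈ s,
      (if ∀ i, ⌈(x i / e - z i) - θ⌉ = 0 then (1:ℝ) else 0) • D (fun i => e * (z i : ℝ)) := by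
    intro θ
    set z0 : ι → ℤ := fun i => ⌈x i / e - θ⌉ with hz0
    have hcond : ∀ z : ι → ℤ, (∀ i, ⌈(x i / e - z i) - θ⌉ = 0) ↔ z = z0 := by
      intro z
      have : ∀ i, ⌈(x i / e - z i) - θ⌉ = z0 i - z i := by
        intro i
        rw [show (x i / e - z i) - θ = (x i / e - θ) - (z i : ℝ) by ring, Int.ceil_sub_intCast]
      simp only [this]
      constructor
      · intro h; ext i; have := h i; omega
      · intro h i; rw [h]; ring
    simp only [hcond]
    have hD : D (cv e x θ) = D (fun i => e * (z0 i : ℝ)) := rfl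
    rw [hD]
    by_cases hz : z0 ∈ s
    · rw [Finset.sum_eq_single z0]
      · simp
      · intro b _ hb; simp [hb]
      · intro h; exact absurd hz h
    · rw [hs z0 hz]
      symm
      refine Finset.sum_eq_zero fun z hz' => ?_
      have : z ≠ z0 := fun h => hz (h ▸ hz')
      simp [this]
  have hint : ∀ z : ι → ℤ, IntervalIntegrable (fun θ : ℝ =>
      (if ∀ i, ⌈(x i / e - z i) - θ⌉ = 0 then (1:ℝ) else 0)) volume 0 1 := by
    intro z
    rw [intervalIntegrable_iff]
    refine Measure.integrableOn_of_bounded (M := 1) (by simp) ?_ ?_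
    · refine (Measurable.ite ?_ measurable_const measurable_const).aestronglyMeasurable
      have : {θ : ℝ | ∀ i, ⌈(x i / e - z i) - θ⌉ = 0} =
          ⋂ i, (fun θ : ℝ => ⌈(x i / e - z i) - θ⌉) ⁻¹' {0} := by
        ext θ; simp
      rw [this]
      exact MeasurableSet.iInter fun i => measurable_ceil_sub _ (measurableSet_singleton 0)
    · refine Eventually.of_forall fun θ => ?_
      split_ifs <;> simp
  unfold itp
  simp only [h1]
  rw [intervalIntegral.integral_finsetSum (fun z _ =>
    ⟨(hint z).1.smul_const _, (hint z).2.smul_const _⟩)]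
  refine Finset.sum_congr rfl fun z _ => ?_
  rw [intervalIntegral.integral_smul_const, integral_hat]

theorem conicalOn_itp [CompleteSpace F] {e : ℝ} (he : 0 < e) {D : (ι → ℝ) → F}
    {s : Finset (ι → ℤ)} (hs : ∀ z : ι → ℤ, z ∉ s → D (fun i => e * (z i : ℝ)) = 0) :
    ConicalOn (itp e D) univ := by
  classical
  have hX : ConicalSet (univ : Set (ι → ℝ)) := isOpen_univ.conicalSet
  have h0 : ConicalOn (fun x : ι → ℝ => ∑ z ∈ s, hat (fun i => x i / e - z i) •
      D (fun i => e * (z i : ℝ))) univ := by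
    clear hs
    induction s using Finset.induction_on with
    | empty => simpa using conicalOn_const (0:F) hX
    | insert a s ha ih =>
      simp only [Finset.sum_insert ha]
      refine ConicalOn.add ?_ ih
      have h1 : ConicalOn (fun x : ι → ℝ => (fun i => x i / e - (a i : ℝ) : ι → ℝ)) univ := by
        intro x _
        refine conicalWithinAt_pi (hX x (mem_univ x)) fun i => ?_
        have h2 : ConicalOn (fun y : ι → ℝ => y i / e) univ := by
          have := (conicalOn_linear (LinearMap.proj (R := ℝ) (φ := fun _ : ι => ℝ) i) hX).const_smul e⁻¹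
          refine this.congr fun y _ => ?_
          simp [div_eq_inv_mul]
        exact (h2.sub (conicalOn_const (a i : ℝ) hX)) x (mem_univ x)
      have h3 : ConicalOn (fun x : ι → ℝ => hat (fun i => x i / e - (a i : ℝ))) univ :=
        conicalOn_hat.comp h1 (mapsTo_univ _ _) (by fun_prop)
      exact h3.linear_comp (LinearMap.toSpanSingleton ℝ F (D fun i => e * (a i : ℝ)))
  exact h0.congr fun x _ => itp_eq_sum he hs x

end Vale.Agent.P073.H196
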