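import Vale.Agent.P073.ConHomeo

/-!
# P073 / H196: Kuhn interpolation as an integral

`itp e D x = ∫ θ in 0..1, D (e * ⌈x / e - θ⌉)`: the piecewise affine interpolation of `D` at the
lattice `e ℤ^n` for the Kuhn (Freudenthal) triangulation.
-/

open Set Metric Topology Filter MeasureTheory
open scoped Interval

namespace Vale.Agent.P073.H196

variable {ι : Type*} [Fintype ι] {F : Type*} [NormedAddCommGroup F] [NormedSpace ℝ F]

/-- the lattice point `e ⌈x / e - θ⌉` -/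
noncomputable def cv (e : ℝ) (x : ι → ℝ) (θ : ℝ) : ι → ℝ := fun i => e * (⌈x i / e - θ⌉ : ℝ)

/-- Kuhn interpolation -/
noncomputable def itp (e : ℝ) (D : (ι → ℝ) → F) (x : ι → ℝ) : F :=
  ∫ θ in (0:ℝ)..1, D (cv e x θ)

theorem measurable_ceil_sub (a : ℝ) : Measurable fun θ : ℝ => (⌈a - θ⌉ : ℤ) :=
  Int.measurable_ceil.comp (measurable_const.sub measurable_id)

theorem ceil_bound (a θ : ℝ) : a - θ ≤ ⌈a - θ⌉ ∧ (⌈a - θ⌉ : ℝ) < a - θ + 1 :=
  ⟨Int.le_ceil _, Int.ceil_lt_add_one _⟩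

theorem ceil_intervalIntegrable (a : ℝ) :
    IntervalIntegrable (fun θ : ℝ => ((⌈a - θ⌉ : ℤ) : ℝ)) volume 0 1 := by
  rw [intervalIntegrable_iff]
  refine Measure.integrableOn_of_bounded (M := |a| + 2) (by simp) ?_ ?_
  · exact (measurable_from_top.comp (measurable_ceil_sub a)).aestronglyMeasurable
  · refine (ae_restrict_mem measurableSet_uIoc).mono fun θ hθ => ?_
    rw [uIoc_of_le zero_le_one] at hθ
    obtain ⟨h1, h2⟩ := ceil_bound a θ
    have := neg_abs_le a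
    have := le_abs_self a
    rw [Real.norm_eq_abs, abs_le]
    constructor <;> linarith [hθ.1, hθ.2]

/-- the average of `⌈a - θ⌉` is `a` -/
theorem integral_ceil (a : ℝ) : ∫ θ in (0:ℝ)..1, ((⌈a - θ⌉ : ℤ) : ℝ) = a := by
  set s : ℝ := a - ⌈a⌉ + 1 with hs
  have s0 : 0 < s := by linarith [Int.ceil_lt_add_one a]
  have s1 : s ≤ 1 := by linarith [Int.le_ceil a]
  have h0 := ceil_intervalIntegrable a
  have i1 : IntervalIntegrable (fun θ : ℝ => ((⌈a - θ⌉ : ℤ) : ℝ)) volume 0 s :=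
    h0.mono_set (by rw [uIcc_of_le s0.le, uIcc_of_le zero_le_one]; exact Icc_subset_Icc_right s1)
  have i2 : IntervalIntegrable (fun θ : ℝ => ((⌈a - θ⌉ : ℤ) : ℝ)) volume s 1 :=
    h0.mono_set (by rw [uIcc_of_le s1, uIcc_of_le zero_le_one]; exact Icc_subset_Icc_left s0.le)
  rw [← intervalIntegral.integral_add_adjacent_intervals i1 i2]
  have e1 : ∫ θ in (0:ℝ)..s, ((⌈a - θ⌉ : ℤ) : ℝ) = ∫ θ in (0:ℝ)..s, ((⌈a⌉ : ℤ) : ℝ) := by
    refine intervalIntegral.integral_congr_ae ?_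
    have : ∀ᵐ θ : ℝ, θ ≠ s := by simp [ae_iff, measure_singleton]
    filter_upwards [this] with θ hne hθ
    rw [uIoc_of_le s0.le] at hθ
    have : ⌈a - θ⌉ = ⌈a⌉ := by
      rw [Int.ceil_eq_iff]
      have h3 : θ < s := lt_of_le_of_ne hθ.2 hne
      constructor
      · linarith
      · linarith [hθ.1, Int.le_ceil a]
    rw [this]
  have e2 : ∫ θ in s..(1:ℝ), ((⌈a - θ⌉ : ℤ) : ℝ) = ∫ θ in s..(1:ℝ), (((⌈a⌉ - 1 : ℤ)) : ℝ) := by
    refine intervalIntegral.integral_congr_ae ?_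
    refine Eventually.of_forall fun θ hθ => ?_
    rw [uIoc_of_le s1] at hθ
    have : ⌈a - θ⌉ = ⌈a⌉ - 1 := by
      rw [Int.ceil_eq_iff]
      push_cast
      constructor
      · linarith [hθ.2, Int.ceil_lt_add_one a]
      · linarith [hθ.1]
    rw [this]
  rw [e1, e2, intervalIntegral.integral_const, intervalIntegral.integral_const]
  push_cast
  simp only [smul_eq_mul, hs]
  ring

theorem integral_abs_ceil_sub (a b : ℝ) :
    ∫ θ in (0:ℝ)..1, |((⌈a - θ⌉ : ℤ) : ℝ) - ((⌈b - θ⌉ : ℤ) : ℝ)| = |a - b| := by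
  wlog hab : a ≤ b generalizing a b
  · rw [abs_sub_comm a b, ← this b a (le_of_not_ge hab)]
    refine intervalIntegral.integral_congr fun θ _ => ?_
    exact abs_sub_comm _ _
  have h1 : ∀ θ : ℝ, |((⌈a - θ⌉ : ℤ) : ℝ) - ((⌈b - θ⌉ : ℤ) : ℝ)| =
      ((⌈b - θ⌉ : ℤ) : ℝ) - ((⌈a - θ⌉ : ℤ) : ℝ) := by
    intro θ
    have : (⌈a - θ⌉ : ℤ) ≤ ⌈b - θ⌉ := Int.ceil_le_ceil (by linarith)
    rw [abs_of_nonpos (by
      have : ((⌈a - θ⌉ : ℤ) : ℝ) ≤ ((⌈b - θ⌉ : ℤ) : ℝ) := by exact_mod_cast this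
      linarith)]
    ring
  simp only [h1]
  rw [intervalIntegral.integral_sub (ceil_intervalIntegrable b) (ceil_intervalIntegrable a),
    integral_ceil, integral_ceil, abs_of_nonpos (by linarith)]
  ring

omit [Fintype ι] in
theorem cv_apply_sub {e : ℝ} (he : 0 < e) (x : ι → ℝ) {θ : ℝ} (hθ : θ ∈ Icc (0:ℝ) 1) (i : ι) :
    |cv e x θ i - x i| ≤ e := by
  obtain ⟨h1, h2⟩ := ceil_bound (x i / e) θ
  have e1 : e * (x i / e) = x i := by field_simp
  have h3 : e * (x i / e - θ) ≤ e * ⌈x i / e - θ⌉ := by gcongr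
  have h4 : e * ⌈x i / e - θ⌉ ≤ e * (x i / e - θ + 1) := by gcongr
  rw [abs_le]
  have h5 : e * θ ≤ e := by nlinarith [hθ.2]
  have h6 : 0 ≤ e * θ := mul_nonneg he.le hθ.1
  show -e ≤ e * ((⌈x i / e - θ⌉ : ℤ) : ℝ) - x i ∧ e * ((⌈x i / e - θ⌉ : ℤ) : ℝ) - x i ≤ e
  constructor <;> nlinarith

theorem dist_cv {e : ℝ} (he : 0 < e) (x : ι → ℝ) {θ : ℝ} (hθ : θ ∈ Icc (0:ℝ) 1) :
    dist (cv e x θ) x ≤ e := by
  rw [dist_pi_le_iff he.le]
  intro i
  rw [Real.dist_eq]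
  exact cv_apply_sub he x hθ i

omit [NormedSpace ℝ F] in
theorem stronglyMeasurable_cv (e : ℝ) (D : (ι → ℝ) → F) (x : ι → ℝ) :
    StronglyMeasurable fun θ => D (cv e x θ) := by
  have h1 : Measurable fun θ : ℝ => (fun i => (⌈x i / e - θ⌉ : ℤ) : ι → ℤ) :=
    measurable_pi_lambda _ fun i => measurable_ceil_sub _
  have h2 : StronglyMeasurable fun z : ι → ℤ => D (fun i => e * (z i : ℝ)) :=
    StronglyMeasurable.of_discrete
  exact h2.comp_measurable h1

omit [NormedSpace ℝ F] in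
theorem intervalIntegrable_cv {e : ℝ} (he : 0 < e) {D : (ι → ℝ) → F} (hD : Continuous D)
    (x : ι → ℝ) : IntervalIntegrable (fun θ => D (cv e x θ)) volume 0 1 := by
  obtain ⟨C, hC⟩ := (isCompact_closedBall x e).exists_bound_of_continuousOn hD.continuousOn
  rw [intervalIntegrable_iff]
  refine Measure.integrableOn_of_bounded (M := C) (by simp) ?_ ?_
  · exact (stronglyMeasurable_cv e D x).aestronglyMeasurable
  · refine (ae_restrict_mem measurableSet_uIoc).mono fun θ hθ => ?_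
    rw [uIoc_of_le zero_le_one] at hθ
    exact hC _ (dist_cv he x ⟨hθ.1.le, hθ.2⟩)

theorem itp_congr {e : ℝ} (he : 0 < e) {D D' : (ι → ℝ) → F} {x : ι → ℝ}
    (h : ∀ y, dist y x ≤ e → D y = D' y) : itp e D x = itp e D' x := by
  refine intervalIntegral.integral_congr fun θ hθ => ?_
  rw [uIcc_of_le zero_le_one] at hθ
  exact h _ (dist_cv he x hθ)

theorem itp_sub {e : ℝ} (he : 0 < e) {D D' : (ι → ℝ) → F} (hD : Continuous D)
    (hD' : Continuous D') (x : ι → ℝ) :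
    itp e (fun y => D y - D' y) x = itp e D x - itp e D' x :=
  intervalIntegral.integral_sub (intervalIntegrable_cv he hD x) (intervalIntegrable_cv he hD' x)

variable [CompleteSpace F]

omit [Fintype ι] in
theorem itp_const (e : ℝ) (c : F) (x : ι → ℝ) : itp e (fun _ => c) x = c := by
  simp [itp]

theorem itp_id {e : ℝ} (he : 0 < e) (x : ι → ℝ) : itp e (fun y => y) x = x := by
  ext i
  have h := (ContinuousLinearMap.proj (R := ℝ) (φ := fun _ : ι => ℝ) i).intervalIntegral_comp_comm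
    (intervalIntegrable_cv he continuous_id x)
  have h1 : itp e (fun y => y) x i = ∫ θ in (0:ℝ)..1, cv e x θ i := by
    simpa [itp] using h.symm
  rw [h1]
  simp only [cv]
  rw [intervalIntegral.integral_const_mul, integral_ceil]
  field_simp

theorem itp_linear {e : ℝ} (he : 0 < e) (L : (ι → ℝ) →L[ℝ] F) (x : ι → ℝ) :
    itp e (fun y => L y) x = L x := by
  have h := L.intervalIntegral_comp_comm (intervalIntegrable_cv he continuous_id x)
  have h2 := itp_id he x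
  simp only [itp, id] at h h2 ⊢
  rw [h, h2]

theorem itp_affine {e : ℝ} (he : 0 < e) (L : (ι → ℝ) →L[ℝ] F) (c : F) (x : ι → ℝ) :
    itp e (fun y => L y + c) x = L x + c := by
  have h := intervalIntegral.integral_add (intervalIntegrable_cv he L.continuous x)
    (intervalIntegrable_cv he (continuous_const (y := c)) x)
  have h1 := itp_linear he L x
  have h2 := itp_const e c x
  simp only [itp] at h h1 h2 ⊢
  rw [h, h1, h2]

theorem norm_itp_sub_le {e : ℝ} (he : 0 < e) {D : (ι → ℝ) → F} (hD : Continuous D) {x : ι → ℝ}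
    {c : F} {r : ℝ} (h : ∀ y, dist y x ≤ e → ‖D y - c‖ ≤ r) : ‖itp e D x - c‖ ≤ r := by
  have h1 : itp e D x - c = itp e (fun y => D y - c) x := by
    rw [itp_sub he hD continuous_const, itp_const]
  rw [h1]
  have := intervalIntegral.norm_integral_le_of_norm_le_const (a := (0:ℝ)) (b := 1)
    (f := fun θ => D (cv e x θ) - c) (C := r) (fun θ hθ => by
      rw [uIoc_of_le zero_le_one] at hθ
      exact h _ (dist_cv he x ⟨hθ.1.le, hθ.2⟩))
  simpa [itp] using this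

omit [CompleteSpace F] in
/-- the Lipschitz estimate: the constant grows at most by the factor `card ι` -/
theorem norm_itp_sub_itp_le {e : ℝ} (he : 0 < e) {D : (ι → ℝ) → F} (hD : Continuous D)
    {x y : ι → ℝ} {S : Set (ι → ℝ)} {K : ℝ} (hK : 0 ≤ K)
    (hS : ∀ z ∈ S, ∀ w ∈ S, ‖D z - D w‖ ≤ K * ‖z - w‖)
    (hx : closedBall x e ⊆ S) (hy : closedBall y e ⊆ S) :
    ‖itp e D x - itp e D y‖ ≤ K * (Fintype.card ι * ‖x - y‖) := by
  have h1 : itp e D x - itp e D y = ∫ θ in (0:ℝ)..1, (D (cv e x θ) - D (cv e y θ)) :=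
    (intervalIntegral.integral_sub (intervalIntegrable_cv he hD x)
      (intervalIntegrable_cv he hD y)).symm
  rw [h1]
  have hint : IntervalIntegrable (fun θ : ℝ => ∑ i, K * (e * |((⌈x i / e - θ⌉ : ℤ) : ℝ) -
      ((⌈y i / e - θ⌉ : ℤ) : ℝ)|)) volume 0 1 := by
    have : ∀ i : ι, IntervalIntegrable (fun θ : ℝ => K * (e * |((⌈x i / e - θ⌉ : ℤ) : ℝ) -
      ((⌈y i / e - θ⌉ : ℤ) : ℝ)|)) volume 0 1 := fun i =>
      ((((ceil_intervalIntegrable _).sub (ceil_intervalIntegrable _)).abs).const_mul e).const_mul K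
    have h := IntervalIntegrable.sum Finset.univ (fun i (_ : i ∈ Finset.univ) => this i)
    have e0 : (fun θ : ℝ => ∑ i, K * (e * |((⌈x i / e - θ⌉ : ℤ) : ℝ) -
      ((⌈y i / e - θ⌉ : ℤ) : ℝ)|)) = ∑ i, fun θ : ℝ => K * (e * |((⌈x i / e - θ⌉ : ℤ) : ℝ) -
      ((⌈y i / e - θ⌉ : ℤ) : ℝ)|) := by
      funext θ
      simp [Finset.sum_apply]
    rw [e0]
    exact h
  have h2 : ‖∫ θ in (0:ℝ)..1, (D (cv e x θ) - D (cv e y θ))‖ ≤
      ∫ θ in (0:ℝ)..1, ∑ i, K * (e * |((⌈x i / e - θ⌉ : ℤ) : ℝ) - ((⌈y i / e - θ⌉ : ℤ) : ℝ)|) := by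
    refine intervalIntegral.norm_integral_le_of_norm_le zero_le_one ?_ hint
    refine Eventually.of_forall fun θ hθ => ?_
    have hθ' : θ ∈ Icc (0:ℝ) 1 := ⟨hθ.1.le, hθ.2⟩
    have h3 := hS _ (hx (dist_cv he x hθ')) _ (hy (dist_cv he y hθ'))
    refine h3.trans ?_
    rw [← Finset.mul_sum]
    refine mul_le_mul_of_nonneg_left ?_ hK
    rw [pi_norm_le_iff_of_nonneg (Finset.sum_nonneg fun i _ => by positivity)]
    intro i
    have h4 : ‖(cv e x θ - cv e y θ) i‖ =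
        e * |((⌈x i / e - θ⌉ : ℤ) : ℝ) - ((⌈y i / e - θ⌉ : ℤ) : ℝ)| := by
      rw [Pi.sub_apply, Real.norm_eq_abs]
      simp only [cv]
      rw [← mul_sub, abs_mul, abs_of_pos he]
    rw [h4]
    exact Finset.single_le_sum (f := fun i => e * |((⌈x i / e - θ⌉ : ℤ) : ℝ) -
      ((⌈y i / e - θ⌉ : ℤ) : ℝ)|) (fun i _ => by positivity) (Finset.mem_univ i)
  refine h2.trans ?_
  rw [intervalIntegral.integral_finsetSum (fun i _ =>
    ((((ceil_intervalIntegrable _).sub (ceil_intervalIntegrable _)).abs).const_mul e).const_mul K)]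
  have h5 : ∀ i : ι, ∫ θ in (0:ℝ)..1, K * (e * |((⌈x i / e - θ⌉ : ℤ) : ℝ) -
      ((⌈y i / e - θ⌉ : ℤ) : ℝ)|) = K * |x i - y i| := by
    intro i
    rw [intervalIntegral.integral_const_mul, intervalIntegral.integral_const_mul,
      integral_abs_ceil_sub, ← sub_div, abs_div, abs_of_pos he]
    field_simp
  simp only [h5]
  rw [← Finset.mul_sum]
  refine mul_le_mul_of_nonneg_left ?_ hK
  calc ∑ i, |x i - y i| ≤ ∑ _i : ι, ‖x - y‖ :=
        Finset.sum_le_sum fun i _ => norm_le_pi_norm (x - y) i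
    _ = Fintype.card ι * ‖x - y‖ := by simp

end Vale.Agent.P073.H196
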