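import Vale.Agent.P073.H196.Croft3

/-!
# P073, block A06-CROFT (4): positions of the levels

Given a finite set `B` of values (vertex values of the passive faces, ...), for all small `δ` there
is a bi-infinite sequence of gap centres `c k`, containing `B`, with distances in `[δ, 2δ]`, and a
sequence of levels `a k ∈ θ + ℚ` almost in the middle of the gap centres.
-/

open Set Metric Topology MeasureTheory Filter

namespace P073.Croft

/-- gap centres through a finite set: auxiliary form -/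
theorem exists_centres_aux (B : Finset ℝ) : ∀ b0 : ℝ, (∀ b ∈ B, b < b0) →
    ∃ δ₁ > 0, ∀ δ, 0 < δ → δ ≤ δ₁ → ∃ c : ℤ → ℝ, (∀ k, δ ≤ c (k + 1) - c k) ∧
      (∀ k, c (k + 1) - c k ≤ 2 * δ) ∧ (∀ b ∈ B, b ∈ range c) ∧
      ∀ k : ℤ, 0 ≤ k → c k = b0 + k * δ := by
  induction B using Finset.induction_on_max with
  | empty =>
    intro b0 _
    refine ⟨1, one_pos, fun δ hδ _ => ⟨fun k => b0 + k * δ, fun k => ?_, fun k => ?_, by simp,
      fun k _ => rfl⟩⟩
    · push_cast; linarith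
    · push_cast; linarith
  | insert b B hb ih =>
    intro b0 hb0
    have hbb0 : b < b0 := hb0 b (Finset.mem_insert_self _ _)
    obtain ⟨δ₁, hδ₁, H⟩ := ih b hb
    refine ⟨min δ₁ (b0 - b), lt_min hδ₁ (by linarith), fun δ hδ hδ1 => ?_⟩
    obtain ⟨c, h1, h2, h3, h4⟩ := H δ hδ (hδ1.trans (min_le_left _ _))
    have hδ2 : δ ≤ b0 - b := hδ1.trans (min_le_right _ _)
    set ℓ := b0 - b with hℓ
    set N : ℕ := ⌊ℓ / δ⌋₊ with hN
    have hN1 : 1 ≤ N := by
      rw [hN, Nat.one_le_floor_iff, one_le_div hδ]; exact hδ2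
    have hN0 : (0:ℝ) < N := by exact_mod_cast hN1
    have hup : (N:ℝ) * δ ≤ ℓ := by
      have := Nat.floor_le (div_nonneg (hδ.le.trans hδ2) hδ.le)
      rw [← hN, le_div_iff₀ hδ] at this
      exact this
    have hlo : ℓ < (N + 1) * δ := by
      have := Nat.lt_floor_add_one (ℓ / δ)
      rw [← hN, div_lt_iff₀ hδ] at this
      exact this
    have hs1 : δ ≤ ℓ / N := by rw [le_div_iff₀ hN0]; linarith
    have hs2 : ℓ / N ≤ 2 * δ := by
      rw [div_le_iff₀ hN0]
      have : (1:ℝ) ≤ N := by exact_mod_cast hN1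
      nlinarith
    have hc0 : c 0 = b := by
      have := h4 0 le_rfl
      simpa using this
    set c' : ℤ → ℝ := fun k => if k ≤ -(N:ℤ) then c (k + N) else
      if k ≤ 0 then b0 + k * (ℓ / N) else b0 + k * δ with hc'
    have v1 : ∀ k : ℤ, k ≤ -(N:ℤ) → c' k = c (k + N) := fun k hk => by
      simp only [hc', if_pos hk]
    have v2 : ∀ k : ℤ, -(N:ℤ) ≤ k → k ≤ 0 → c' k = b0 + k * (ℓ / N) := fun k hk hk0 => by
      rcases hk.eq_or_lt with h | h
      · rw [v1 k h.symm.le, ← h, neg_add_cancel, hc0]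
        push_cast
        field_simp
        linarith
      · simp only [hc', if_neg (not_le.2 h), if_pos hk0]
    have v3 : ∀ k : ℤ, 0 ≤ k → c' k = b0 + k * δ := fun k hk => by
      rcases hk.eq_or_lt with h | h
      · rw [← h, v2 0 (by omega) le_rfl]; simp
      · have e1 : ¬ k ≤ -(N:ℤ) := by omega
        have e2 : ¬ k ≤ 0 := by omega
        simp only [hc', if_neg e1, if_neg e2]
    have hgap : ∀ k, δ ≤ c' (k + 1) - c' k ∧ c' (k + 1) - c' k ≤ 2 * δ := by
      intro k
      rcases lt_trichotomy k (-(N:ℤ)) with h | h | h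
      · rw [v1 k h.le, v1 (k + 1) (by omega), add_right_comm]
        exact ⟨h1 _, h2 _⟩
      · have hk : -(N:ℤ) ≤ k := h.ge
        have e : c' (k + 1) - c' k = ℓ / N := by
          rw [v2 k hk (by omega), v2 (k + 1) (by omega) (by omega)]
          push_cast; ring
        rw [e]; exact ⟨hs1, hs2⟩
      · rcases lt_or_ge k 0 with h0 | h0
        · have e : c' (k + 1) - c' k = ℓ / N := by
            rw [v2 k (by omega) (by omega), v2 (k + 1) (by omega) (by omega)]
            push_cast; ring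
          rw [e]; exact ⟨hs1, hs2⟩
        · have e : c' (k + 1) - c' k = δ := by
            rw [v3 k h0, v3 (k + 1) (by omega)]
            push_cast; ring
          rw [e]; constructor <;> linarith
    refine ⟨c', fun k => (hgap k).1, fun k => (hgap k).2, ?_, v3⟩
    intro b' hb'
    rcases Finset.mem_insert.1 hb' with h | h
    · refine ⟨-(N:ℤ), ?_⟩
      rw [v1 _ le_rfl, neg_add_cancel, hc0, h]
    · obtain ⟨k, hk⟩ := h3 b' h
      have hbk : b' < b := hb b' h
      have hk0 : k ≤ 0 := by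
        by_contra hcon
        have := h4 k (by omega)
        rw [hk] at this
        have hk' : (0:ℝ) ≤ k := by
          have : (0:ℤ) ≤ k := by omega
          exact_mod_cast this
        nlinarith
      refine ⟨k - N, ?_⟩
      rw [v1 _ (by omega), sub_add_cancel, hk]

/-- **(C4)** positions of the gap centres and of the levels -/
theorem exists_levels (B : Finset ℝ) (θ : ℝ) {η : ℝ} (hη : 0 < η) (hη' : η < 1 / 2) :
    ∃ δ₁ > 0, ∀ δ, 0 < δ → δ ≤ δ₁ → ∃ c a : ℤ → ℝ, StrictMono c ∧ StrictMono a ∧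
      (∀ k, δ ≤ c (k + 1) - c k) ∧ (∀ k, c (k + 1) - c k ≤ 2 * δ) ∧
      (∀ b ∈ B, ∃ k, c k = b) ∧ (∀ k, c k < a k) ∧ (∀ k, a k < c (k + 1)) ∧
      (∀ k, |a k - (c k + c (k + 1)) / 2| < η * δ) ∧ (∀ k, ∃ r : ℚ, a k = θ + r) ∧
      SepL ((1 - 2 * η) * δ) (range a) ∧ Disjoint (range a) (B : Set ℝ) := by
  obtain ⟨b0, hb0⟩ : ∃ b0 : ℝ, ∀ b ∈ B, b < b0 := by
    obtain ⟨M, hM⟩ := B.bddAbove
    exact ⟨M + 1, fun b hb => by linarith [hM (Finset.mem_coe.2 hb)]⟩
  obtain ⟨δ₁, hδ₁, H⟩ := exists_centres_aux B b0 hb0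
  refine ⟨δ₁, hδ₁, fun δ hδ hδ1 => ?_⟩
  obtain ⟨c, h1, h2, h3, -⟩ := H δ hδ hδ1
  have hcm : StrictMono c := strictMono_int_of_lt_succ fun k => by linarith [h1 k]
  have hηδ : 0 < η * δ := mul_pos hη hδ
  have hηδ' : η * δ < δ / 2 := by nlinarith
  have hr : ∀ k, ∃ r : ℚ, (c k + c (k + 1)) / 2 - θ - η * δ < r ∧
      (r : ℝ) < (c k + c (k + 1)) / 2 - θ + η * δ := fun k =>
    exists_rat_btwn (by linarith)
  choose r hr1 hr2 using hr
  set a : ℤ → ℝ := fun k => θ + r k with ha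
  have habs : ∀ k, |a k - (c k + c (k + 1)) / 2| < η * δ := by
    intro k
    rw [abs_lt]
    constructor <;> simp only [ha] <;> linarith [hr1 k, hr2 k]
  have hlt1 : ∀ k, c k < a k := fun k => by
    have := (abs_lt.1 (habs k)).1
    have := h1 k
    linarith
  have hlt2 : ∀ k, a k < c (k + 1) := fun k => by
    have := (abs_lt.1 (habs k)).2
    have := h1 k
    linarith
  have hstep : ∀ k, (1 - 2 * η) * δ ≤ a (k + 1) - a k := fun k => by
    have e1 := (abs_lt.1 (habs (k + 1))).1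
    have e2 := (abs_lt.1 (habs k)).2
    have e3 := h1 k
    have e4 := h1 (k + 1)
    linarith
  have ham : StrictMono a := strictMono_int_of_lt_succ fun k => (hlt2 k).trans (hlt1 (k + 1))
  refine ⟨c, a, hcm, ham, h1, h2, fun b hb => h3 b hb, hlt1, hlt2, habs,
    fun k => ⟨r k, rfl⟩, ?_, ?_⟩
  · rintro _ ⟨k, rfl⟩ _ ⟨l, rfl⟩ hkl
    have hkl' : k < l := ham.lt_iff_lt.1 hkl
    have := ham.monotone (show k + 1 ≤ l by omega)
    linarith [hstep k]
  · rw [Set.disjoint_left]
    rintro _ ⟨k, rfl⟩ hb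
    obtain ⟨l, hl⟩ := h3 _ (Finset.mem_coe.1 hb)
    have e1 := hlt1 k
    have e2 := hlt2 k
    rw [← hl] at e1 e2
    have e3 := hcm.lt_iff_lt.1 e1
    have e4 := hcm.lt_iff_lt.1 e2
    omega

end P073.Croft
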