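import Vale.Agent.P073.H236.SA1
import Vale.Agent.P073.H345.QT

/-!
# P073, H196, **[LIP-H1]**, definitions: the local structure of the inserted map on a given cell

`LP`: what is known on a pair `x, y` of nearby points of a given cell. `LPs`: this for all points
`x` with `h x ∈ TB false b` and all `y` near `x`.
-/

open Set Metric Topology Filter

namespace P073.H196

open _root_.P073 _root_.P073.Net _root_.P073.PA691 _root_.P073.H579 _root_.P073.H236
open _root_.P073.PR720 (LF)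
open _root_.P073.H345 (mu)
open Vale.Agent.P073.St (V)
open Vale.Agent.P073.H471 Vale.Agent.P073.H267 Vale.Agent.P073.H267.Geo
open Vale.Agent.P073.H73 (Mesh)
open Vale.Agent.P073.H193 (Edges)
open Vale.Agent.P073.H669 (TLv)

variable {Ω Λ : Set V} {v : V} {K : BoxCx Λ v} {S₀ : Rad K} {Wd : Wid K S₀} {B : Boxes Wd}
  {G : Geo B} {M : Mesh Ω} {E : Edges M} {h : ConHomeo Ω Λ} {ω : TBx K → ℝ}
  {T : TBx K → Finset (ℝ × ℝ)} {η : ℝ} {τ : Type*} {A : τ → Set V} {C : Set ℝ} {εE : E.ε → ℝ}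
  {δ : TBx K → ℝ}

/-- the coordinates `t`, `t'` are in the same gap between the thin flats -/
def SameGap (L : TLv G E h ω T η A C εE δ) (c : TBx K → ℝ) (b : TBx K) (t t' : ℝ) : Prop :=
  ∀ k < L.N b, (t ≤ L.a b k - c b ∧ t' ≤ L.a b k - c b) ∨ (L.a b k + c b ≤ t ∧ L.a b k + c b ≤ t')

/-- laterally off `rtK 19` -/
def Off19 (G : Geo B) (ω : TBx K → ℝ) (b : TBx K) (y : V) : Prop :=
  ∃ i, i ≠ b.ax ∧ (y i ≤ G.tlo true b i - 19 * ω b ∨ G.thi true b i + 19 * ω b ≤ y i)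

/-- **the pair `x`, `y` of points of a given cell, near the box `b`.** `g`: the inserted map, `w`:
half width of the charts; `L₁`, `L₂`: fixed before `δ`; `ξ`: small -/
inductive LP (L : TLv G E h ω T η A C εE δ) (c : TBx K → ℝ) (κ g : V → V) (b : TBx K)
    (w L₁ L₂ ξ : ℝ) (x y : V) : Prop
  /-- nothing changes -/
  | off (h1 : g x = h.toFun x) (h2 : g y = h.toFun y) (h3 : κ (h.toFun x) = h.toFun x)
      (h4 : κ (h.toFun y) = h.toFun y) : LP L c κ g b w L₁ L₂ ξ x y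
  /-- both points in the flat of the level `m`; `z`, `z'`: their feet -/
  | flat (m : ℕ) (hm : m < L.N b) (z z' : V) (s s' : ℝ)
      (h1 : h.toFun x b.ax = L.a b m + w * s) (h2 : h.toFun y b.ax = L.a b m + w * s')
      (h3 : |s| ≤ 1 / 2) (h4 : |s'| ≤ 1 / 2)
      (h5 : g x = Function.update z b.ax (L.a b m + 2 * c b * s))
      (h6 : g y = Function.update z' b.ax (L.a b m + 2 * c b * s'))
      (h7 : ‖z - z'‖ ≤ L₁ * ‖x - y‖)
      (h8 : g x ∈ rtK G ω b 50) (h9 : g y ∈ rtK G ω b 50) : LP L c κ g b w L₁ L₂ ξ x y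
  /-- both points on the same side of a flat, the maps of STAGE 1 are equal to `h` there -/
  | side (h1 : |g x b.ax - g y b.ax| ≤ 2 * |h.toFun x b.ax - h.toFun y b.ax| + ξ * ‖x - y‖)
      (h2 : ‖g x - g y‖ ≤ L₂ * ‖x - y‖)
      (h3 : SameGap L c b (g x b.ax) (g y b.ax) ∨ (Off19 G ω b (g x) ∧ Off19 G ω b (g y)))
      (h8 : g x ∈ rtK G ω b 50) (h9 : g y ∈ rtK G ω b 50) : LP L c κ g b w L₁ L₂ ξ x y
  /-- both points between two levels, in the full zone of the staircase -/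
  | mid (h1 : g x ∈ rtK G ω b 12) (h2 : g y ∈ rtK G ω b 12)
      (h3 : g x b.ax = g y b.ax ∨ ∃ m, m + 1 < L.N b ∧
        (L.a b m + c b ≤ g x b.ax ∧ g x b.ax ≤ L.a b (m + 1) - c b) ∧
        (L.a b m + c b ≤ g y b.ax ∧ g y b.ax ≤ L.a b (m + 1) - c b)) : LP L c κ g b w L₁ L₂ ξ x y
  /-- both points in the flat of the level `m`, in the full zone of the staircase (no hypothesis
  on the other coordinates: cells on which STAGE 1 changes the map) -/
  | flat12 (m : ℕ) (hm : m < L.N b) (s s' : ℝ)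
      (h1 : h.toFun x b.ax = L.a b m + w * s) (h2 : h.toFun y b.ax = L.a b m + w * s')
      (h3 : |s| ≤ 1 / 2) (h4 : |s'| ≤ 1 / 2)
      (h5 : g x b.ax = L.a b m + 2 * c b * s) (h6 : g y b.ax = L.a b m + 2 * c b * s')
      (h8 : g x ∈ rtK G ω b 12) (h9 : g y ∈ rtK G ω b 12) : LP L c κ g b w L₁ L₂ ξ x y

/-- **the local structure of the inserted map on the given cell `Q`** -/
def LPs (L : TLv G E h ω T η A C εE δ) (c : TBx K → ℝ) (κ g : V → V) (Q : Set V) (b : TBx K)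
    (w L₁ L₂ ξ : ℝ) (x : V) : Prop :=
  ∀ᶠ y in 𝓝[Q] x, LP L c κ g b w L₁ L₂ ξ x y

end P073.H196
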