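import Vale.Agent.P073.H196.PFix

/-!
# P073, H196, PCELL: the staircase `sm` satisfies `LvLip`; the map of a box on protected cells
-/

open Set Metric Topology Filter

namespace P073.H196

open P073 P073.H236 P073.H579

section
variable {N : ℕ} {al be c : ℝ} {a T T' : ℕ → ℝ}

/-- **global decomposition of a staircase** with flats `[a k - c, a k + c]` -/
theorem abs_stair_le_fl (h : Arr N al be (fun k => a k - c) (fun k => a k + c))
    (h' : Arr N al be T T') {W B : ℝ} (hB : 1 ≤ B) (hWk : ∀ k < N, (T' k - T k) ≤ W * (2 * c))
    (h0 : T 0 - al ≤ B * (a 0 - c - al))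
    (hgap : ∀ k, k + 1 < N → T (k + 1) - T' k ≤ B * (a (k + 1) - c - (a k + c)))
    (h3 : be - T' (N - 1) ≤ B * (be - (a (N - 1) + c))) (s t : ℝ) :
    |stair N al be (fun k => a k - c) (fun k => a k + c) T T' s -
      stair N al be (fun k => a k - c) (fun k => a k + c) T T' t| ≤
      W * ∑ k ∈ Finset.range N, |fl c (a k) s - fl c (a k) t| + B * |s - t| := by
  classical
  have hN := h.pos
  set lo : ℕ → ℝ := fun k => a k - c with hlo
  set hi : ℕ → ℝ := fun k => a k + c with hhi
  have hc : 0 < c := by have := h.lt 0 hN; simp only [hlo, hhi] at this; linarith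
  have habe : al ≤ be := by
    have h1 := h.inc.mono (Nat.zero_le (2 * N + 1)) le_rfl
    rwa [bp_zero, bp_last] at h1
  have alo : ∀ k < N, al ≤ lo k ∧ hi k ≤ be := by
    intro k hk
    have h1 := h.inc.mono (Nat.zero_le (2 * k + 1)) (by omega)
    have h2 := h.inc.mono (by omega : 2 * k + 2 ≤ 2 * N + 1) le_rfl
    rw [bp_zero, bp_odd hk] at h1
    rw [bp_last, bp_even hk] at h2
    exact ⟨h1, h2⟩
  -- the case of two points of `[al, be]`
  set J : Finset ℕ := (Finset.range N).image fun k => 2 * k + 1 with hJ
  have hJg : ∀ j < 2 * N + 1, j ∉ J → slp (bp N al be lo hi) (bp N al be T T') j ≤ B := by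
    refine piece_cases (P := fun j => j ∉ J → slp (bp N al be lo hi) (bp N al be T T') j ≤ B)
      hN ?_ ?_ ?_ ?_
    · intro _
      rw [slp_first hN, div_le_iff₀ (by have := h.first; linarith)]
      exact h0
    · intro k hk h1
      refine absurd ?_ h1
      simp only [hJ, Finset.mem_image, Finset.mem_range]
      exact ⟨k, hk, rfl⟩
    · intro k hk _
      rw [slp_even hk, div_le_iff₀ (by have := h.gap k hk; linarith)]
      exact hgap k hk
    · intro _
      rw [slp_last hN, div_le_iff₀ (by have := h.last; linarith)]
      exact h3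
  have main : ∀ s ∈ Icc al be, ∀ t ∈ Icc al be, |stair N al be lo hi T T' s -
      stair N al be lo hi T T' t| ≤
      W * ∑ k ∈ Finset.range N, |fl c (a k) s - fl c (a k) t| + B * |s - t| := by
    intro s hs t ht
    have hx0 : bp N al be lo hi 0 = al := bp_zero
    have hxn : bp N al be lo hi (2 * N + 1) = be := bp_last
    have key := abs_pl_sub_le_sum h.inc (fun j hj => (h'.inc j hj).le) J (by linarith : 0 ≤ B) hJg
      (s := s) (t := t) (by rw [hx0, hxn]; exact hs) (by rw [hx0, hxn]; exact ht)
    refine key.trans (add_le_add_left ?_ _)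
    have e1 : (Finset.range (2 * N + 1)).filter (fun j => j ∈ J) = J := by
      ext j
      simp only [hJ, Finset.mem_filter, Finset.mem_range, Finset.mem_image]
      constructor
      · exact fun h1 => h1.2
      · rintro ⟨k, hk, rfl⟩
        exact ⟨by omega, k, hk, rfl⟩
    rw [e1, hJ, Finset.sum_image (by intro a _ b _ hab; simp only at hab; omega), Finset.mul_sum]
    refine Finset.sum_le_sum fun k hk => ?_
    rw [Finset.mem_range] at hk
    have e : 2 * k + 1 + 1 = 2 * k + 2 := by omega
    rw [slp_odd hk, e, bp_odd hk, bp_even hk, fl_eq_clam, fl_eq_clam]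
    refine mul_le_mul_of_nonneg_right ?_ (abs_nonneg _)
    have e2 : hi k - lo k = 2 * c := by simp only [hlo, hhi]; ring
    rw [e2, div_le_iff₀ (by linarith)]
    exact hWk k hk
  -- projection to `[al, be]`
  set q : ℝ → ℝ := fun t => max al (min be t) with hq
  have hqm : ∀ t, q t ∈ Icc al be := fun t =>
    ⟨le_max_left _ _, max_le habe (min_le_left _ _)⟩
  have hqs : ∀ t, stair N al be lo hi T T' t = stair N al be lo hi T T' (q t) + (t - q t) := by
    intro t
    rcases le_total t al with h1 | h1
    · have : q t = al := by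
        simp only [hq]; rw [min_eq_right (h1.trans habe), max_eq_left h1]
      rw [this, stair_of_le h h1, stair_of_le h le_rfl]; ring
    · rcases le_total be t with h2 | h2
      · have : q t = be := by
          simp only [hq]; rw [min_eq_left h2, max_eq_right habe]
        rw [this, stair_of_ge h h2, stair_of_ge h le_rfl]; ring
      · have : q t = t := by
          simp only [hq]; rw [min_eq_right h2, max_eq_right h1]
        rw [this]; ring
  have hqf : ∀ k < N, ∀ t, fl c (a k) (q t) = fl c (a k) t := by
    intro k hk t
    obtain ⟨h1, h2⟩ := alo k hk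
    have h1' : al ≤ a k - c := h1
    have h2' : a k + c ≤ be := h2
    rcases le_total t al with h3 | h3
    · have : q t = al := by
        simp only [hq]; rw [min_eq_right (h3.trans habe), max_eq_left h3]
      rw [this, fl_of_le h1', fl_of_le (h3.trans h1')]
    · rcases le_total be t with h4 | h4
      · have : q t = be := by
          simp only [hq]; rw [min_eq_left h4, max_eq_right habe]
        rw [this, fl_of_ge hc.le h2', fl_of_ge hc.le (h2'.trans h4)]
      · have : q t = t := by
          simp only [hq]; rw [min_eq_right h4, max_eq_right h3]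
        rw [this]
  have hsplit : ∀ s t, |q s - q t| + |(s - q s) - (t - q t)| = |s - t| := by
    intro s t
    wlog hst : t ≤ s generalizing s t
    · have := this t s (le_of_not_ge hst)
      rw [abs_sub_comm (q s), abs_sub_comm (s - q s), abs_sub_comm s]
      exact this
    have a1 : q t ≤ q s := max_le_max le_rfl (min_le_min le_rfl hst)
    have a2 : t - q t ≤ s - q s := by
      simp only [hq]
      rcases le_total t al with h1 | h1
      · rw [min_eq_right (h1.trans habe), max_eq_left h1]
        rcases le_total s al with h2 | h2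
        · rw [min_eq_right (h2.trans habe), max_eq_left h2]; linarith
        · rcases le_total be s with h3 | h3
          · rw [min_eq_left h3, max_eq_right habe]; linarith
          · rw [min_eq_right h3, max_eq_right h2]; linarith
      · rcases le_total be t with h2 | h2
        · rw [min_eq_left h2, max_eq_right habe, min_eq_left (h2.trans hst), max_eq_right habe]
          linarith
        · rw [min_eq_right h2, max_eq_right h1]
          rcases le_total be s with h3 | h3
          · rw [min_eq_left h3, max_eq_right habe]; linarith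
          · rw [min_eq_right h3, max_eq_right (h1.trans hst)]; linarith
    rw [abs_of_nonneg (by linarith), abs_of_nonneg (by linarith), abs_of_nonneg (by linarith)]
    ring
  have key := main (q s) (hqm s) (q t) (hqm t)
  rw [Finset.sum_congr rfl fun k hk => by
    rw [hqf k (Finset.mem_range.1 hk), hqf k (Finset.mem_range.1 hk)]] at key
  have e3 := hsplit s t
  rw [hqs s, hqs t]
  have e4 : stair N al be lo hi T T' (q s) + (s - q s) -
      (stair N al be lo hi T T' (q t) + (t - q t)) =
      (stair N al be lo hi T T' (q s) - stair N al be lo hi T T' (q t)) +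
        ((s - q s) - (t - q t)) := by ring
  rw [e4]
  refine (abs_add_le _ _).trans ?_
  have e5 : |(s - q s) - (t - q t)| ≤ B * |(s - q s) - (t - q t)| := by
    nlinarith [abs_nonneg ((s - q s) - (t - q t))]
  calc _ ≤ (W * ∑ k ∈ Finset.range N, |fl c (a k) s - fl c (a k) t| + B * |q s - q t|) +
        B * |(s - q s) - (t - q t)| := add_le_add key e5
    _ = W * ∑ k ∈ Finset.range N, |fl c (a k) s - fl c (a k) t| +
        B * (|q s - q t| + |(s - q s) - (t - q t)|) := by ring
    _ = _ := by rw [e3]

/-- **the staircase of a box** -/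
theorem lvLip_sm {t₀ om e : ℝ} (hL : Lvs N a c al be) (hT : Tgt N al be t₀ om e) {B : ℝ}
    (hB : 1 ≤ B) (h0 : t₀ + e - al ≤ B * (a 0 - c - al))
    (hgap : ∀ k, k + 1 < N → 2 * e ≤ B * (a (k + 1) - a k - 2 * c))
    (h3 : be - (t₀ + N * om - e) ≤ B * (be - (a (N - 1) + c))) :
    LvLip hL.L c ((om - 2 * e) / (2 * c)) B (sm N a c al be t₀ om e) := by
  have hc := hL.c0
  have hN := hL.pos
  have hcast : ((N - 1 : ℕ) : ℝ) + 1 = N := by
    rw [Nat.cast_sub hN]; simp
  intro s t
  rw [hL.sum_L]
  refine abs_stair_le_fl hL.arr (hT.arr hN) hB (fun k _ => ?_) ?_ (fun k hk => ?_) ?_ s t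
  · rw [div_mul_cancel₀ _ (by linarith)]
    linarith
  · simpa using h0
  · push_cast
    have := hgap k hk
    have e1 : t₀ + ((k:ℝ) + 1) * om + e - (t₀ + (k + 1) * om - e) = 2 * e := by ring
    rw [e1]
    refine this.trans (le_of_eq ?_)
    ring
  · show be - (t₀ + (((N - 1 : ℕ) : ℝ) + 1) * om - e) ≤ _
    rw [hcast]; exact h3

end

end P073.H196
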