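import Vale.Agent.P073.H196.LipDefs
import Vale.Agent.P073.H236.SA3
import Vale.Agent.P073.H142.Hull

/-!
# P073, H196, **[LIP-H1]**, part (ii): the Lipschitz estimate for `S ∘ g` on the given cells, from
the local structure `LP` of the inserted map `g`
-/

open Set Metric Topology Filter

namespace P073.H196

section one

open P073 P073.H236

/-- the slope in the gaps -/
theorem abs_sm_gap_le {N : ℕ} {a : ℕ → ℝ} {c al be t₀ om e : ℝ} (h : Lvs N a c al be)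
    (he : 0 < e) {m : ℕ} (hm : m + 1 < N) {s t : ℝ}
    (hs : a m + c ≤ s ∧ s ≤ a (m + 1) - c) (ht : a m + c ≤ t ∧ t ≤ a (m + 1) - c) :
    |sm N a c al be t₀ om e s - sm N a c al be t₀ om e t| ≤ e / c * |s - t| := by
  have hc := h.c0
  have h1 := h.sep m hm
  unfold sm
  rw [stair_gap h.arr hm hs, stair_gap h.arr hm ht]
  have e1 : ∀ A B C : ℝ, (A + B * (s - C)) - (A + B * (t - C)) = B * (s - t) := by intros; ring
  rw [e1, abs_mul]
  refine mul_le_mul_of_nonneg_right ?_ (abs_nonneg _)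
  push_cast
  have e2 : t₀ + ((m:ℝ) + 1) * om + e - (t₀ + (m + 1) * om - e) = 2 * e := by ring
  rw [e2, abs_of_nonneg (div_nonneg (by linarith) (by linarith)), div_le_div_iff₀ (by linarith) hc]
  nlinarith

/-- points fixed by the full collapse -/
theorem tri_eq_zero {c r : ℝ} (hc : 0 < c) (hr : |r| < 2 * c) (h : tri c r = 0) : r = 0 := by
  obtain ⟨h1, h2⟩ := abs_lt.1 hr
  rcases le_total |r| c with h3 | h3
  · rwa [tri_of_abs_le h3] at h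
  · rcases le_total 0 r with h4 | h4
    · rw [abs_of_nonneg h4] at h3
      rw [tri_of_mem hc.le h3 h2.le] at h
      linarith
    · rw [abs_of_nonpos h4] at h3
      have h5 : tri c (-r) = 0 := by rw [tri_neg, h, neg_zero]
      rw [tri_of_mem hc.le h3 (by linarith)] at h5
      linarith

end one

section lip

open Vale.Agent.P073.St (V)

/-- a conical homeomorphism is uniformly Lipschitz at the points of a compact set -/
theorem exists_lip_near {Ω Λ : Set V} (hΩ : IsOpen Ω) (g : ConHomeo Ω Λ) {C : Set V}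
    (hC : IsCompact C) (hCΩ : C ⊆ Ω) :
    ∃ Lg : ℝ, 0 ≤ Lg ∧ ∀ x ∈ C, ∀ᶠ y in 𝓝 x, ‖g.toFun y - g.toFun x‖ ≤ Lg * ‖y - x‖ := by
  have h1 : ∀ x ∈ C, ∃ δ > 0, ∃ M : NNReal, LipschitzOnWith M g.toFun (ball x δ) := fun x hx =>
    let ⟨δ, hδ, _, M, hM⟩ := P073.exists_lipschitz_near hΩ g.conical g.cont (hCΩ hx)
    ⟨δ, hδ, M, hM⟩
  choose! δ hδ M hM using h1
  obtain ⟨T, hT, hcov⟩ := hC.elim_nhds_subcover (fun x => ball x (δ x))
    fun x hx => ball_mem_nhds x (hδ x hx)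
  refine ⟨((∑ x ∈ T, M x : NNReal) : ℝ), NNReal.coe_nonneg _, fun x hx => ?_⟩
  obtain ⟨z, hz, hxz⟩ := mem_iUnion₂.1 (hcov hx)
  filter_upwards [isOpen_ball.mem_nhds hxz] with y hy
  have h3 := (hM z (hT z hz)).dist_le_mul y hy x hxz
  rw [dist_eq_norm, dist_eq_norm] at h3
  refine h3.trans (mul_le_mul_of_nonneg_right ?_ (norm_nonneg _))
  exact_mod_cast Finset.single_le_sum (f := M) (fun _ _ => zero_le) hz

end lip

section rt

open _root_.P073 _root_.P073.Net _root_.P073.PA691 _root_.P073.H579 _root_.P073.H236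
open _root_.P073.PR720 (LF)
open _root_.P073.H345 (mu IsQ)
open Vale.Agent.P073.St (V)
open Vale.Agent.P073.H471 Vale.Agent.P073.H267 Vale.Agent.P073.H267.Geo
open Vale.Agent.P073.H73 (Mesh)
open Vale.Agent.P073.H193 (Edges)
open Vale.Agent.P073.H669 (TLv)

variable {Ω Λ : Set V} {v : V} {K : BoxCx Λ v} {S₀ : Rad K} {Wd : Wid K S₀} {B : Boxes Wd}
  {G : Geo B} {M : Mesh Ω} {E : Edges M} {h h' : ConHomeo Ω Λ} {ω : TBx K → ℝ}
  {T : TBx K → Finset (ℝ × ℝ)} {η : ℝ} {τ : Type*} {A : τ → Set V} {C : Set ℝ} {εE : E.ε → ℝ}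
  {δ : TBx K → ℝ} {L : TLv G E h ω T η A C εE δ} {G₀ : Set (TBx K)}
  {c : TBx K → ℝ} {hc0 : ∀ b, 0 < c b} {hc : ∀ b, c b ≤ δ b / 8}
  {e : TBx K → ℝ} {he : ∀ b, 0 < e b} {he2 : ∀ b, 2 * e b < δ b}
  {V₀ : G₀ → Finset ℝ}
  {X : FixD (F1 L hc0 hc he he2 G₀) V₀} {Hα H₁ Tf : ConHomeo Λ Λ} {κ : V → V}

/-- `κ`-fixed points in the full zone -/
theorem fixed_cases (hκ : IsQ (fun b : G₀ => L.bxQ c hc0 hc b.1) κ) {b : G₀} {y : V}
    (hy : y ∈ rtK G ω b.1 20) (hf : κ y = y) {k : ℕ} (hk : k < L.N b.1) :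
    y b.1.ax = L.a b.1 k ∨ 2 * c b.1 ≤ |y b.1.ax - L.a b.1 k| := by
  rw [or_iff_not_imp_right]
  intro h2
  push Not at h2
  have hK : y ∈ (L.bxQ c hc0 hc b.1).K := by
    rw [bxQ_K]; exact rtK_mono L (by norm_num) hy
  have h3 : (L.bxQ c hc0 hc b.1).Q y = y := by
    rw [← hκ.on b y hK]; exact hf
  have hfull : FullB (L.bxQ c hc0 hc b.1) y := (bxQ_full L hc0 hc).2 hy
  rw [BX.Q_full _ hfull.2] at h3
  have h4 := congrFun h3 b.1.ax
  change Function.update y b.1.ax _ b.1.ax = y b.1.ax at h4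
  rw [Function.update_self] at h4
  have hlv := (L.bxQ c hc0 hc b.1).lvs
  have h6 := qm_cell hlv.c0.le hlv.sepd (hlv.mem_L.2 ⟨k, hk, rfl⟩) h2.le
  have h5 : tri (c b.1) (y b.1.ax - L.a b.1 k) = 0 := by
    have h7 : y b.1.ax - tri (c b.1) (y b.1.ax - L.a b.1 k) = y b.1.ax := h6.symm.trans h4
    linarith
  have := tri_eq_zero (hc0 b.1) h2 h5
  linarith

/-- the stair in one gap -/
theorem abs_sm1_gap (N : SNum X) (b : G₀) {s t : ℝ} (hg : SameGap L c b.1 s t) :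
    |sm1 L c e b.1 s - sm1 L c e b.1 t| ≤ 2 * |s - t| := by
  have h1 := lvLip_sm1 (L := L) hc0 hc he N.he8 b.1 (N.hd b) s t
  have h2 : ∑ a ∈ (thk L b.1).lvs.L, |fl (c b.1) a s - fl (c b.1) a t| = 0 := by
    refine Finset.sum_eq_zero fun a ha => ?_
    obtain ⟨k, hk, rfl⟩ := (thk L b.1).lvs.mem_L.1 ha
    change |fl (c b.1) (L.a b.1 k) s - fl (c b.1) (L.a b.1 k) t| = 0
    rcases hg k hk with ⟨h2, h3⟩ | ⟨h2, h3⟩
    · rw [fl_of_le h2, fl_of_le h3, sub_zero, abs_zero]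
    · rw [fl_of_ge (hc0 b.1).le h2, fl_of_ge (hc0 b.1).le h3, sub_self, abs_zero]
  rw [h2, mul_zero, zero_add] at h1
  exact h1

/-- at the boundary of `rtK 19` the height of `H_α` vanishes -/
theorem hgtA_off19 {b : G₀} {y : V} (hy : Off19 G ω b.1 y) : hgtA L hc0 hc b y = 0 := by
  obtain ⟨i, hi, h1⟩ := hy
  by_contra hne
  have h2 : 0 < hgtA L hc0 hc b y := lt_of_le_of_ne (hgtA_nonneg b y) (Ne.symm hne)
  have h0 := L.ω0 b.1
  refine absurd h2 (not_lt.2 (le_of_eq ?_))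
  refine bmp_zero ((FA L hc0 hc G₀).X b).hr (i := i) hi ?_
  change y i ≤ G.tlo true b.1 i - 12 * ω b.1 - 7 * ω b.1 ∨
    G.thi true b.1 i + 12 * ω b.1 + 7 * ω b.1 ≤ y i
  rcases h1 with h1 | h1
  · left; linarith
  · right; linarith

/-- near a `κ`-fixed point, in one box -/
theorem ph_fixed (N : SNum X) (hκ : IsQ (fun b : G₀ => L.bxQ c hc0 hc b.1) κ) (b : G₀) {y₁ : V}
    (h1 : κ y₁ = y₁) (hb : y₁ ∈ rtK G ω b.1 60) : ∀ᶠ y₂ in 𝓝 y₁, κ y₂ = y₂ →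
      y₂ ∈ rtK G ω b.1 60 →
      |ph X b y₂ (y₂ b.1.ax) - ph X b y₁ (y₁ b.1.ax)| ≤ 35 * ‖y₂ - y₁‖ := by
  have h0 := L.ω0 b.1
  have hc1 := hc0 b.1
  have hn : ∀ y₂ : V, |y₂ b.1.ax - y₁ b.1.ax| ≤ ‖y₂ - y₁‖ := fun y₂ => by
    rw [← Real.norm_eq_abs, ← Pi.sub_apply]; exact norm_le_pi_norm (y₂ - y₁) _
  by_cases hA : ∃ i, i ≠ b.1.ax ∧
      (y₁ i < G.tlo true b.1 i - 19 * ω b.1 ∨ G.thi true b.1 i + 19 * ω b.1 < y₁ i)
  · obtain ⟨i, hi, h3⟩ := hA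
    have h4 : ∀ᶠ y₂ : V in 𝓝 y₁,
        (y₂ i < G.tlo true b.1 i - 19 * ω b.1 ∨ G.thi true b.1 i + 19 * ω b.1 < y₂ i) := by
      have hc' : Continuous fun y₂ : V => y₂ i := continuous_apply i
      rcases h3 with h3 | h3
      · filter_upwards [(isOpen_Iio.preimage hc').mem_nhds h3] with y₂ h using Or.inl h
      · filter_upwards [(isOpen_Ioi.preimage hc').mem_nhds h3] with y₂ h using Or.inr h
    filter_upwards [h4] with y₂ h4 _ _
    have h5 := abs_ph_sub_le_zero N (hgtA_eq_zero ⟨i, hi, h4⟩) (hgtA_eq_zero ⟨i, hi, h3⟩)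
      (y₂ b.1.ax) (y₁ b.1.ax)
    have h6 := hgt1_lip (L := L) (hc0 := hc0) (hc := hc) (he := he) (he2 := he2) (N.hω b) y₂ y₁
    have h7 := hn y₂
    have h8 := norm_nonneg (y₂ - y₁)
    linarith
  · push Not at hA
    have h4 : ∀ᶠ y₂ : V in 𝓝 y₁, ∀ i, |y₂ i - y₁ i| < min (ω b.1) (c b.1) := by
      have h5 : ball y₁ (min (ω b.1) (c b.1)) ∈ 𝓝 y₁ := ball_mem_nhds _ (lt_min h0 hc1)
      filter_upwards [h5] with y₂ hy i
      rw [mem_ball, dist_eq_norm] at hy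
      rw [← Real.norm_eq_abs, ← Pi.sub_apply]
      exact lt_of_le_of_lt (norm_le_pi_norm (y₂ - y₁) i) hy
    filter_upwards [h4] with y₂ h4 h2 hb2
    have f1 : y₁ ∈ rtK G ω b.1 20 := ⟨hb.1, fun i hi => by
      obtain ⟨h5, h6⟩ := hA i hi
      constructor <;> linarith⟩
    have f2 : y₂ ∈ rtK G ω b.1 20 := ⟨hb2.1, fun i hi => by
      obtain ⟨h5, h6⟩ := hA i hi
      obtain ⟨h7, h8⟩ := abs_lt.1 ((h4 i).trans_le (min_le_left _ _))
      constructor <;> linarith⟩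
    have h5 : |sm1 L c e b.1 (y₂ b.1.ax) - sm1 L c e b.1 (y₁ b.1.ax)| ≤
        2 * |y₂ b.1.ax - y₁ b.1.ax| := by
      obtain ⟨h7, h8⟩ := abs_lt.1 ((h4 b.1.ax).trans_le (min_le_right _ _))
      by_cases h6 : ∃ m < L.N b.1, y₁ b.1.ax = L.a b.1 m
      · obtain ⟨m, hm, hm1⟩ := h6
        rcases fixed_cases hκ f2 h2 hm with h9 | h9
        · rw [h9, hm1, sub_self, sub_self, abs_zero, mul_zero]
        · exfalso
          rw [← hm1] at h9
          rcases le_abs'.1 h9 with h9 | h9 <;> linarith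
      · push Not at h6
        refine abs_sm1_gap N b fun k hk => ?_
        have h9 := (fixed_cases hκ f1 h1 hk).resolve_left (h6 k hk)
        rcases le_abs'.1 h9 with h9 | h9
        · left; constructor <;> linarith
        · right; constructor <;> linarith
    have h6 := abs_ph_sub_le N b y₂ y₁ (s := y₂ b.1.ax) (t := y₁ b.1.ax)
      (U := 8 * |y₂ b.1.ax - y₁ b.1.ax|) le_rfl (by linarith [abs_nonneg (y₂ b.1.ax - y₁ b.1.ax)])
    have h7 := hgt1_lip (L := L) (hc0 := hc0) (hc := hc) (he := he) (he2 := he2) (N.hω b) y₂ y₁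
    have h8 := hgtA_lip (L := L) (hc0 := hc0) (hc := hc) (N.hω b) y₂ y₁
    have h9 := hn y₂
    linarith

/-- **near a `κ`-fixed point** -/
theorem stair_fixed (hΛ : IsOpen Λ) (H : RTS L hc0 hc he he2 X Hα H₁ Tf) (N : SNum X)
    (hκ : IsQ (fun b : G₀ => L.bxQ c hc0 hc b.1) κ) {y₁ : V} (hy : y₁ ∈ Λ) (h1 : κ y₁ = y₁) :
    ∀ᶠ y₂ in 𝓝 y₁, κ y₂ = y₂ → ∀ i, |((Hα.trans H₁).trans Tf).toFun y₂ i -
      ((Hα.trans H₁).trans Tf).toFun y₁ i| ≤ 35 * ‖y₂ - y₁‖ := by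
  have hc1 := Vrt.local_cases H.vrt hΛ ((Hα.trans H₁).trans Tf).cont (lf_rtK L) hy
  obtain ⟨U, hU, hfin⟩ := lf_rtK (G₀ := G₀) L y₁ hy
  have hev : ∀ᶠ y₂ in 𝓝 y₁, ∀ b : G₀, y₁ ∈ rtK G ω b.1 60 → κ y₂ = y₂ →
      y₂ ∈ rtK G ω b.1 60 →
      |ph X b y₂ (y₂ b.1.ax) - ph X b y₁ (y₁ b.1.ax)| ≤ 35 * ‖y₂ - y₁‖ := by
    have h2 : ∀ b ∈ {b : G₀ | (bigBox (jR b) (alR G b) (beR G b) (loR G ω b) (hiR G ω b) ∩
        U).Nonempty}, ∀ᶠ y₂ in 𝓝 y₁, (y₁ ∈ rtK G ω b.1 60 → κ y₂ = y₂ →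
          y₂ ∈ rtK G ω b.1 60 →
          |ph X b y₂ (y₂ b.1.ax) - ph X b y₁ (y₁ b.1.ax)| ≤ 35 * ‖y₂ - y₁‖) := by
      intro b _
      by_cases hb : y₁ ∈ rtK G ω b.1 60
      · exact (ph_fixed N hκ b h1 hb).mono fun _ h _ => h
      · exact Eventually.of_forall fun _ h => absurd h hb
    filter_upwards [(hfin.eventually_all).2 h2] with y₂ h2 b hb
    exact h2 b ⟨y₁, hb, mem_of_mem_nhds hU⟩ hb
  filter_upwards [hc1, hev] with y₂ h2 h3 h4 i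
  have hn : |y₂ i - y₁ i| ≤ ‖y₂ - y₁‖ := by
    rw [← Real.norm_eq_abs, ← Pi.sub_apply]; exact norm_le_pi_norm (y₂ - y₁) _
  have h8 := norm_nonneg (y₂ - y₁)
  rcases h2 with ⟨b, hb1, hb2⟩ | ⟨h5, h6⟩
  · rw [H.vrt.on b y₂ hb2, H.vrt.on b y₁ hb1]
    by_cases hi : i = b.1.ax
    · subst hi
      rw [Function.update_self, Function.update_self]
      exact h3 b hb1 h4 hb2
    · rw [Function.update_of_ne hi, Function.update_of_ne hi]
      linarith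
  · rw [h5, h6]
    linarith

/-- the stair inside one thin flat -/
theorem abs_sm1_flat (N : SNum X) (b : G₀) {m : ℝ} {s s' : ℝ} :
    |sm1 L c e b.1 (m + 2 * c b.1 * s) - sm1 L c e b.1 (m + 2 * c b.1 * s')| ≤
      8 * (δ b.1 / 4 * |s - s'|) := by
  have hδ := L.δ0 b.1
  have hc1 := hc0 b.1
  have hc8 := hc b.1
  have he1 := he b.1
  have h1 := lvLip_sm1 (L := L) hc0 hc he N.he8 b.1 (N.hd b) (m + 2 * c b.1 * s)
    (m + 2 * c b.1 * s')
  have hsep : Sepd (thk L b.1).lvs.L (c b.1) := (L.bxQ c hc0 hc b.1).lvs.sepd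
  have h2 := sum_abs_fl_le hc1.le hsep (m + 2 * c b.1 * s) (m + 2 * c b.1 * s')
  have e1 : |m + 2 * c b.1 * s - (m + 2 * c b.1 * s')| = 2 * c b.1 * |s - s'| := by
    rw [show m + 2 * c b.1 * s - (m + 2 * c b.1 * s') = 2 * c b.1 * (s - s') by ring, abs_mul,
      abs_of_nonneg (by linarith : (0:ℝ) ≤ 2 * c b.1)]
  rw [e1] at h1 h2
  have hW : 0 ≤ (δ b.1 - 2 * e b.1) / (2 * c b.1) :=
    div_nonneg (by linarith [he2 b.1]) (by linarith)
  have h3 := mul_le_mul_of_nonneg_left h2 hW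
  have e2 : (δ b.1 - 2 * e b.1) / (2 * c b.1) * (2 * c b.1 * |s - s'|) =
      (δ b.1 - 2 * e b.1) * |s - s'| := by
    field_simp
  rw [e2] at h3
  have h4 := abs_nonneg (s - s')
  nlinarith [mul_nonneg he1.le h4, mul_nonneg hδ.le h4, mul_le_mul_of_nonneg_right hc8 h4]

/-- **the estimate for one pair** -/
theorem stair_pair (H : RTS L hc0 hc he he2 X Hα H₁ Tf) (N : SNum X) {b : G₀} {g : V → V}
    {L₁ L₂ ξ ℓ Lg : ℝ} {x y : V} (hlp : LP L c κ g b.1 (δ b.1 / 4) L₁ L₂ ξ x y)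
    (hoff : κ (h.toFun x) = h.toFun x → κ (h.toFun y) = h.toFun y →
      |((Hα.trans H₁).trans Tf).toFun (h.toFun y) b.1.ax -
        ((Hα.trans H₁).trans Tf).toFun (h.toFun x) b.1.ax| ≤ 35 * ‖h.toFun y - h.toFun x‖)
    (hg : ‖g y - g x‖ ≤ Lg * ‖y - x‖) (hℓ : 0 ≤ ℓ)
    (hℓ1 : 2 * δ b.1 * L₁ ≤ 7 * ω b.1 * ℓ) (hℓ2 : 16 * ξ + 2 * δ b.1 * L₂ / (7 * ω b.1) ≤ ℓ)
    (hℓ3 : 2 * (e b.1 / c b.1) * Lg ≤ ℓ) :
    |((Hα.trans H₁).trans Tf).toFun (g y) b.1.ax -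
        ((Hα.trans H₁).trans Tf).toFun (g x) b.1.ax| ≤
      35 * ‖h.toFun y - h.toFun x‖ + ℓ * ‖y - x‖ := by
  set S : V → V := ((Hα.trans H₁).trans Tf).toFun with hS
  have hω := L.ω0 b.1
  have hδ := L.δ0 b.1
  have hc1 := hc0 b.1
  have hc8 := hc b.1
  have hxy := norm_nonneg (y - x)
  have hhn : |h.toFun y b.1.ax - h.toFun x b.1.ax| ≤ ‖h.toFun y - h.toFun x‖ := by
    rw [← Real.norm_eq_abs, ← Pi.sub_apply]; exact norm_le_pi_norm (h.toFun y - h.toFun x) _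
  have hh0 := norm_nonneg (h.toFun y - h.toFun x)
  -- the vertical formula
  have hv : ∀ q ∈ rtK G ω b.1 50, S q b.1.ax = ph X b q (q b.1.ax) := fun q hq => by
    have h1 := H.vrt.on b q (rtK_mono L (by norm_num) hq)
    rw [hS, h1]
    exact Function.update_self ..
  have hf1 : ∀ q ∈ rtK G ω b.1 50, hgt1 L hc0 hc he he2 b q = dsp (T b.1) (δ b.1) + δ b.1 / 8 :=
    fun q hq => hgt1_full hq.2
  -- the estimate of `ph`
  have key : ∀ q ∈ rtK G ω b.1 50, ∀ q' ∈ rtK G ω b.1 50, ∀ U d : ℝ, 0 ≤ d →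
      (∀ i, i ≠ b.1.ax → |q i - q' i| ≤ d) → 8 * |q b.1.ax - q' b.1.ax| ≤ U →
      |sm1 L c e b.1 (q b.1.ax) - sm1 L c e b.1 (q' b.1.ax)| ≤ U →
      |S q b.1.ax - S q' b.1.ax| ≤ 2 * U + 2 * δ b.1 * d / (7 * ω b.1) := by
    intro q hq q' hq' U d hd0 hd h1 h2
    rw [hv q hq, hv q' hq']
    have h3 := abs_ph_sub_le N b q q' h1 h2
    have h4 := hgtA_lat (L := L) (hc0 := hc0) (hc := hc) (b := b) hd0 hd
    rw [hf1 q hq, hf1 q' hq', sub_self, abs_zero, mul_zero, add_zero] at h3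
    have e1 : 16 * (δ b.1 / 8 * (d / (7 * ω b.1))) = 2 * δ b.1 * d / (7 * ω b.1) := by ring
    linarith
  cases hlp with
  | off h1 h2 h3 h4 =>
    rw [h1, h2]
    have := hoff h3 h4
    have h5 := mul_nonneg hℓ hxy
    linarith
  | flat m hm z z' s s' h1 h2 h3 h4 h5 h6 h7 h8 h9 =>
    have e1 : g x b.1.ax = L.a b.1 m + 2 * c b.1 * s := by
      rw [h5]; exact Function.update_self ..
    have e2 : g y b.1.ax = L.a b.1 m + 2 * c b.1 * s' := by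
      rw [h6]; exact Function.update_self ..
    have e3 : |h.toFun y b.1.ax - h.toFun x b.1.ax| = δ b.1 / 4 * |s' - s| := by
      rw [h1, h2, show L.a b.1 m + δ b.1 / 4 * s' - (L.a b.1 m + δ b.1 / 4 * s) =
        δ b.1 / 4 * (s' - s) by ring, abs_mul, abs_of_pos (by linarith)]
    have e4 : |g y b.1.ax - g x b.1.ax| = 2 * c b.1 * |s' - s| := by
      rw [e1, e2, show L.a b.1 m + 2 * c b.1 * s' - (L.a b.1 m + 2 * c b.1 * s) =
        2 * c b.1 * (s' - s) by ring, abs_mul, abs_of_pos (by linarith)]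
    have hzz : ‖z' - z‖ ≤ L₁ * ‖y - x‖ := by
      rw [norm_sub_rev z' z, norm_sub_rev y x]; exact h7
    have h10 := key (g y) h9 (g x) h8 (8 * (δ b.1 / 4 * |s' - s|)) ‖z' - z‖ (norm_nonneg _)
      (fun i hi => by
        rw [h5, h6, Function.update_of_ne hi, Function.update_of_ne hi, ← Real.norm_eq_abs,
          ← Pi.sub_apply]
        exact norm_le_pi_norm (z' - z) i) (by
        rw [e4]
        nlinarith [mul_le_mul_of_nonneg_right hc8 (abs_nonneg (s' - s))]) (by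
        rw [e1, e2]; exact abs_sm1_flat N b)
    have h11 : 2 * δ b.1 * ‖z' - z‖ / (7 * ω b.1) ≤ ℓ * ‖y - x‖ := by
      rw [div_le_iff₀ (by positivity)]
      calc 2 * δ b.1 * ‖z' - z‖ ≤ 2 * δ b.1 * (L₁ * ‖y - x‖) := by gcongr
        _ = 2 * δ b.1 * L₁ * ‖y - x‖ := by ring
        _ ≤ 7 * ω b.1 * ℓ * ‖y - x‖ := mul_le_mul_of_nonneg_right hℓ1 hxy
        _ = _ := by ring
    rw [← e3] at h10
    linarith
  | side h1 h2 h3 h8 h9 =>
    have h1' : |g y b.1.ax - g x b.1.ax| ≤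
        2 * |h.toFun y b.1.ax - h.toFun x b.1.ax| + ξ * ‖y - x‖ := by
      rw [abs_sub_comm (g y b.1.ax), abs_sub_comm (h.toFun y b.1.ax), norm_sub_rev y x]
      exact h1
    have h2' : ‖g y - g x‖ ≤ L₂ * ‖y - x‖ := by
      rw [norm_sub_rev (g y), norm_sub_rev y x]; exact h2
    have h12 : (16 * ξ + 2 * δ b.1 * L₂ / (7 * ω b.1)) * ‖y - x‖ ≤ ℓ * ‖y - x‖ :=
      mul_le_mul_of_nonneg_right hℓ2 hxy
    have h13 : 2 * δ b.1 * ‖g y - g x‖ / (7 * ω b.1) ≤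
        2 * δ b.1 * L₂ / (7 * ω b.1) * ‖y - x‖ := by
      rw [div_mul_eq_mul_div]
      refine div_le_div_of_nonneg_right ?_ (by positivity)
      nlinarith
    rcases h3 with h3 | ⟨h3, h4⟩
    · have h10 := key (g y) h9 (g x) h8 (8 * |g y b.1.ax - g x b.1.ax|) ‖g y - g x‖
        (norm_nonneg _) (fun i _ => by
          rw [← Real.norm_eq_abs, ← Pi.sub_apply]; exact norm_le_pi_norm (g y - g x) i) le_rfl
        (by
          have h5 := abs_sm1_gap N b (s := g x b.1.ax) (t := g y b.1.ax) h3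
          rw [abs_sub_comm, abs_sub_comm (g y b.1.ax)]
          linarith [abs_nonneg (g x b.1.ax - g y b.1.ax)])
      nlinarith
    · have h10 := abs_ph_sub_le_zero N (hgtA_off19 h4) (hgtA_off19 h3) (g y b.1.ax)
        (g x b.1.ax)
      rw [hf1 _ h9, hf1 _ h8, sub_self, abs_zero, mul_zero, add_zero, ← hv _ h9,
        ← hv _ h8] at h10
      have h14 : 0 ≤ 2 * δ b.1 * ‖g y - g x‖ / (7 * ω b.1) := by positivity
      nlinarith
  | mid h1 h2 h3 =>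
    have hm : ∀ q ∈ rtK G ω b.1 12, S q b.1.ax = X.τ b (sm1 L c e b.1 (q b.1.ax)) :=
      fun q hq => by rw [hS, H.full hq]; exact Function.update_self ..
    rw [hm _ h1, hm _ h2]
    have hτ := (X.fix b).lip (sm1 L c e b.1 (g y b.1.ax)) (sm1 L c e b.1 (g x b.1.ax))
    have h4 : |sm1 L c e b.1 (g y b.1.ax) - sm1 L c e b.1 (g x b.1.ax)| ≤
        e b.1 / c b.1 * |g y b.1.ax - g x b.1.ax| := by
      rcases h3 with h3 | ⟨m, hm, h5, h6⟩
      · rw [h3, sub_self, sub_self, abs_zero, mul_zero]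
      · exact abs_sm_gap_le (L.bxQ c hc0 hc b.1).lvs (he b.1) hm h6 h5
    have h5 : |g y b.1.ax - g x b.1.ax| ≤ Lg * ‖y - x‖ := by
      refine le_trans ?_ hg
      rw [← Real.norm_eq_abs, ← Pi.sub_apply]; exact norm_le_pi_norm (g y - g x) _
    have h6 : |X.τ b (sm1 L c e b.1 (g y b.1.ax)) - X.τ b (sm1 L c e b.1 (g x b.1.ax))| ≤
        2 * |sm1 L c e b.1 (g y b.1.ax) - sm1 L c e b.1 (g x b.1.ax)| :=
      hτ.trans (mul_le_mul_of_nonneg_right (by linarith [N.eps b]) (abs_nonneg _))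
    have h7 : 0 ≤ e b.1 / c b.1 := (div_pos (he b.1) hc1).le
    calc _ ≤ 2 * (e b.1 / c b.1 * (Lg * ‖y - x‖)) := by
          refine h6.trans (mul_le_mul_of_nonneg_left (h4.trans ?_) (by norm_num))
          exact mul_le_mul_of_nonneg_left h5 h7
      _ = 2 * (e b.1 / c b.1) * Lg * ‖y - x‖ := by ring
      _ ≤ ℓ * ‖y - x‖ := mul_le_mul_of_nonneg_right hℓ3 hxy
      _ ≤ _ := by linarith
  | flat12 m hm' s s' h1 h2 h3 h4 e1 e2 h8 h9 =>
    have hm : ∀ q ∈ rtK G ω b.1 12, S q b.1.ax = X.τ b (sm1 L c e b.1 (q b.1.ax)) :=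
      fun q hq => by rw [hS, H.full hq]; exact Function.update_self ..
    rw [hm _ h8, hm _ h9]
    have hτ := (X.fix b).lip (sm1 L c e b.1 (g y b.1.ax)) (sm1 L c e b.1 (g x b.1.ax))
    have h6 : |X.τ b (sm1 L c e b.1 (g y b.1.ax)) - X.τ b (sm1 L c e b.1 (g x b.1.ax))| ≤
        2 * |sm1 L c e b.1 (g y b.1.ax) - sm1 L c e b.1 (g x b.1.ax)| :=
      hτ.trans (mul_le_mul_of_nonneg_right (by linarith [N.eps b]) (abs_nonneg _))
    have e3 : |h.toFun y b.1.ax - h.toFun x b.1.ax| = δ b.1 / 4 * |s' - s| := by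
      rw [h1, h2, show L.a b.1 m + δ b.1 / 4 * s' - (L.a b.1 m + δ b.1 / 4 * s) =
        δ b.1 / 4 * (s' - s) by ring, abs_mul, abs_of_pos (by linarith)]
    have h7 := abs_sm1_flat N b (m := L.a b.1 m) (s := s') (s' := s)
    rw [← e1, ← e2, ← e3] at h7
    have h10 := mul_nonneg hℓ hxy
    linarith

/-- **[LIP-H1], the stair**: for all staircases with small `e`, on every given cell with the
local structure `LP` -/
theorem exists_stair (hΩ : IsOpen Ω) (hΛ : IsOpen Λ) (g : ConHomeo Ω Λ)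
    (hκ : IsQ (fun b : G₀ => L.bxQ c hc0 hc b.1) κ) {L₁ L₂ ξ ℓ : TBx K → ℝ}
    (hℓ : ∀ b, 0 < ℓ b) (hℓ1 : ∀ b ∈ G₀, 2 * δ b * L₁ b ≤ 7 * ω b * ℓ b)
    (hℓ2 : ∀ b ∈ G₀, 16 * ξ b + 2 * δ b * L₂ b / (7 * ω b) ≤ ℓ b) :
    ∃ e₁ : TBx K → ℝ, (∀ b, 0 < e₁ b) ∧ ∀ (e : TBx K → ℝ) (he : ∀ b, 0 < e b)
      (he2 : ∀ b, 2 * e b < δ b) (V₀ : G₀ → Finset ℝ) (X : FixD (F1 L hc0 hc he he2 G₀) V₀)
      (Hα H₁ Tf : ConHomeo Λ Λ), (∀ b, e b ≤ e₁ b) → RTS L hc0 hc he he2 X Hα H₁ Tf →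
      SNum X → ∀ b ∈ G₀, ∀ (Q : Set V), Q ⊆ Ω → ∀ x ∈ Q, h.toFun x ∈ G.TB false b →
        LPs L c κ g.toFun Q b (δ b / 4) (L₁ b) (L₂ b) (ξ b) x → ∀ᶠ y in 𝓝[Q] x,
          |((Hα.trans H₁).trans Tf).toFun (g.toFun y) b.ax -
              ((Hα.trans H₁).trans Tf).toFun (g.toFun x) b.ax| ≤
            35 * ‖h.toFun y - h.toFun x‖ + ℓ b * ‖y - x‖ := by
  have hLg : ∀ b : TBx K, ∃ Lg : ℝ, 0 ≤ Lg ∧ ∀ x ∈ h.invFun '' G.TB false b,
      ∀ᶠ y in 𝓝 x, ‖g.toFun y - g.toFun x‖ ≤ Lg * ‖y - x‖ := by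
    intro b
    refine exists_lip_near hΩ g ((show IsCompact (G.TB false b) from
      isCompact_Icc).image_of_continuousOn (h.cont_inv.mono (TB_sub b))) ?_
    rintro _ ⟨y, hy, rfl⟩
    exact h.mapsTo_inv (TB_sub b hy)
  choose Lg hLg0 hLg using hLg
  refine ⟨fun b => ℓ b * c b / (2 * (Lg b + 1)), fun b => ?_, ?_⟩
  · have := hLg0 b
    have := hℓ b
    have := hc0 b
    positivity
  intro e he he2 V₀ X Hα H₁ Tf he₁ H N b hb Q hQ x hx hxb hlp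
  have hxΛ : h.toFun x ∈ Λ := h.mapsTo (hQ hx)
  have hx' : x ∈ h.invFun '' G.TB false b := ⟨h.toFun x, hxb, h.left_inv (hQ hx)⟩
  have hcont : Tendsto h.toFun (𝓝[Q] x) (𝓝 (h.toFun x)) := (h.cont.mono hQ) x hx
  have hc1 := hc0 b
  have hLb := hLg0 b
  have h3 : 2 * (e b / c b) * Lg b ≤ ℓ b := by
    have h1 := he₁ b
    rw [le_div_iff₀ (by positivity)] at h1
    rw [mul_assoc, div_mul_eq_mul_div, ← mul_div_assoc, div_le_iff₀ hc1]
    nlinarith [he b]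
  have key : ∀ᶠ y in 𝓝[Q] x, κ (h.toFun x) = h.toFun x → κ (h.toFun y) = h.toFun y →
      |((Hα.trans H₁).trans Tf).toFun (h.toFun y) b.ax -
        ((Hα.trans H₁).trans Tf).toFun (h.toFun x) b.ax| ≤ 35 * ‖h.toFun y - h.toFun x‖ := by
    by_cases hf : κ (h.toFun x) = h.toFun x
    · filter_upwards [hcont.eventually (stair_fixed hΛ H N hκ hxΛ hf)] with y hy _ h2
      exact hy h2 b.ax
    · exact Eventually.of_forall fun _ h1 => absurd h1 hf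
  filter_upwards [hlp, key, nhdsWithin_le_nhds (hLg b x hx')] with y h4 h5 h6
  exact stair_pair H N (b := ⟨b, hb⟩) h4 h5 h6 (hℓ b).le (hℓ1 b hb) (hℓ2 b hb) h3

end rt

end P073.H196
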