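import Vale.Agent.P073.H196.VertEdge
import Vale.Agent.P073.H196.Theta
import Vale.Agent.P073.H236.BoxData

/-!
# P073, H196, [PCELL]: the numbers of the edges of protected cells (Round T)

On an edge of a protected cell the map `h` is affine, parallel to a coordinate axis; the given map is
`Θ ∘ h`, thick flats of `h` go to the thin flats of the insertion map.
-/

open Set Metric Topology Filter

namespace P073.H196

open P073 P073.H236 P073.H579

variable {E : Type*} [NormedAddCommGroup E] [NormedSpace ℝ E]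

/-- no crossings, no conditions -/
theorem edgeNum_of_none {m : ℕ} {a b : E} {h f : E → Fin m → ℝ} {k : Fin m → ℝ → ℝ}
    {L : Fin m → Finset ℝ} {lo hi om : Fin m → ℝ → ℝ} {La : ℝ}
    (hn : ∀ x ∈ segment ℝ a b, ∀ j, h x j ∉ L j) (s1 s2 s3 s4 : E → ℝ) :
    EdgeNum a b h k L lo hi om La f s1 s2 s3 s4 := by
  have key : ∀ x, ¬ CrsPt a b h L x := fun x hx => by
    obtain ⟨h1, j, hj⟩ := hx; exact hn x h1 j hj
  exact ⟨fun x hx => absurd hx (key x), fun x hx => absurd hx (key x),
    fun x hx => absurd hx (key x), fun x hx => absurd hx (key x), fun x hx => absurd hx (key x),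
    fun x _ hx => absurd hx (key x), fun x hx => absurd hx (key x),
    fun x hx j hj => absurd hj (hn x hx j), fun x hx j hj => absurd hj (hn x hx j),
    fun x hx j hj => absurd hj (hn x hx j)⟩

section oneVar
variable {L : Finset ℝ} {c' lam : ℝ}

/-- the thick flats are the preimages of the thin flats -/
theorem abs_th_sub_le_iff (hc : 0 < c') (hs : Sepd L c') (h0 : 0 < lam) (h1 : lam ≤ 1) {β : ℝ}
    (hβ : β ∈ L) (t : ℝ) : |th L c' lam t - β| ≤ lam * c' ↔ |t - β| ≤ c' := by
  have hm := th_strictMono hc.le hs h0 h1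
  have e1 : th L c' lam (β - c') = β - lam * c' := by
    rw [th_flat hc.le hs hβ (by rw [show β - c' - β = -c' by ring, abs_neg, abs_of_pos hc])]
    ring
  have e2 : th L c' lam (β + c') = β + lam * c' := by
    rw [th_flat hc.le hs hβ (by rw [show β + c' - β = c' by ring, abs_of_pos hc])]
    ring
  rw [abs_le, abs_le]
  constructor
  · rintro ⟨a1, a2⟩
    have b1 : th L c' lam (β - c') ≤ th L c' lam t := by rw [e1]; linarith
    have b2 : th L c' lam t ≤ th L c' lam (β + c') := by rw [e2]; linarith
    have b1' := hm.le_iff_le.1 b1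
    have b2' := hm.le_iff_le.1 b2
    constructor <;> linarith
  · rintro ⟨a1, a2⟩
    have b1 := hm.monotone (show β - c' ≤ t by linarith)
    have b2 := hm.monotone (show t ≤ β + c' by linarith)
    rw [e1] at b1
    rw [e2] at b2
    constructor <;> linarith

end oneVar

/-- an affine crossing is vertical -/
theorem vertAt_affine {m : ℕ} {a b : E} {X : E → Fin m → ℝ} {L : Fin m → Finset ℝ}
    {c : Fin m → ℝ} {j : Fin m} {P Q : Fin m → ℝ} (hX : ∀ s ∈ Icc (0:ℝ) 1, ∀ i,
      X (AffineMap.lineMap a b s) i = P i + s * (Q i - P i)) (hne : ∀ i, i ≠ j → P i = Q i)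
    (hL : ∀ i, i ≠ j → ∀ β ∈ L i, c i < |P i - β|) (hc : 0 < c j) {x : E}
    (hx : x ∈ segment ℝ a b) (hxj : X x j ∈ L j) (hP : 2 * c j < |P j - X x j|)
    (hQ : 2 * c j < |Q j - X x j|) :
    ∃ t₁ t₄, VertAt a b X L c |Q j - P j| x j t₁ t₄ := by
  obtain ⟨s, hs, rfl⟩ : ∃ s ∈ Icc (0:ℝ) 1, (AffineMap.lineMap a b s : E) = x := by
    rw [segment_eq_image_lineMap] at hx
    exact hx
  set γ : ℝ → E := fun s => AffineMap.lineMap a b s with hγ
  set β := X (γ s) j with hβ
  have hβs : β = P j + s * (Q j - P j) := hX s hs j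
  set D := Q j - P j with hD
  have eP : P j - β = -(s * D) := by rw [hβs]; ring
  have eQ : Q j - β = (1 - s) * D := by rw [hβs, hD]; ring
  have hs0 : 0 ≤ s := hs.1
  have hs1 : 0 ≤ 1 - s := by linarith [hs.2]
  have hcst : ∀ i, i ≠ j → ∀ s' ∈ Icc (0:ℝ) 1, X (γ s') i = X (γ s) i := by
    intro i hi s' hs'
    rw [hX s' hs' i, hX s hs i, hne i hi]; ring
  have hoff : ∀ i, i ≠ j → ∀ β ∈ L i, c i < |X (γ s) i - β| := by
    intro i hi β hβ
    rw [hX s hs i, ← hne i hi, sub_self, mul_zero, add_zero]
    exact hL i hi β hβ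
  have habs1 : |P j - β| = s * |D| := by rw [eP, abs_neg, abs_mul, abs_of_nonneg hs0]
  have habs2 : |Q j - β| = (1 - s) * |D| := by rw [eQ, abs_mul, abs_of_nonneg hs1]
  rw [habs1] at hP
  rw [habs2] at hQ
  have hD0 : D ≠ 0 := by
    intro h
    rw [h, abs_zero, mul_zero] at hP
    linarith
  have hDp : 0 < |D| := abs_pos.2 hD0
  set d := 2 * c j / |D| with hd
  have hdD : d * |D| = 2 * c j := by rw [hd]; field_simp
  have hd0 : 0 < d := by rw [hd]; positivity
  have hds : d < s := by
    by_contra h
    have := mul_le_mul_of_nonneg_right (not_lt.1 h) hDp.le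
    linarith
  have hds' : d < 1 - s := by
    by_contra h
    have := mul_le_mul_of_nonneg_right (not_lt.1 h) hDp.le
    linarith
  have hin : ∀ s' ∈ Icc (s - d) (s + d), s' ∈ Icc (0:ℝ) 1 := fun s' hs' =>
    ⟨by linarith [hs'.1], by linarith [hs'.2]⟩
  have hval : ∀ s' ∈ Icc (s - d) (s + d), X (γ s') j = β + (s' - s) * D := by
    intro s' hs'
    rw [hX s' (hin s' hs') j, hβs]; ring
  have l1 : s - d ∈ Icc (s - d) (s + d) := ⟨le_rfl, by linarith⟩
  have l4 : s + d ∈ Icc (s - d) (s + d) := ⟨by linarith, le_rfl⟩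
  refine ⟨s - d, s + d, by linarith, by linarith, ⟨s, ⟨by linarith, by linarith⟩, rfl⟩,
    fun i hi s' hs' => hcst i hi s' (hin s' hs'), hoff, fun u hu u' hu' => ?_, ?_⟩
  · rw [hval u hu, hval u' hu']
    have : β + (u - s) * D - (β + (u' - s) * D) = D * (u - u') := by ring
    rw [this, abs_mul]
  · rcases lt_or_gt_of_ne hD0 with h | h
    · right
      have hDa : |D| = -D := abs_of_neg h
      refine ⟨fun u hu u' hu' huu => ?_, ?_, ?_⟩
      · show X (γ u') j < X (γ u) j
        rw [hval u hu, hval u' hu']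
        nlinarith
      · show X (γ (s - d)) j = _
        rw [hval _ l1]
        rw [hDa] at hdD
        linarith
      · show X (γ (s + d)) j = _
        rw [hval _ l4]
        rw [hDa] at hdD
        linarith
    · left
      have hDa : |D| = D := abs_of_pos h
      refine ⟨fun u hu u' hu' huu => ?_, ?_, ?_⟩
      · show X (γ u) j < X (γ u') j
        rw [hval u hu, hval u' hu']
        nlinarith
      · show X (γ (s - d)) j = _
        rw [hval _ l1]
        rw [hDa] at hdD
        linarith
      · show X (γ (s + d)) j = _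
        rw [hval _ l4]
        rw [hDa] at hdD
        linarith

/-- **the edge numbers of `Θ ∘ h` on an affine edge** in the full zone of a box -/
theorem exists_edgeNum_theta (B : BX 3) {c : ℝ} (h0 : 0 < c) (h1 : c ≤ B.c) {a b : E}
    {h f : E → Fin 3 → ℝ} {P Q : Fin 3 → ℝ} (hX : ∀ s ∈ Icc (0:ℝ) 1, ∀ i,
      h (AffineMap.lineMap a b s) i = P i + s * (Q i - P i)) (hne : ∀ i, i ≠ B.j → P i = Q i)
    (hP : ∀ v ∈ B.lvs.L, 2 * B.c < |P B.j - v|) (hQ : ∀ v ∈ B.lvs.L, 2 * B.c < |Q B.j - v|)
    (hf : ∀ s ∈ Icc (0:ℝ) 1, f (AffineMap.lineMap a b s) =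
      Function.update (h (AffineMap.lineMap a b s)) B.j
        (th B.lvs.L B.c (c / B.c) (h (AffineMap.lineMap a b s) B.j)))
    {La : ℝ} (hLa0 : 0 ≤ La)
    (hLa : stp B.N B.al B.be * |Q B.j - P B.j| ≤ La * ‖b - a‖ * B.c) :
    ∃ s1 s2 s3 s4 : E → ℝ, EdgeNum a b h (kQ (H345.thin B c h0 h1)) (LQ (H345.thin B c h0 h1))
      (loQ (H345.thin B c h0 h1)) (hiQ (H345.thin B c h0 h1)) (omQ (H345.thin B c h0 h1)) La f
      s1 s2 s3 s4 := by
  classical
  have hBc := B.lvs.c0
  have hBs := B.lvs.sepd
  set lam := c / B.c with hlam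
  have hlc : lam * B.c = c := by rw [hlam]; field_simp
  have hl0 : 0 < lam := by rw [hlam]; positivity
  have hl1 : lam ≤ 1 := by rw [hlam, div_le_one hBc]; exact h1
  have hthL : (H345.thin B c h0 h1).lvs.L = B.lvs.L := rfl
  have hthj : (H345.thin B c h0 h1).j = B.j := rfl
  have hthc : (H345.thin B c h0 h1).c = c := rfl
  have hLj : LQ (H345.thin B c h0 h1) B.j = B.lvs.L := LQ_self _
  have hLne : ∀ j, j ≠ B.j → LQ (H345.thin B c h0 h1) j = ∅ := fun j hj => LQ_ne _ hj
  by_cases hdeg : P B.j = Q B.j
  · -- the edge is constant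
    refine ⟨fun _ => 0, fun _ => 0, fun _ => 0, fun _ => 0, edgeNum_of_none ?_ _ _ _ _⟩
    intro x hx j hj
    by_cases hjj : j = B.j
    · subst hjj
      rw [hLj] at hj
      rw [segment_eq_image_lineMap] at hx
      obtain ⟨s, hs, rfl⟩ := hx
      have e1 := hX s hs B.j
      rw [← hdeg, sub_self, mul_zero, add_zero] at e1
      have := hP _ hj
      rw [e1, sub_self, abs_zero] at this
      linarith
    · rw [hLne j hjj] at hj
      exact absurd hj (Finset.notMem_empty _)
  refine exists_edgeNum (k' := kQ B) (X := h) (c := fun _ => B.c) (Λ := |Q B.j - P B.j|)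
    (ins1_Q B) (fun _ => hBc) (fun j => ?_) ?_ (fun _ _ _ _ => rfl) ?_ ?_ ?_ ?_ ?_ hLa0 ?_
  · by_cases hjj : j = B.j
    · subst hjj; rw [hLj]; exact hBs
    · rw [hLne j hjj]; intro x hx; exact absurd hx (Finset.notMem_empty _)
  · -- injectivity
    intro s hs s' hs' he
    have e1 := congrFun he B.j
    simp only at e1
    rw [hX s hs, hX s' hs'] at e1
    have hD : Q B.j - P B.j ≠ 0 := sub_ne_zero.2 (Ne.symm hdeg)
    have e2 : (s - s') * (Q B.j - P B.j) = 0 := by linarith
    rcases mul_eq_zero.1 e2 with h3 | h3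
    · linarith
    · exact absurd h3 hD
  · intro x hx j hj
    by_cases hjj : j = B.j
    · subst hjj
      rw [hLj] at hj
      refine vertAt_affine hX hne (fun i hi β hβ => ?_) hBc hx (by rw [hLj]; exact hj)
        (hP _ hj) (hQ _ hj)
      rw [hLne i hi] at hβ
      exact absurd hβ (Finset.notMem_empty _)
    · rw [hLne j hjj] at hj
      exact absurd hj (Finset.notMem_empty _)
  · -- the fibres
    intro x hx s hs
    obtain ⟨hxs, j, hj⟩ := hx
    have hjj : j = B.j := by
      by_contra hjj
      rw [hLne j hjj] at hj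
      exact absurd hj (Finset.notMem_empty _)
    subst hjj
    rw [hLj] at hj
    have i1 := (ins1_qm (c := c) h0 (L := B.lvs.L) (fun x hx y hy hxy => by
      have := hBs x hx y hy hxy; linarith)).flat _ (Finset.mem_coe.2 hj)
    have i2 := (ins1_qm hBc hBs).flat _ (Finset.mem_coe.2 hj)
    rw [prodK_Q, prodK_Q, prodK_Q, hf s hs, hthL, hthj, hthc, Function.update_self,
      Function.update_idem]
    have key : qm B.lvs.L c (th B.lvs.L B.c lam (h (AffineMap.lineMap a b s) B.j)) = h x B.j ↔
        qm B.lvs.L B.c (h (AffineMap.lineMap a b s) B.j) = h x B.j := by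
      rw [i1, i2]
      have h3 := abs_th_sub_le_iff hBc hBs hl0 hl1 hj (h (AffineMap.lineMap a b s) B.j)
      rw [hlc, abs_le, abs_le] at h3
      constructor
      · rintro ⟨q1, q2⟩
        have := h3.1 ⟨by linarith, by linarith⟩
        exact ⟨by linarith [this.1], by linarith [this.2]⟩
      · rintro ⟨q1, q2⟩
        have := h3.2 ⟨by linarith, by linarith⟩
        exact ⟨by linarith [this.1], by linarith [this.2]⟩
    have hself : qm B.lvs.L B.c (h x B.j) = h x B.j := by
      rw [i2]; constructor <;> linarith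
    rw [hself, Function.update_eq_self]
    constructor
    · intro he
      have e1 := congrFun he B.j
      rw [Function.update_self] at e1
      ext i
      by_cases hi' : i = B.j
      · subst hi'; rw [Function.update_self]; exact key.1 e1
      · have := congrFun he i
        rw [Function.update_of_ne hi'] at this ⊢
        exact this
    · intro he
      have e1 := congrFun he B.j
      rw [Function.update_self] at e1
      ext i
      by_cases hi' : i = B.j
      · subst hi'; rw [Function.update_self]; exact key.2 e1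
      · have := congrFun he i
        rw [Function.update_of_ne hi'] at this ⊢
        exact this
  · -- the position in the flats
    intro x hx j hj s hs he
    have hjj : j = B.j := by
      by_contra hjj
      rw [hLne j hjj] at hj
      exact absurd hj (Finset.notMem_empty _)
    subst hjj
    rw [hLj] at hj
    have i1 := (ins1_qm (c := c) h0 (L := B.lvs.L) (fun x hx y hy hxy => by
      have := hBs x hx y hy hxy; linarith)).flat _ (Finset.mem_coe.2 hj)
    have e1 := congrFun he B.j
    rw [prodK_Q, hf s hs, hthL, hthj, hthc, Function.update_self, Function.update_self, i1] at e1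
    have h3 := abs_th_sub_le_iff hBc hBs hl0 hl1 hj (h (AffineMap.lineMap a b s) B.j)
    rw [hlc] at h3
    have h4 := h3.1 (by rw [abs_le]; constructor <;> linarith [e1.1, e1.2])
    rw [hf s hs, Function.update_self, th_flat hBc.le hBs hj h4]
    show 2 * B.c * (h x B.j + lam * (h (AffineMap.lineMap a b s) B.j - h x B.j)) =
      2 * B.c * (h x B.j - c) + ((h x B.j + c) - (h x B.j - c)) *
        (h (AffineMap.lineMap a b s) B.j - (h x B.j - B.c))
    have : 2 * B.c * (lam * (h (AffineMap.lineMap a b s) B.j - h x B.j)) =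
        2 * c * (h (AffineMap.lineMap a b s) B.j - h x B.j) := by
      rw [← hlc]; ring
    linarith
  · intro j β _
    show β - c ≤ β + c
    linarith
  · intro j β _
    exact (omQ_pos (B := H345.thin B c h0 h1) j β).le
  · intro j β hβ
    show stp B.N B.al B.be * |Q B.j - P B.j| ≤ La * ‖b - a‖ * B.c
    exact hLa

end P073.H196
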