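import Vale.Agent.P073.H236.StairBox
import Vale.Agent.P073.H196.PCell

/-!
# P073, H196, **[FIX]** and the map `th`: one-dimensional maps for protected cells

* `exists_fix`: correction `τ` of a staircase `σ` which fixes the mesh coordinates: `τ (σ v) = v`;
  `cl_cl_fix`: the clipped maps fix them for every height of the cut-off.
* `th L c' lam`: thick cells to thin flats.
* `abs_comp_le`: Lipschitz estimate for `cl τ m ∘ cl σ m ∘ cl th m₁`.
-/

open Set Metric Topology Filter

namespace P073.H196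

open P073 P073.H236 P073.H579

/-- the clipped correction fixes `v` -/
theorem cl_cl_fix {σ τ : ℝ → ℝ} (hτ : Monotone τ) {m v : ℝ} (hm : 0 ≤ m) (h : τ (σ v) = v) :
    cl τ m (cl σ m v) = v := by
  rcases le_or_gt (|σ v - v|) m with h1 | h1
  · rw [cl_eq h1, cl_eq (by rw [h, abs_sub_comm]; exact h1), h]
  · rcases lt_abs.1 h1 with h2 | h2
    · have e1 : cl σ m v = v + m := by
        unfold cl; rw [min_eq_left (by linarith), max_eq_right (by linarith)]
      have e2 : τ (v + m) ≤ v := by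
        have := hτ (by linarith : v + m ≤ σ v)
        rwa [h] at this
      rw [e1]
      unfold cl
      rw [min_eq_right (by linarith), max_eq_left (by linarith)]
      ring
    · have e1 : cl σ m v = v - m := by
        unfold cl; rw [min_eq_right (by linarith), max_eq_left (by linarith)]
      have e2 : v ≤ τ (v - m) := by
        have := hτ (by linarith : σ v ≤ v - m)
        rwa [h] at this
      rw [e1]
      unfold cl
      rw [min_eq_left (by linarith), max_eq_right (by linarith)]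
      ring

/-- nodes -/
theorem exists_nodes {g : ℝ} (V : Finset ℝ) : ∀ {al be : ℝ}, al + g ≤ be →
    (∀ v ∈ V, al + g ≤ v ∧ v + g ≤ be) → (∀ v ∈ V, ∀ w ∈ V, v < w → v + g ≤ w) →
    ∃ (n : ℕ) (x : ℕ → ℝ), x 0 = al ∧ x n = be ∧ (∀ j < n, x j + g ≤ x (j + 1)) ∧
      (∀ v ∈ V, ∃ j ≤ n, x j = v) ∧ ∀ j ≤ n, x j = al ∨ x j = be ∨ x j ∈ V := by
  classical
  induction V using Finset.induction_on_max with
  | empty =>
    intro al be hab _ _
    refine ⟨1, fun j => if j = 0 then al else be, rfl, rfl, fun j hj => ?_,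
      fun v hv => absurd hv (Finset.notMem_empty v), fun j hj => ?_⟩
    · have : j = 0 := by omega
      subst this; simpa using hab
    · by_cases h : j = 0
      · simp [h]
      · simp [h]
  | insert a V ha ih =>
    intro al be hab hV hs
    have ha' := hV a (Finset.mem_insert_self _ _)
    obtain ⟨n, x, h0, hn, h1, h2, h3⟩ := ih (al := al) (be := a) ha'.1 (fun v hv =>
      ⟨(hV v (Finset.mem_insert_of_mem hv)).1, hs v (Finset.mem_insert_of_mem hv) a
        (Finset.mem_insert_self _ _) (ha v hv)⟩) fun v hv w hw =>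
      hs v (Finset.mem_insert_of_mem hv) w (Finset.mem_insert_of_mem hw)
    refine ⟨n + 1, fun j => if j ≤ n then x j else be, ?_, ?_, fun j hj => ?_, fun v hv => ?_,
      fun j hj => ?_⟩
    · simp [h0]
    · simp
    · rcases Nat.lt_or_ge j n with h | h
      · simp only [show j ≤ n from h.le, if_true, show j + 1 ≤ n from h]
        exact h1 j h
      · have : j = n := by omega
        subst this
        simp only [le_refl, if_true, show ¬ (j + 1 ≤ j) by omega, if_false]
        rw [hn]; exact ha'.2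
    · rw [Finset.mem_insert] at hv
      rcases hv with rfl | hv
      · exact ⟨n, by omega, by simp [hn]⟩
      · obtain ⟨j, hj, rfl⟩ := h2 v hv
        exact ⟨j, by omega, by simp [hj]⟩
    · by_cases h : j ≤ n
      · simp only [h, if_true]
        rcases h3 j h with h4 | h4 | h4
        · exact Or.inl h4
        · exact Or.inr (Or.inr (by rw [h4]; exact Finset.mem_insert_self _ _))
        · exact Or.inr (Or.inr (Finset.mem_insert_of_mem h4))
      · simp [h]

/-- the correction -/
structure Fix (al be : ℝ) (V : Finset ℝ) (σ : ℝ → ℝ) (d ε : ℝ) (τ τ' : ℝ → ℝ) : Prop where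
  cont : Continuous τ
  cont' : Continuous τ'
  con : ConicalOn τ univ
  con' : ConicalOn τ' univ
  mono : StrictMono τ
  mono' : StrictMono τ'
  left : ∀ t, τ' (τ t) = t
  right : ∀ t, τ (τ' t) = t
  out : ∀ t, t ≤ al ∨ be ≤ t → τ t = t
  fix : ∀ v ∈ V, τ (σ v) = v
  disp : ∀ t, |τ t - t| ≤ d
  lip : ∀ s t, |τ s - τ t| ≤ (1 + ε) * |s - t|
  lip' : ∀ s t, |τ' s - τ' t| ≤ (1 + ε) * |s - t|

/-- **[FIX]** a near-identity homeomorphism `τ` such that `τ ∘ σ` fixes the mesh coordinates -/
theorem exists_fix {al be g d : ℝ} {V : Finset ℝ} {σ : ℝ → ℝ} (hg : 0 < g) (hab : al + g ≤ be)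
    (hV : ∀ v ∈ V, al + g ≤ v ∧ v + g ≤ be) (hs : ∀ v ∈ V, ∀ w ∈ V, v < w → v + g ≤ w)
    (hal : σ al = al) (hbe : σ be = be) (hd0 : 0 ≤ d) (hd : ∀ v ∈ V, |σ v - v| ≤ d)
    (hdg : 4 * d ≤ g) : ∃ τ τ' : ℝ → ℝ, Fix al be V σ d (4 * d / g) τ τ' := by
  obtain ⟨n, x, h0, hn, h1, h2, h3⟩ := exists_nodes V hab hV hs
  have hσ : ∀ j ≤ n, |σ (x j) - x j| ≤ d := by
    intro j hj
    rcases h3 j hj with h | h | h
    · rw [h, hal, sub_self, abs_zero]; exact hd0
    · rw [h, hbe, sub_self, abs_zero]; exact hd0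
    · exact hd _ h
  have hx : Inc n x := fun j hj => by have := h1 j hj; linarith
  have hy : Inc n (fun j => σ (x j)) := fun j hj => by
    have a1 := abs_le.1 (hσ j hj.le)
    have a2 := abs_le.1 (hσ (j + 1) hj)
    have := h1 j hj
    show σ (x j) < σ (x (j + 1))
    linarith [a1.2, a2.1]
  have hε : 0 ≤ 4 * d / g := by positivity
  have hsl : ∀ j < n, slp (fun j => σ (x j)) x j ≤ 1 + 4 * d / g := by
    intro j hj
    have a1 := abs_le.1 (hσ j hj.le)
    have a2 := abs_le.1 (hσ (j + 1) hj)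
    have a3 := h1 j hj
    have a4 := hy j hj
    unfold slp
    rw [div_le_iff₀ (sub_pos.2 a4)]
    have a5 : g / 2 ≤ σ (x (j + 1)) - σ (x j) := by linarith [a1.2, a2.1]
    have a6 : 2 * d ≤ 4 * d / g * (σ (x (j + 1)) - σ (x j)) := by
      calc 2 * d = 4 * d / g * (g / 2) := by field_simp; ring
        _ ≤ _ := by gcongr
    linarith [a1.1, a2.2, a1.2, a2.1]
  have hsl' : ∀ j < n, slp x (fun j => σ (x j)) j ≤ 1 + 4 * d / g := by
    intro j hj
    have a1 := abs_le.1 (hσ j hj.le)
    have a2 := abs_le.1 (hσ (j + 1) hj)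
    have a3 := h1 j hj
    have a4 := hx j hj
    unfold slp
    rw [div_le_iff₀ (sub_pos.2 a4)]
    have a6 : 2 * d ≤ 4 * d / g * (x (j + 1) - x j) := by
      calc 2 * d ≤ 4 * d := by linarith
        _ = 4 * d / g * g := by field_simp
        _ ≤ _ := by
          have : g ≤ x (j + 1) - x j := by linarith
          gcongr
    linarith [a1.1, a2.2]
  refine ⟨pl n (fun j => σ (x j)) x, pl n x (fun j => σ (x j)), pl_continuous _ _ _,
    pl_continuous _ _ _, pl_conicalOn _ _ _, pl_conicalOn _ _ _, pl_strictMono hy hx,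
    pl_strictMono hx hy, pl_pl hy hx, pl_pl hx hy, fun t ht => ?_, fun v hv => ?_, fun t => ?_,
    fun s t => ?_, fun s t => ?_⟩
  · have e0 : σ (x 0) = al := by rw [h0, hal]
    have en : σ (x n) = be := by rw [hn, hbe]
    rcases ht with ht | ht
    · rw [pl_of_le hy (by show t ≤ σ (x 0); rw [e0]; exact ht)]
      show x 0 + (t - σ (x 0)) = t
      rw [e0, h0]; ring
    · rw [pl_of_ge hy (by show σ (x n) ≤ t; rw [en]; exact ht)]
      show x n + (t - σ (x n)) = t
      rw [en, hn]; ring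
  · obtain ⟨j, hj, rfl⟩ := h2 v hv
    exact pl_apply hy hj
  · refine abs_pl_sub_self_le hy (fun j hj => ?_) t
    rw [abs_sub_comm]; exact hσ j hj
  · exact abs_pl_sub_le hy (fun j hj => (hx j hj).le) (by linarith) hsl s t
  · exact abs_pl_sub_le hx (fun j hj => (hy j hj).le) (by linarith) hsl' s t

/-- a strictly monotone conical map of the line with bounded displacement has an inverse of the
same kind -/
theorem exists_inv1 {k : ℝ → ℝ} (hk : StrictMono k) (hc : Continuous k) (hcon : ConicalOn k univ)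
    {M : ℝ} (hM : ∀ t, |k t - t| ≤ M) : ∃ k' : ℝ → ℝ, StrictMono k' ∧ Continuous k' ∧
      ConicalOn k' univ ∧ (∀ t, k' (k t) = t) ∧ ∀ t, k (k' t) = t := by
  have hsurj : Function.Surjective k := by
    intro s
    have h1 := (abs_le.1 (hM (s - M))).2
    have h2 := (abs_le.1 (hM (s + M))).1
    have hM0 : 0 ≤ M := (abs_nonneg _).trans (hM 0)
    obtain ⟨t, -, ht⟩ := intermediate_value_Icc (by linarith : s - M ≤ s + M)
      hc.continuousOn (show s ∈ Icc (k (s - M)) (k (s + M)) from ⟨by linarith, by linarith⟩)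
    exact ⟨t, ht⟩
  set e : ℝ ≃o ℝ := hk.orderIsoOfSurjective k hsurj with he
  have hek : ∀ t, e t = k t := fun t => rfl
  have hl : ∀ t, e.symm (k t) = t := fun t => e.symm_apply_apply t
  have hr : ∀ t, k (e.symm t) = t := fun t => e.apply_symm_apply t
  let H : ConHomeo (univ : Set ℝ) (univ : Set ℝ) :=
    { toFun := k
      invFun := e.symm
      mapsTo := mapsTo_univ _ _
      mapsTo_inv := mapsTo_univ _ _
      left_inv := fun t _ => hl t
      right_inv := fun t _ => hr t
      cont := hc.continuousOn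
      cont_inv := e.symm.continuous.continuousOn
      conical := hcon }
  exact ⟨e.symm, e.symm.strictMono, e.symm.continuous, H.conical_inv, hl, hr⟩

/-! ### From thick cells to thin flats -/

/-- thick flats `[b - c', b + c']` onto thin flats `[b - lam c', b + lam c']`; the identity off the
cells `[b - 2 c', b + 2 c']` -/
noncomputable def th (L : Finset ℝ) (c' lam t : ℝ) : ℝ := lam * t + (1 - lam) * qm L c' t

section
variable {L : Finset ℝ} {c' lam : ℝ}

theorem th_strictMono (hc : 0 ≤ c') (h : Sepd L c') (h0 : 0 < lam) (h1 : lam ≤ 1) :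
    StrictMono (th L c' lam) := fun s t hst => by
  have h2 := qm_monotone hc h hst.le
  unfold th
  have h3 := mul_lt_mul_of_pos_left hst h0
  have h4 := mul_le_mul_of_nonneg_left h2 (by linarith : 0 ≤ 1 - lam)
  linarith

theorem th_continuous (L : Finset ℝ) (c' lam : ℝ) : Continuous (th L c' lam) := by
  have := qm_continuous L c'
  unfold th; fun_prop

theorem th_conicalOn (L : Finset ℝ) (c' lam : ℝ) : ConicalOn (th L c' lam) univ := by
  have hu : ConicalSet (univ : Set ℝ) := isOpen_univ.conicalSet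
  exact ((conicalOn_id hu).const_smul lam).add ((qm_conicalOn L c').const_smul (1 - lam))

theorem th_flat (hc : 0 ≤ c') (h : Sepd L c') {b : ℝ} (hb : b ∈ L) {t : ℝ} (ht : |t - b| ≤ c') :
    th L c' lam t = b + lam * (t - b) := by
  unfold th; rw [qm_flat hc h hb ht]; ring

theorem th_off (hc : 0 ≤ c') {t : ℝ} (ht : ∀ b ∈ L, 2 * c' ≤ |t - b|) : th L c' lam t = t := by
  unfold th; rw [qm_off hc ht]; ring

theorem abs_th_sub_le (hc : 0 ≤ c') (h : Sepd L c') (h0 : 0 ≤ lam) (h1 : lam ≤ 1) (t : ℝ) :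
    |th L c' lam t - t| ≤ c' := by
  have h2 := abs_qm_sub_le hc h t
  have e : th L c' lam t - t = (1 - lam) * (qm L c' t - t) := by unfold th; ring
  rw [e, abs_mul, abs_of_nonneg (by linarith : 0 ≤ 1 - lam)]
  calc (1 - lam) * |qm L c' t - t| ≤ 1 * c' := by
        apply mul_le_mul (by linarith) h2 (abs_nonneg _) zero_le_one
    _ = c' := one_mul _

theorem abs_th_sub_th_le (hc : 0 ≤ c') (h : Sepd L c') (h0 : 0 ≤ lam) (h1 : lam ≤ 1) (s t : ℝ) :
    |th L c' lam s - th L c' lam t| ≤ 2 * |s - t| := by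
  have h2 := abs_qm_sub_qm_le hc h s t
  have e : th L c' lam s - th L c' lam t = lam * (s - t) + (1 - lam) * (qm L c' s - qm L c' t) := by
    unfold th; ring
  rw [e]
  refine (abs_add_le _ _).trans ?_
  rw [abs_mul, abs_mul, abs_of_nonneg h0, abs_of_nonneg (by linarith : 0 ≤ 1 - lam)]
  have h3 := mul_le_mul_of_nonneg_left h2 (by linarith : 0 ≤ 1 - lam)
  nlinarith [abs_nonneg (s - t)]

/-- position in the thin flat of the image -/
theorem fl_th (hc : 0 ≤ c') (h : Sepd L c') (h0 : 0 < lam) (h1 : lam ≤ 1) {b : ℝ} (hb : b ∈ L)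
    (t : ℝ) : fl (lam * c') b (th L c' lam t) = lam * fl c' b t := by
  have hm := (th_strictMono hc h h0 h1).monotone
  have hlc : 0 ≤ lam * c' := by positivity
  rcases le_total t (b - c') with h2 | h2
  · have h3 := hm h2
    rw [th_flat (t := b - c') hc h hb (by rw [abs_le]; constructor <;> linarith)] at h3
    rw [fl_of_le h2, fl_of_le (by linarith), mul_zero]
  · rcases le_total (b + c') t with h4 | h4
    · have h3 := hm h4
      rw [th_flat (t := b + c') hc h hb (by rw [abs_le]; constructor <;> linarith)] at h3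
      rw [fl_of_ge hc h4, fl_of_ge hlc (by linarith)]
      ring
    · have h5 : |t - b| ≤ c' := abs_le.2 ⟨by linarith, by linarith⟩
      rw [th_flat hc h hb h5, fl_of_mem h2 h4, fl_of_mem]
      · ring
      · nlinarith
      · nlinarith

theorem sum_abs_fl_le (hc : 0 ≤ c') (h : Sepd L c') (s t : ℝ) :
    ∑ b ∈ L, |fl c' b s - fl c' b t| ≤ |s - t| :=
  sum_abs_rho_le (lo := fun a => a - c') (hi := fun a => a + c') (fun a _ => by linarith)
    (fun a ha b hb hab => by have := h a ha b hb hab; linarith) s t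

/-- `σ` moves by at most `W` times the flat parts plus `B` times the rest -/
def LvLip (L : Finset ℝ) (c W B : ℝ) (σ : ℝ → ℝ) : Prop :=
  ∀ s t, |σ s - σ t| ≤ W * ∑ b ∈ L, |fl c b s - fl c b t| + B * |s - t|

theorem LvLip.comp_th {c W B : ℝ} {σ : ℝ → ℝ} (H : LvLip L c W B σ) (hc : 0 ≤ c')
    (h : Sepd L c') (h0 : 0 < lam) (h1 : lam ≤ 1) (hl : c = lam * c') (hW : 0 ≤ W) (hB : 0 ≤ B)
    (s t : ℝ) : |σ (th L c' lam s) - σ (th L c' lam t)| ≤ (W * lam + 2 * B) * |s - t| := by
  have h2 := H (th L c' lam s) (th L c' lam t)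
  have h3 : ∑ b ∈ L, |fl c b (th L c' lam s) - fl c b (th L c' lam t)| =
      lam * ∑ b ∈ L, |fl c' b s - fl c' b t| := by
    rw [Finset.mul_sum]
    refine Finset.sum_congr rfl fun b hb => ?_
    rw [hl, fl_th hc h h0 h1 hb, fl_th hc h h0 h1 hb, ← mul_sub, abs_mul, abs_of_pos h0]
  rw [h3] at h2
  have h4 := sum_abs_fl_le hc h s t
  have h5 := abs_th_sub_th_le hc h h0.le h1 s t
  calc |σ (th L c' lam s) - σ (th L c' lam t)|
      ≤ W * (lam * ∑ b ∈ L, |fl c' b s - fl c' b t|) +
        B * |th L c' lam s - th L c' lam t| := h2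
    _ ≤ W * (lam * |s - t|) + B * (2 * |s - t|) := by gcongr
    _ = _ := by ring

end

/-- two-step estimate for clips -/
theorem abs_cl_comp_le {σ f : ℝ → ℝ} {A m m' s t : ℝ} (h1 : |f s - f t| ≤ A * |s - t|)
    (h2 : |σ (f s) - σ (f t)| ≤ A * |s - t|) :
    |cl σ m (f s) - cl σ m' (f t)| ≤ A * |s - t| + |m - m'| := by
  unfold cl
  have a1 := abs_max_sub_max_le_max (f s - m) (min (f s + m) (σ (f s))) (f t - m')
    (min (f t + m') (σ (f t)))
  have a2 := abs_min_sub_min_le_max (f s + m) (σ (f s)) (f t + m') (σ (f t))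
  have a3 : |f s - m - (f t - m')| ≤ |f s - f t| + |m - m'| := by
    have : f s - m - (f t - m') = (f s - f t) - (m - m') := by ring
    rw [this]; exact abs_sub _ _
  have a4 : |f s + m - (f t + m')| ≤ |f s - f t| + |m - m'| := by
    have : f s + m - (f t + m') = (f s - f t) + (m - m') := by ring
    rw [this]; exact abs_add_le _ _
  refine a1.trans (max_le (by linarith) (a2.trans (max_le (by linarith) ?_)))
  linarith [abs_nonneg (m - m')]

/-- **the vertical coordinate on a protected cell**: `cl τ m ∘ cl σ m ∘ cl th m₁` -/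
theorem abs_comp_le {L : Finset ℝ} {c' lam A T : ℝ} {σ τ : ℝ → ℝ} (hc : 0 ≤ c')
    (h : Sepd L c') (h0 : 0 < lam) (h1 : lam ≤ 1) (hA : 2 ≤ A)
    (hσ : ∀ s t, |σ (th L c' lam s) - σ (th L c' lam t)| ≤ A * |s - t|) (hT : 1 ≤ T)
    (hτ : ∀ s t, |τ s - τ t| ≤ T * |s - t|) {m m' m₁ m₁' : ℝ} (hm : 0 ≤ m) (hm' : 0 ≤ m')
    (h2 : 0 < m → c' ≤ m₁) (h2' : 0 < m' → c' ≤ m₁') (s t : ℝ) :
    |cl τ m (cl σ m (cl (th L c' lam) m₁ s)) - cl τ m' (cl σ m' (cl (th L c' lam) m₁' t))| ≤
      T * (A * |s - t| + 2 * |m - m'| + |m₁ - m₁'|) + |m - m'| := by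
  have hd := abs_th_sub_le hc h h0.le h1
  have hth : ∀ s t, |th L c' lam s - th L c' lam t| ≤ A * |s - t| := fun s t =>
    (abs_th_sub_th_le hc h h0.le h1 s t).trans (by gcongr)
  have hfull : ∀ {m₁ : ℝ}, c' ≤ m₁ → ∀ t, cl (th L c' lam) m₁ t = th L c' lam t :=
    fun {m₁} hm₁ t => cl_eq ((hd t).trans hm₁)
  refine (abs_cl_sub_cl_le hT (hτ _ _)).trans (add_le_add_left ?_ _)
  refine mul_le_mul_of_nonneg_left ?_ (by linarith)
  rcases hm.eq_or_lt with e | e
  · rcases hm'.eq_or_lt with e' | e'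
    · rw [← e, ← e', cl_zero, cl_zero]
      have := abs_cl_sub_cl_le (m := m₁) (m' := m₁') (by linarith : 1 ≤ A) (hth s t)
      rw [sub_self, abs_zero]
      linarith
    · rw [← e, cl_zero, hfull (h2' e')]
      -- compare with `cl th m₁'`
      have a1 := abs_cl_sub_cl_le (m := m₁) (m' := m₁') (by linarith : 1 ≤ A) (hth s t)
      rw [hfull (h2' e')] at a1
      have a2 : |cl σ m' (th L c' lam t) - th L c' lam t| ≤ m' := abs_cl_sub_le hm'
      have a3 : |(0:ℝ) - m'| = m' := by rw [zero_sub, abs_neg, abs_of_pos e']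
      rw [a3]
      have a4 := abs_sub_le (cl (th L c' lam) m₁ s) (th L c' lam t) (cl σ m' (th L c' lam t))
      rw [abs_sub_comm (th L c' lam t)] at a4
      linarith
  · rcases hm'.eq_or_lt with e' | e'
    · rw [← e', cl_zero, hfull (h2 e)]
      have a1 := abs_cl_sub_cl_le (m := m₁) (m' := m₁') (by linarith : 1 ≤ A) (hth s t)
      rw [hfull (h2 e)] at a1
      have a2 : |cl σ m (th L c' lam s) - th L c' lam s| ≤ m := abs_cl_sub_le hm
      rw [sub_zero, abs_of_pos e]
      have a4 := abs_sub_le (cl σ m (th L c' lam s)) (th L c' lam s) (cl (th L c' lam) m₁' t)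
      linarith
    · rw [hfull (h2 e), hfull (h2' e')]
      have := abs_cl_comp_le (f := th L c' lam) (m := m) (m' := m') (hth s t) (hσ s t)
      linarith [abs_nonneg (m - m'), abs_nonneg (m₁ - m₁')]

end P073.H196
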