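import Vale.Agent.P073.H196.PRoundP

/-!
# P073, H196, [PCELL], Round P: the input from vertical moves

`Ver`: on the protected cell the map `h1` and the ideal coordinates `X` have the same levels in the
plate `Icc p q`, are equal in the cells, and vertical moves of `X` inside the cells are vertical moves
of `h1`. Then the fields `box`, `vert`, `pos1` of `PIn` hold.
-/

open Set Metric Topology Filter

namespace P073.H196

open P073 P073.H236 P073.H579
open Vale.Agent.P073.St (V)

/-- `h1` is vertical over `X` in the cells of the plate `Icc p q` -/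
structure Ver (Q : Set V) (h1 X : V → V) (p q : V) (L : Fin 3 → Finset ℝ) (c' : Fin 3 → ℝ) :
    Prop where
  lv : SameLv (part Q h1 (Icc p q)) L h1 X
  eq : ∀ x ∈ part Q h1 (Icc p q), ∀ j, ∀ b ∈ L j, |h1 x j - b| ≤ 2 * c' j → h1 x j = X x j
  mv : ∀ x ∈ part Q h1 (Icc p q), ∀ j, ∀ b ∈ L j, |X x j - b| ≤ 2 * c' j →
    ∀ t, |t - b| ≤ 2 * c' j → ∃ x' ∈ Q, X x' = Function.update (X x) j t ∧
      h1 x' = Function.update (h1 x) j t
  pq : ∀ j, ∀ b ∈ L j, 2 * c' j < |p j - b| ∧ 2 * c' j < |q j - b|

/-- a map of one variable which preserves the cells and is the identity off the cells -/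
structure CellMap (k : ℝ → ℝ) (L : Finset ℝ) (c' : ℝ) : Prop where
  cell : ∀ b ∈ L, ∀ t, |t - b| ≤ 2 * c' → |k t - b| ≤ 2 * c'
  off : ∀ t, (∀ b ∈ L, 2 * c' < |t - b|) → k t = t

theorem CellMap.empty (c' : ℝ) : CellMap id ∅ c' :=
  ⟨fun b hb => absurd hb (Finset.notMem_empty b), fun _ _ => rfl⟩

theorem CellMap.comp {k k₁ : ℝ → ℝ} {L : Finset ℝ} {c' : ℝ} (h : CellMap k L c')
    (h1 : CellMap k₁ L c') : CellMap (fun t => k (k₁ t)) L c' where
  cell := fun b hb t ht => h.cell b hb _ (h1.cell b hb t ht)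
  off := fun t ht => by
    show k (k₁ t) = t
    rw [h1.off t ht, h.off t ht]

theorem cellMap_qm {L : Finset ℝ} {c : ℝ} (hc : 0 ≤ c) (hs : Sepd L c) : CellMap (qm L c) L c where
  cell := fun b hb t ht => by
    obtain ⟨a1, a2⟩ := abs_le.1 ht
    have := qm_mem_cell hc hs hb (t := t) ⟨by linarith, by linarith⟩
    rw [abs_le]; constructor <;> linarith [this.1, this.2]
  off := fun t ht => qm_off hc fun b hb => (ht b hb).le

theorem cellMap_th {L : Finset ℝ} {c lam : ℝ} (hc : 0 ≤ c) (hs : Sepd L c) (h0 : 0 ≤ lam)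
    (h1 : lam ≤ 1) : CellMap (th L c lam) L c where
  cell := fun b hb t ht => by
    obtain ⟨a1, a2⟩ := abs_le.1 ht
    have := th_mem_cell hc hs h0 h1 hb (t := t) ⟨by linarith, by linarith⟩
    rw [abs_le]; constructor <;> linarith [this.1, this.2]
  off := fun t ht => th_off hc fun b hb => (ht b hb).le

/-- thin cells inside thick cells -/
theorem cellMap_qm_thin {L : Finset ℝ} {c c' : ℝ} (hc : 0 ≤ c) (hcc : c ≤ c') (hs : Sepd L c') :
    CellMap (qm L c) L c' := by
  have hs' : Sepd L c := fun x hx y hy hxy => by have := hs x hx y hy hxy; linarith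
  have key := cellMap_qm hc hs'
  refine ⟨fun b hb t ht => ?_, fun t ht => key.off t fun b hb => by
    have := ht b hb; linarith⟩
  by_cases h1 : |t - b| ≤ 2 * c
  · have := key.cell b hb t h1; linarith
  · rw [key.off t]
    · exact ht
    · intro b' hb'
      by_cases hbb : b' = b
      · rw [hbb]; exact not_le.1 h1
      · obtain ⟨a1, a2⟩ := abs_le.1 ht
        rcases lt_or_gt_of_ne hbb with h3 | h3
        · have h4 := hs b' hb' b hb h3
          by_cases h5 : t = b - 2 * c'
          · rcases hcc.lt_or_eq with h6 | h6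
            · exact lt_abs.2 (Or.inl (by linarith))
            · exfalso; apply h1; rw [h5, h6, show b - 2 * c' - b = -(2 * c') by ring, abs_neg,
                abs_of_nonneg (by linarith)]
          · have h6 : b - 2 * c' < t := lt_of_le_of_ne (by linarith) (Ne.symm h5)
            exact lt_abs.2 (Or.inl (by linarith))
        · have h4 := hs b hb b' hb' h3
          by_cases h5 : t = b + 2 * c'
          · rcases hcc.lt_or_eq with h6 | h6
            · exact lt_abs.2 (Or.inr (by linarith))
            · exfalso; apply h1; rw [h5, h6, show b + 2 * c' - b = 2 * c' by ring,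
                abs_of_nonneg (by linarith)]
          · have h6 : t < b + 2 * c' := lt_of_le_of_ne (by linarith) h5
            exact lt_abs.2 (Or.inr (by linarith))

/-- an end off the cells stays on the same side -/
theorem CellMap.side {k : ℝ → ℝ} {L : Finset ℝ} {c' p : ℝ} (hk : CellMap k L c')
    (hp : ∀ b ∈ L, 2 * c' < |p - b|) (t : ℝ) :
    (p ≤ k t ↔ p ≤ t) ∧ (k t ≤ p ↔ t ≤ p) ∧ (p < k t ↔ p < t) ∧ (k t < p ↔ t < p) := by
  by_cases h : ∃ b ∈ L, |t - b| ≤ 2 * c'
  · obtain ⟨b, hb, h⟩ := h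
    have h2 := hk.cell b hb t h
    have h3 := hp b hb
    obtain ⟨a1, a2⟩ := abs_le.1 h
    obtain ⟨a3, a4⟩ := abs_le.1 h2
    rcases lt_abs.1 h3 with h4 | h4
    · refine ⟨⟨fun _ => ?_, fun _ => ?_⟩, ⟨fun _ => ?_, fun _ => ?_⟩, ⟨fun _ => ?_, fun _ => ?_⟩,
        ⟨fun _ => ?_, fun _ => ?_⟩⟩ <;> linarith
    · refine ⟨⟨fun _ => ?_, fun _ => ?_⟩, ⟨fun _ => ?_, fun _ => ?_⟩, ⟨fun _ => ?_, fun _ => ?_⟩,
        ⟨fun _ => ?_, fun _ => ?_⟩⟩ <;> linarith
  · push Not at h
    rw [hk.off t h]
    exact ⟨Iff.rfl, Iff.rfl, Iff.rfl, Iff.rfl⟩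

/-- boxes with ends off the cells are preserved -/
theorem prodK_mem_Icc {k : Fin 3 → ℝ → ℝ} {L : Fin 3 → Finset ℝ} {c' : Fin 3 → ℝ} {p q : V}
    (hk : ∀ j, CellMap (k j) (L j) (c' j))
    (hpq : ∀ j, ∀ b ∈ L j, 2 * c' j < |p j - b| ∧ 2 * c' j < |q j - b|) (y : V) :
    prodK k y ∈ Icc p q ↔ y ∈ Icc p q := by
  simp only [mem_Icc, Pi.le_def]
  refine and_congr (forall_congr' fun j => ?_) (forall_congr' fun j => ?_)
  · exact ((hk j).side (fun b hb => (hpq j b hb).1) (y j)).1
  · exact ((hk j).side (fun b hb => (hpq j b hb).2) (y j)).2.1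

theorem interior_Icc_V (p q : V) : interior (Icc p q) = {y | ∀ j, p j < y j ∧ y j < q j} := by
  rw [← pi_univ_Icc, interior_pi_set finite_univ]
  ext y
  simp [interior_Icc]

theorem prodK_mem_interior {k : Fin 3 → ℝ → ℝ} {L : Fin 3 → Finset ℝ} {c' : Fin 3 → ℝ} {p q : V}
    (hk : ∀ j, CellMap (k j) (L j) (c' j))
    (hpq : ∀ j, ∀ b ∈ L j, 2 * c' j < |p j - b| ∧ 2 * c' j < |q j - b|) (y : V) :
    prodK k y ∈ interior (Icc p q) ↔ y ∈ interior (Icc p q) := by
  rw [interior_Icc_V]
  simp only [mem_ofPred_eq]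
  refine forall_congr' fun j => and_congr ?_ ?_
  · exact ((hk j).side (fun b hb => (hpq j b hb).1) (y j)).2.2.1
  · exact ((hk j).side (fun b hb => (hpq j b hb).2) (y j)).2.2.2

namespace Ver

variable {Q : Set V} {h1 X : V → V} {p q : V} {L : Fin 3 → Finset ℝ} {c' : Fin 3 → ℝ}

/-- in the cells of `X` the two maps are equal -/
theorem eq' (H : Ver Q h1 X p q L c') (hinj : InjOn X Q) {x : V}
    (hx : x ∈ part Q h1 (Icc p q)) {j : Fin 3} {b : ℝ} (hb : b ∈ L j)
    (h : |X x j - b| ≤ 2 * c' j) : h1 x j = X x j := by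
  obtain ⟨x', hx', e1, e2⟩ := H.mv x hx j b hb h _ h
  rw [Function.update_eq_self] at e1
  have := hinj hx' hx.1 e1
  rw [this] at e2
  have := congrFun e2 j
  rwa [Function.update_self] at this

/-- a vertical move, one coordinate -/
theorem step (H : Ver Q h1 X p q L c') (hinj : InjOn X Q) {x : V}
    (hx : x ∈ part Q h1 (Icc p q)) {j : Fin 3} {t : ℝ}
    (ht : t = X x j ∨ ∃ b ∈ L j, |X x j - b| ≤ 2 * c' j ∧ |t - b| ≤ 2 * c' j) :
    ∃ x' ∈ part Q h1 (Icc p q), X x' = Function.update (X x) j t ∧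
      (∀ i, i ≠ j → h1 x' i = h1 x i) ∧
      (h1 x' j = h1 x j + (t - X x j)) := by
  rcases ht with ht | ⟨b, hb, h2, h3⟩
  · refine ⟨x, hx, by rw [ht, Function.update_eq_self], fun _ _ => rfl, by rw [ht]; ring⟩
  · obtain ⟨x', hx', e1, e2⟩ := H.mv x hx j b hb h2 t h3
    have h4 := H.eq' hinj hx hb h2
    refine ⟨x', ⟨hx', ?_⟩, e1, fun i hi => by rw [e2, Function.update_of_ne hi], ?_⟩
    · rw [e2]
      obtain ⟨a1, a2⟩ := hx.2
      obtain ⟨b1, b2⟩ := H.pq j b hb
      obtain ⟨c1, c2⟩ := abs_le.1 h2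
      obtain ⟨c3, c4⟩ := abs_le.1 h3
      have hp : p j ≤ t := by
        have := a1 j
        rw [h4] at this
        rcases lt_abs.1 b1 with h5 | h5 <;> linarith
      have hq : t ≤ q j := by
        have := a2 j
        rw [h4] at this
        rcases lt_abs.1 b2 with h5 | h5 <;> linarith
      constructor
      · intro i
        by_cases hi : i = j
        · subst hi; rw [Function.update_self]; exact hp
        · rw [Function.update_of_ne hi]; exact a1 i
      · intro i
        by_cases hi : i = j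
        · subst hi; rw [Function.update_self]; exact hq
        · rw [Function.update_of_ne hi]; exact a2 i
    · rw [e2, Function.update_self, h4]; ring

/-- vertical moves in all coordinates -/
theorem steps (H : Ver Q h1 X p q L c') (hinj : InjOn X Q) {x : V}
    (hx : x ∈ part Q h1 (Icc p q)) {y : V}
    (hy : ∀ j, y j = X x j ∨ ∃ b ∈ L j, |X x j - b| ≤ 2 * c' j ∧ |y j - b| ≤ 2 * c' j) :
    ∃ x' ∈ part Q h1 (Icc p q), X x' = y ∧ ∀ j, h1 x' j = h1 x j + (y j - X x j) := by
  obtain ⟨x0, m0, e0, f0, g0⟩ := H.step hinj hx (j := 0) (t := y 0) (hy 0)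
  obtain ⟨x1, m1, e1, f1, g1⟩ := H.step hinj m0 (j := 1) (t := y 1) (by
    rw [e0, Function.update_of_ne (by decide)]; exact hy 1)
  obtain ⟨x2, m2, e2, f2, g2⟩ := H.step hinj m1 (j := 2) (t := y 2) (by
    rw [e1, Function.update_of_ne (by decide), e0, Function.update_of_ne (by decide)]; exact hy 2)
  refine ⟨x2, m2, ?_, ?_⟩
  · ext j
    fin_cases j
    · show X x2 0 = y 0
      rw [e2, Function.update_of_ne (by decide), e1, Function.update_of_ne (by decide), e0,
        Function.update_self]
    · show X x2 1 = y 1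
      rw [e2, Function.update_of_ne (by decide), e1, Function.update_self]
    · show X x2 2 = y 2
      rw [e2, Function.update_self]
  · intro j
    fin_cases j
    · show h1 x2 0 = h1 x 0 + (y 0 - X x 0)
      rw [f2 0 (by decide), f1 0 (by decide), g0]
    · show h1 x2 1 = h1 x 1 + (y 1 - X x 1)
      rw [f2 1 (by decide), g1, f0 1 (by decide), e0, Function.update_of_ne (by decide)]
    · show h1 x2 2 = h1 x 2 + (y 2 - X x 2)
      rw [g2, f1 2 (by decide), f0 2 (by decide), e1, Function.update_of_ne (by decide), e0,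
        Function.update_of_ne (by decide)]

theorem cases {k' : ℝ → ℝ} {L : Finset ℝ} {c t : ℝ} (hk : CellMap k' L c) :
    k' t = t ∨ ∃ b ∈ L, |t - b| ≤ 2 * c ∧ |k' t - b| ≤ 2 * c := by
  by_cases h : ∃ b ∈ L, |t - b| ≤ 2 * c
  · obtain ⟨b, hb, h⟩ := h
    exact Or.inr ⟨b, hb, h, hk.cell b hb t h⟩
  · push Not at h
    exact Or.inl (hk.off t h)

theorem box (H : Ver Q h1 X p q L c') (hinj : InjOn X Q) {k' : Fin 3 → ℝ → ℝ}
    (hk : ∀ j, CellMap (k' j) (L j) (c' j)) (y : V) :
    prodK k' y ∈ X '' part Q h1 (Icc p q) ↔ y ∈ X '' part Q h1 (Icc p q) := by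
  constructor
  · rintro ⟨x, hx, hxy⟩
    obtain ⟨x', hx', e, -⟩ := H.steps hinj hx (y := y) fun j => by
      have h3 : X x j = k' j (y j) := congrFun hxy j
      rw [h3]
      rcases cases (hk j) (t := y j) with h | ⟨b, hb, h4, h5⟩
      · exact Or.inl h.symm
      · exact Or.inr ⟨b, hb, h5, h4⟩
    exact ⟨x', hx', e⟩
  · rintro ⟨x, hx, rfl⟩
    obtain ⟨x', hx', e, -⟩ := H.steps hinj hx (y := prodK k' (X x)) fun j => by
      show k' j (X x j) = X x j ∨ _
      rcases cases (hk j) (t := X x j) with h | ⟨b, hb, h4, h5⟩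
      · exact Or.inl h
      · exact Or.inr ⟨b, hb, h4, h5⟩
    exact ⟨x', hx', e⟩

/-- off the cells of `X` the map `h1` is off the cells too -/
theorem off_cells (H : Ver Q h1 X p q L c') {x : V} (hx : x ∈ part Q h1 (Icc p q)) {j : Fin 3}
    (h : ∀ b ∈ L j, 2 * c' j < |X x j - b|) : ∀ b ∈ L j, 2 * c' j < |h1 x j - b| := by
  intro b hb
  by_contra hcon
  push Not at hcon
  have := H.eq x hx j b hb hcon
  have h2 := h b hb
  rw [← this] at h2
  linarith

theorem vert (H : Ver Q h1 X p q L c') (hinj : InjOn X Q) {k' : Fin 3 → ℝ → ℝ}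
    (hk : ∀ j, CellMap (k' j) (L j) (c' j)) {x : V} (hx : x ∈ part Q h1 (Icc p q)) {x' : V}
    (hx' : x' ∈ part Q h1 (Icc p q)) (he : X x' = prodK k' (X x)) :
    h1 x' = prodK k' (h1 x) := by
  obtain ⟨z, hz, e, hz2⟩ := H.steps hinj hx (y := prodK k' (X x)) fun j => by
    show k' j (X x j) = X x j ∨ _
    rcases cases (hk j) (t := X x j) with h | ⟨b, hb, h4, h5⟩
    · exact Or.inl h
    · exact Or.inr ⟨b, hb, h4, h5⟩
  have hzx : z = x' := hinj hz.1 hx'.1 (by rw [e, he])
  subst hzx
  ext j
  rw [hz2 j]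
  show h1 x j + (k' j (X x j) - X x j) = k' j (h1 x j)
  by_cases h : ∃ b ∈ L j, |X x j - b| ≤ 2 * c' j
  · obtain ⟨b, hb, h⟩ := h
    rw [H.eq' hinj hx hb h]; ring
  · push Not at h
    rw [(hk j).off _ h, (hk j).off _ (H.off_cells hx h)]
    ring

theorem pos1 (H : Ver Q h1 X p q L c') (hinj : InjOn X Q) (hc : ∀ j, 0 < c' j) {x : V}
    (hx : x ∈ part Q h1 (Icc p q)) {j : Fin 3} {b : ℝ} (hb : b ∈ L j) {lo' hi' : ℝ → ℝ}
    (hlo : b - 2 * c' j ≤ lo' b) (hhi : hi' b ≤ b + 2 * c' j) (hlt : lo' b < hi' b) :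
    pos lo' hi' b (h1 x j) = pos lo' hi' b (X x j) := by
  by_cases h : |X x j - b| ≤ 2 * c' j
  · rw [H.eq' hinj hx hb h]
  · by_cases h' : |h1 x j - b| ≤ 2 * c' j
    · rw [H.eq x hx j b hb h']
    · push Not at h h'
      have hcj := hc j
      rcases lt_abs.1 h with h3 | h3
      · have h4 : b < h1 x j := (H.lv.gt x hx j b hb).2 (by linarith)
        have h5 : 2 * c' j < h1 x j - b := by
          rcases lt_abs.1 h' with h5 | h5
          · exact h5
          · linarith
        rw [pos_of_ge hlt (by linarith), pos_of_ge hlt (by linarith)]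
      · have h4 : h1 x j < b := (H.lv.lt x hx j b hb).2 (by linarith)
        have h5 : 2 * c' j < -(h1 x j - b) := by
          rcases lt_abs.1 h' with h5 | h5
          · linarith
          · exact h5
        rw [pos_of_le hlt (by linarith), pos_of_le hlt (by linarith)]

end Ver

/-- the composition of the collapse of the thin flats with `th` has the thick flats -/
theorem ins1_qm_th {L : Finset ℝ} {c' lam : ℝ} (hc : 0 < c') (hs : Sepd L c') (h0 : 0 < lam)
    (h1 : lam ≤ 1) : Ins1 (fun t => qm L (lam * c') (th L c' lam t)) (L : Set ℝ)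
      (fun b => b - c') (fun b => b + c') := by
  have hlc : 0 < lam * c' := by positivity
  have hs' : Sepd L (lam * c') := fun x hx y hy hxy => by
    have := hs x hx y hy hxy
    nlinarith
  have hI := ins1_qm hlc hs'
  have hm := th_strictMono hc.le hs h0 h1
  exact
    { mono := hI.mono.comp hm.monotone
      cont := hI.cont.comp (th_continuous _ _ _)
      con := hI.con.comp (th_conicalOn _ _ _) (mapsTo_univ _ _) (th_continuous _ _ _).continuousOn
      surj := by
        obtain ⟨k', -, -, -, -, hk⟩ := exists_inv1 hm (th_continuous _ _ _) (th_conicalOn _ _ _)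
          (abs_th_sub_le hc.le hs h0.le h1)
        intro t
        obtain ⟨s, hs⟩ := hI.surj t
        exact ⟨k' s, by show qm L (lam * c') (th L c' lam (k' s)) = t; rw [hk, hs]⟩
      bdd := by
        obtain ⟨M, hM⟩ := hI.bdd
        refine ⟨M + c', fun t => ?_⟩
        have e1 := hM (th L c' lam t)
        have e2 := abs_th_sub_le hc.le hs h0.le h1 t
        have : qm L (lam * c') (th L c' lam t) - t =
          (qm L (lam * c') (th L c' lam t) - th L c' lam t) + (th L c' lam t - t) := by ring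
        rw [this]
        exact (abs_add_le _ _).trans (add_le_add e1 e2)
      lt := fun a _ => by show a - c' < a + c'; linarith
      flat := fun a ha t => by
        rw [hI.flat a ha]
        have := abs_th_sub_le_iff hc hs h0 h1 (Finset.mem_coe.1 ha) t
        rw [abs_le, abs_le] at this
        constructor
        · rintro ⟨a1, a2⟩
          have := this.1 ⟨by linarith, by linarith⟩
          constructor <;> linarith [this.1, this.2]
        · rintro ⟨a1, a2⟩
          have := this.2 ⟨by linarith, by linarith⟩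
          constructor <;> linarith [this.1, this.2]
      inj := fun t t' he hn => hm.injective (hI.inj _ _ he hn) }

/-- positions in the thin and in the thick flats -/
theorem pos_th {L : Finset ℝ} {c' lam : ℝ} (hc : 0 < c') (hs : Sepd L c') (h0 : 0 < lam)
    (h1 : lam ≤ 1) {b : ℝ} (hb : b ∈ L) (t : ℝ) :
    pos (fun b => b - lam * c') (fun b => b + lam * c') b (th L c' lam t) =
      pos (fun b => b - c') (fun b => b + c') b t := by
  have hlc : 0 < lam * c' := by positivity
  by_cases h : |t - b| ≤ c'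
  · obtain ⟨a1, a2⟩ := abs_le.1 h
    have h2 := th_flat hc.le hs hb (lam := lam) h
    have h3 := (abs_th_sub_le_iff hc hs h0 h1 hb t).2 h
    obtain ⟨a3, a4⟩ := abs_le.1 h3
    rw [pos_of_mem (by show b - lam * c' < b + lam * c'; linarith)
      (by show b - lam * c' ≤ _; linarith) (by show _ ≤ b + lam * c'; linarith),
      pos_of_mem (by show b - c' < b + c'; linarith) (by show b - c' ≤ _; linarith)
      (by show _ ≤ b + c'; linarith), h2]
    show (b + lam * (t - b) - (b - lam * c')) / ((b + lam * c') - (b - lam * c')) =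
      (t - (b - c')) / ((b + c') - (b - c'))
    have e1 : b + lam * (t - b) - (b - lam * c') = lam * (t - (b - c')) := by ring
    have e2 : (b + lam * c') - (b - lam * c') = lam * ((b + c') - (b - c')) := by ring
    rw [e1, e2, mul_div_mul_left _ _ h0.ne']
  · have h3 : ¬ |th L c' lam t - b| ≤ lam * c' := fun h3 =>
      h ((abs_th_sub_le_iff hc hs h0 h1 hb t).1 h3)
    push Not at h h3
    have hm := th_strictMono hc.le hs h0 h1
    rcases lt_abs.1 h with h4 | h4
    · have h5 := hm (show b + c' < t by linarith)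
      rw [th_flat hc.le hs hb (t := b + c') (by rw [add_sub_cancel_left, abs_of_pos hc])] at h5
      rw [pos_of_ge (by show b - lam * c' < b + lam * c'; linarith)
        (by show b + lam * c' ≤ _; linarith), pos_of_ge (by show b - c' < b + c'; linarith)
        (by show b + c' ≤ _; linarith)]
    · have h5 := hm (show t < b - c' by linarith)
      rw [th_flat hc.le hs hb (t := b - c') (by rw [show b - c' - b = -c' by ring, abs_neg,
        abs_of_pos hc])] at h5
      rw [pos_of_le (by show b - lam * c' < b + lam * c'; linarith)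
        (by show _ ≤ b - lam * c'; linarith), pos_of_le (by show b - c' < b + c'; linarith)
        (by show _ ≤ b - c'; linarith)]

end P073.H196
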