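import Vale.Agent.P073.H196.PRoundT
import Vale.Agent.P073.H196.PCell
import Vale.Agent.P073.H142.Base
import Vale.Agent.P073.H579.HFaceM

/-!
# P073, H196, [PCELL], Round P: the given map of a protected cell

`h1` is the map before the exchanges, `h2` after them: on the cell `Q` the two maps have the same
levels in the plates `D s`, and are equal elsewhere. `X` are the ideal coordinates of the cell. In the
plates the given map is the lift (`exists_lift`), elsewhere it is `Θ ∘ h1`.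
-/

open Set Metric Topology Filter

namespace P073.H196

open P073 P073.H236 P073.H579
open Vale.Agent.P073.St (V)

variable {Ω : Set V} {Λ : Set (Fin 3 → ℝ)}
  {κ : (Fin 3 → ℝ) → Fin 3 → ℝ} {σ : Type*}

/-- the part of the cell in the plate `s` -/
def part (Q : Set V) (h : V → Fin 3 → ℝ) (D : Set (Fin 3 → ℝ)) : Set V := {x | x ∈ Q ∧ h x ∈ D}

/-- the input -/
structure PIn (Q : Set V) (h1 h2 : ConHomeo Ω Λ) (κ : (Fin 3 → ℝ) → Fin 3 → ℝ)
    (Θ : ConHomeo Λ Λ) (D : σ → Set (Fin 3 → ℝ)) (L : σ → Fin 3 → Finset ℝ)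
    (k k' : σ → Fin 3 → ℝ → ℝ) (lo hi lo' hi' : σ → Fin 3 → ℝ → ℝ) (X : V → Fin 3 → ℝ) :
    Prop where
  sub : Q ⊆ Ω
  con : ConicalSet Q
  Xm : CMap Q X
  Dcl : ∀ s, IsClosed (D s)
  Dcon : ∀ s, ConicalSet (D s)
  Dint : ∀ s, ConicalSet (interior (D s))ᶜ
  Ddis : ∀ s s', s ≠ s' → Disjoint (D s) (D s')
  eq12 : ∀ x ∈ Q, (∀ s, h1.toFun x ∉ interior (D s)) → h2.toFun x = h1.toFun x
  zone : ∀ s, Zone κ Λ h2 (k s) (part Q h1.toFun (D s))
  I : ∀ s j, Ins1 (k s j) (L s j : Set ℝ) (lo s j) (hi s j)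
  I' : ∀ s j, Ins1 (k' s j) (L s j : Set ℝ) (lo' s j) (hi' s j)
  same : ∀ s, SameLv (part Q h1.toFun (D s)) (L s) h2.toFun X
  box : ∀ s y, prodK (k' s) y ∈ X '' part Q h1.toFun (D s) ↔ y ∈ X '' part Q h1.toFun (D s)
  vert : ∀ s, ∀ x ∈ part Q h1.toFun (D s), ∀ x' ∈ part Q h1.toFun (D s),
    X x' = prodK (k' s) (X x) → h1.toFun x' = prodK (k' s) (h1.toFun x)
  pos1 : ∀ s, ∀ x ∈ part Q h1.toFun (D s), ∀ j, ∀ b ∈ L s j,
    pos (lo' s j) (hi' s j) b (h1.toFun x j) = pos (lo' s j) (hi' s j) b (X x j)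
  theta : ∀ s, ∀ y ∈ D s, ∀ j, k s j (Θ.toFun y j) = k' s j (y j)
  thpos : ∀ s, ∀ y ∈ D s, ∀ j, ∀ b ∈ L s j,
    pos (lo s j) (hi s j) b (Θ.toFun y j) = pos (lo' s j) (hi' s j) b (y j)
  intD : ∀ s y, prodK (k' s) y ∈ interior (D s) ↔ y ∈ interior (D s)
  inv : Inv κ Θ.toFun Λ (h1.toFun '' Q)
  invD : ∀ s, Inv κ Θ.toFun Λ (interior (D s))

/-- the output -/
structure POut (Q : Set V) (h1 h2 : ConHomeo Ω Λ) (κ : (Fin 3 → ℝ) → Fin 3 → ℝ)
    (Θ : ConHomeo Λ Λ) (D : σ → Set (Fin 3 → ℝ)) (L : σ → Fin 3 → Finset ℝ)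
    (k k' : σ → Fin 3 → ℝ → ℝ) (lo hi lo' hi' : σ → Fin 3 → ℝ → ℝ) (X : V → Fin 3 → ℝ)
    (Γ : σ → V → V) (Ψ : V → Fin 3 → ℝ) : Prop where
  lift : ∀ s, LiftOut (part Q h1.toFun (D s)) (L s) h2.toFun X (k s) (k' s) (lo s) (hi s)
    (lo' s) (hi' s) (Γ s) Ψ
  off : ∀ x ∈ Q, (∀ s, h1.toFun x ∉ interior (D s)) → Ψ x = Θ.toFun (h1.toFun x)
  agree : ∀ s, ∀ x ∈ part Q h1.toFun (D s), h2.toFun (Γ s x) = h1.toFun (Γ s x) →
    Ψ x = Θ.toFun (h1.toFun x)
  image : ∀ Y ⊆ Q, ConicalSet Y → (∀ s, ∀ x ∈ part Q h1.toFun (D s), (x ∈ Y ↔ Γ s x ∈ Y)) →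
    Inv κ Θ.toFun Λ (h1.toFun '' Y) → Ψ '' Y = Pre κ Λ h2 Y

namespace PIn

variable {Q : Set V} {h1 h2 : ConHomeo Ω Λ} {Θ : ConHomeo Λ Λ} {D : σ → Set (Fin 3 → ℝ)}
  {L : σ → Fin 3 → Finset ℝ} {k k' : σ → Fin 3 → ℝ → ℝ} {lo hi lo' hi' : σ → Fin 3 → ℝ → ℝ}
  {X : V → Fin 3 → ℝ}

/-- the part outside of the plates -/
def rest (Q : Set V) (h : V → Fin 3 → ℝ) (D : σ → Set (Fin 3 → ℝ)) : Set V :=
  {x | x ∈ Q ∧ ∀ s, h x ∉ interior (D s)}

theorem conicalSet_rest [Finite σ] (P : PIn Q h1 h2 κ Θ D L k k' lo hi lo' hi' X) :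
    ConicalSet (rest Q h1.toFun D) := by
  classical
  have hcon : ConicalOn h1.toFun Q := h1.conical.mono P.con P.sub
  have hcont : ContinuousOn h1.toFun Q := h1.cont.mono P.sub
  have := Fintype.ofFinite σ
  have key : ∀ S : Finset σ, ConicalSet {x | x ∈ Q ∧ ∀ s ∈ S, h1.toFun x ∉ interior (D s)} := by
    intro S
    induction S using Finset.induction_on with
    | empty => simpa using P.con
    | insert a S ha ih =>
      have e : {x | x ∈ Q ∧ ∀ s ∈ insert a S, h1.toFun x ∉ interior (D s)} =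
          {x | x ∈ Q ∧ ∀ s ∈ S, h1.toFun x ∉ interior (D s)} ∩
            {x | x ∈ Q ∧ h1.toFun x ∈ (interior (D a))ᶜ} := by
        ext x
        simp only [mem_ofPred_eq, Finset.forall_mem_insert, mem_inter_iff, mem_compl_iff]
        tauto
      rw [e]
      exact ih.inter (P073.H142.conicalSet_preimage hcon hcont (P.Dint a))
  have e : rest Q h1.toFun D = {x | x ∈ Q ∧ ∀ s ∈ Finset.univ, h1.toFun x ∉ interior (D s)} := by
    ext x; simp [rest]
  rw [e]; exact key _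

theorem isClosed_rest (P : PIn Q h1 h2 κ Θ D L k k' lo hi lo' hi' X) :
    IsClosed (rest Q h1.toFun D) := by
  have hQ := P.Xm.comp.isClosed
  have e : rest Q h1.toFun D = Q ∩ h1.toFun ⁻¹' (⋃ s, interior (D s))ᶜ := by
    ext x; simp [rest]
  rw [e]
  exact (h1.cont.mono P.sub).preimage_isClosed_of_isClosed hQ
    (isOpen_iUnion fun s => isOpen_interior).isClosed_compl

theorem isCompact_part (P : PIn Q h1 h2 κ Θ D L k k' lo hi lo' hi' X) (s : σ) :
    IsCompact (part Q h1.toFun (D s)) := by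
  have hQ := P.Xm.comp.isClosed
  have : IsClosed (part Q h1.toFun (D s)) :=
    (h1.cont.mono P.sub).preimage_isClosed_of_isClosed hQ (P.Dcl s)
  exact P.Xm.comp.of_isClosed_subset this fun x hx => hx.1

theorem conicalSet_part (P : PIn Q h1 h2 κ Θ D L k k' lo hi lo' hi' X) (s : σ) :
    ConicalSet (part Q h1.toFun (D s)) :=
  P073.H142.conicalSet_preimage (h1.conical.mono P.con P.sub) (h1.cont.mono P.sub) (P.Dcon s)

theorem cmap_h2 (P : PIn Q h1 h2 κ Θ D L k k' lo hi lo' hi' X) (s : σ) :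
    CMap (part Q h1.toFun (D s)) h2.toFun where
  comp := P.isCompact_part s
  inj := h2.injOn.mono fun _ hx => P.sub hx.1
  cont := h2.cont.mono fun _ hx => P.sub hx.1
  con := h2.conical.mono (P.conicalSet_part s) fun _ hx => P.sub hx.1

theorem cmap_X (P : PIn Q h1 h2 κ Θ D L k k' lo hi lo' hi' X) (s : σ) :
    CMap (part Q h1.toFun (D s)) X where
  comp := P.isCompact_part s
  inj := P.Xm.inj.mono fun _ hx => hx.1
  cont := P.Xm.cont.mono fun _ hx => hx.1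
  con := P.Xm.con.mono (P.conicalSet_part s) fun _ hx => hx.1

/-- **the value of the lift where nothing is exchanged** -/
theorem lift_eq (P : PIn Q h1 h2 κ Θ D L k k' lo hi lo' hi' X) {s : σ} {Γ : V → V}
    {Φ : V → Fin 3 → ℝ} (H : LiftOut (part Q h1.toFun (D s)) (L s) h2.toFun X (k s) (k' s)
      (lo s) (hi s) (lo' s) (hi' s) Γ Φ) {x : V} (hx : x ∈ part Q h1.toFun (D s))
    (he : h2.toFun (Γ x) = h1.toFun (Γ x)) : Φ x = Θ.toFun (h1.toFun x) := by
  ext j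
  refine H.coord_eq (P.I s) hx ?_ fun b hb => ?_
  · rw [P.theta s _ hx.2 j, he, P.vert s x hx _ (H.maps hx) (H.gam x hx)]
    rfl
  · rw [P.thpos s _ hx.2 j b hb, P.pos1 s x hx j b hb]

theorem mem_int (P : PIn Q h1 h2 κ Θ D L k k' lo hi lo' hi' X) {s : σ} {Γ : V → V}
    {Φ : V → Fin 3 → ℝ} (H : LiftOut (part Q h1.toFun (D s)) (L s) h2.toFun X (k s) (k' s)
      (lo s) (hi s) (lo' s) (hi' s) Γ Φ) {x : V} (hx : x ∈ part Q h1.toFun (D s)) :
    h1.toFun (Γ x) ∈ interior (D s) ↔ h1.toFun x ∈ interior (D s) := by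
  rw [P.vert s x hx _ (H.maps hx) (H.gam x hx), P.intD]

theorem mem_rest_iff (P : PIn Q h1 h2 κ Θ D L k k' lo hi lo' hi' X) {s : σ} {x : V}
    (hx : x ∈ part Q h1.toFun (D s)) : x ∈ rest Q h1.toFun D ↔ h1.toFun x ∉ interior (D s) := by
  refine ⟨fun h => h.2 s, fun h => ⟨hx.1, fun s' hs' => ?_⟩⟩
  by_cases hss : s' = s
  · subst hss; exact h hs'
  · exact Set.disjoint_left.1 (P.Ddis s' s hss) (interior_subset hs') hx.2

theorem image_rest (P : PIn Q h1 h2 κ Θ D L k k' lo hi lo' hi' X) {Y : Set V}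
    (hY : Y ⊆ Q) (hI : Inv κ Θ.toFun Λ (h1.toFun '' Y)) :
    Inv κ Θ.toFun Λ (h1.toFun '' (Y ∩ rest Q h1.toFun D)) := by
  have e : h1.toFun '' (Y ∩ rest Q h1.toFun D) = h1.toFun '' Y ∩ ⋂ s, (interior (D s))ᶜ := by
    ext y
    constructor
    · rintro ⟨x, ⟨h2, h3⟩, rfl⟩
      exact ⟨⟨x, h2, rfl⟩, mem_iInter.2 fun s => h3.2 s⟩
    · rintro ⟨⟨x, h2, rfl⟩, h3⟩
      exact ⟨x, ⟨h2, hY h2, fun s => mem_iInter.1 h3 s⟩, rfl⟩
  rw [e]
  intro y hy
  constructor
  · refine and_congr (hI y hy).1 ?_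
    simp only [mem_iInter, mem_compl_iff]
    exact forall_congr' fun s => not_congr (P.invD s y hy).1
  · refine and_congr (hI y hy).2 ?_
    simp only [mem_iInter, mem_compl_iff]
    exact forall_congr' fun s => not_congr (P.invD s y hy).2

theorem pre_rest (P : PIn Q h1 h2 κ Θ D L k k' lo hi lo' hi' X) {Y : Set V}
    (hY : Y ⊆ rest Q h1.toFun D) : Pre κ Λ h1 Y = Pre κ Λ h2 Y := by
  have : h1.toFun '' Y = h2.toFun '' Y := image_congr fun x hx =>
    (P.eq12 x (hY hx).1 (hY hx).2).symm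
  unfold Pre
  rw [this]

/-- **[PCELL], Round P** -/
theorem exists_psiP [Finite σ] (P : PIn Q h1 h2 κ Θ D L k k' lo hi lo' hi' X) :
    ∃ (Γ : σ → V → V) (Ψ : ConHomeo Q (Pre κ Λ h2 Q)),
      POut Q h1 h2 κ Θ D L k k' lo hi lo' hi' X Γ Ψ.toFun := by
  classical
  have hl : ∀ s, ∃ (Γ : V → V) (Φ : ConHomeo (part Q h1.toFun (D s))
      (preQ (k s) h2.toFun (part Q h1.toFun (D s)))),
      LiftOut (part Q h1.toFun (D s)) (L s) h2.toFun X (k s) (k' s) (lo s) (hi s)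
        (lo' s) (hi' s) Γ Φ.toFun := fun s =>
    exists_lift (P.cmap_h2 s) (P.cmap_X s) (P.same s) (P.I s) (P.I' s) (P.box s)
  choose Γ Φ hΦ using hl
  set R : Set V := rest Q h1.toFun D with hR
  have hRQ : R ⊆ Q := fun x hx => hx.1
  have hRΩ : R ⊆ Ω := hRQ.trans P.sub
  have hIR : Inv κ Θ.toFun Λ (h1.toFun '' R) := by
    have := P.image_rest (Y := Q) Subset.rfl P.inv
    rwa [inter_eq_right.2 hRQ] at this
  set ΦR : ConHomeo R (Pre κ Λ h2 R) :=
    (psi h1 Θ hRΩ P.conicalSet_rest hIR).cast rfl (P.pre_rest Subset.rfl) with hΦR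
  have hΦRf : ∀ x, ΦR.toFun x = Θ.toFun (h1.toFun x) := fun x => rfl
  -- the pieces
  set C : σ → Set V := fun s => part Q h1.toFun (D s) with hC
  have hCQ : ∀ s, C s ⊆ Q := fun s x hx => hx.1
  have hpre : ∀ s, ∀ Y ⊆ C s, Pre κ Λ h2 Y = preQ (k s) h2.toFun Y := fun s Y hY =>
    (P.zone s).pre_eq hY
  let Φ' : ∀ s, ConHomeo (C s) (Pre κ Λ h2 (C s)) := fun s =>
    (Φ s).cast rfl (hpre s _ Subset.rfl).symm
  have hinj2 : ∀ s, InjOn h2.toFun (C s) := fun s => (P.cmap_h2 s).inj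
  -- agreement with `Θ ∘ h1` on the common boundary
  have hΓR : ∀ s, ∀ x ∈ C s, (x ∈ R ↔ Γ s x ∈ R) := by
    intro s x hx
    rw [hR, P.mem_rest_iff hx, P.mem_rest_iff ((hΦ s).maps hx), P.mem_int (hΦ s) hx]
  have hagR : ∀ s, ∀ x ∈ C s, x ∈ R → (Φ s).toFun x = Θ.toFun (h1.toFun x) := by
    intro s x hx hxR
    have h3 := (hΓR s x hx).1 hxR
    exact P.lift_eq (hΦ s) hx (P.eq12 _ h3.1 h3.2)
  -- images of subsets of the pieces
  have himgC : ∀ s, ∀ Y ⊆ C s, (∀ x ∈ C s, (x ∈ Y ↔ Γ s x ∈ Y)) →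
      (Φ s).toFun '' Y = Pre κ Λ h2 Y := by
    intro s Y hY hYΓ
    rw [hpre s Y hY]
    exact (hΦ s).image_eq (hinj2 s) hY hYΓ
  let XX : Option σ → Set V := fun o => o.elim R C
  let H : ∀ o, ConHomeo (XX o) (Pre κ Λ h2 (XX o)) := fun o => match o with
    | none => ΦR
    | some s => Φ' s
  have hXXQ : ∀ o, XX o ⊆ Q := fun o => by
    cases o with
    | none => exact hRQ
    | some s => exact hCQ s
  have hXXΩ : ∀ o, XX o ⊆ Ω := fun o => (hXXQ o).trans P.sub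
  have hXXc : ∀ o, IsCompact (XX o) := fun o => by
    cases o with
    | none => exact P.Xm.comp.of_isClosed_subset P.isClosed_rest hRQ
    | some s => exact P.isCompact_part s
  have hCdis : ∀ s s', s ≠ s' → C s ∩ C s' = ∅ := fun s s' hss => by
    rw [← Set.disjoint_iff_inter_eq_empty, Set.disjoint_left]
    exact fun x hx hx' => Set.disjoint_left.1 (P.Ddis s s' hss) hx.2 hx'.2
  have hag : ∀ o o', EqOn (H o).toFun (H o').toFun (XX o ∩ XX o') := by
    intro o o' x hx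
    cases o with
    | none =>
      cases o' with
      | none => rfl
      | some s => exact (hagR s x hx.2 hx.1).symm
    | some s =>
      cases o' with
      | none => exact hagR s x hx.1 hx.2
      | some s' =>
        by_cases hss : s = s'
        · subst hss; rfl
        · have := hCdis s s' hss
          exact absurd hx (by rw [show XX (some s) ∩ XX (some s') = C s ∩ C s' from rfl, this]
                              exact notMem_empty x)
  have himg : ∀ o o', Pre κ Λ h2 (XX o) ∩ Pre κ Λ h2 (XX o') ⊆ (H o).toFun '' (XX o ∩ XX o') := by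
    intro o o'
    rw [Pre.inter (hXXΩ o) (hXXΩ o')]
    have hCR : ∀ s, (Φ s).toFun '' (C s ∩ R) = Pre κ Λ h2 (C s ∩ R) := fun s =>
      himgC s _ inter_subset_left fun x hx => by
        have h5 := (hΦ s).maps hx
        have h6 := hΓR s x hx
        exact ⟨fun h => ⟨h5, h6.1 h.2⟩, fun h => ⟨hx, h6.2 h.2⟩⟩
    cases o with
    | none =>
      cases o' with
      | none =>
        rw [inter_self, (H none).image_eq]
      | some s =>
        show Pre κ Λ h2 (R ∩ C s) ⊆ ΦR.toFun '' (R ∩ C s)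
        rw [inter_comm, ← hCR s]
        rintro _ ⟨x, hx, rfl⟩
        exact ⟨x, hx, (hagR s x hx.1 hx.2).symm⟩
    | some s =>
      cases o' with
      | none => exact (hCR s).superset
      | some s' =>
        by_cases hss : s = s'
        · subst hss
          rw [inter_self, (H (some s)).image_eq]
        · have h3 : XX (some s) ∩ XX (some s') = ∅ := hCdis s s' hss
          rw [h3]
          rintro y ⟨-, x, hx, -⟩
          exact absurd hx (notMem_empty x)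
  have hpc : ∀ o, IsClosed (Pre κ Λ h2 (XX o)) := fun o => by
    have h3 : Pre κ Λ h2 (XX o) = (H o).toFun '' XX o := ((H o).image_eq).symm
    rw [h3]
    exact ((hXXc o).image_of_continuousOn (H o).cont).isClosed
  obtain ⟨Ψ, hΨ⟩ := ConHomeo.exists_glue_family (RelLF.of_finite fun o => (hXXc o).isClosed)
    (RelLF.of_finite hpc) H hag himg
  have hcov : ⋃ o, XX o = Q := by
    apply Subset.antisymm (iUnion_subset hXXQ)
    intro x hx
    by_cases hs : ∃ s, h1.toFun x ∈ interior (D s)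
    · obtain ⟨s, hs⟩ := hs
      exact mem_iUnion.2 ⟨some s, hx, interior_subset hs⟩
    · push Not at hs
      exact mem_iUnion.2 ⟨none, hx, hs⟩
  have hcov' : ⋃ o, Pre κ Λ h2 (XX o) = Pre κ Λ h2 Q := by
    rw [← Pre.iUnion, hcov]
  refine ⟨Γ, Ψ.cast hcov hcov', ?_⟩
  have hs : ∀ s, EqOn Ψ.toFun (Φ s).toFun (C s) := fun s => (hΨ (some s)).1
  have hn : ∀ x ∈ R, Ψ.toFun x = Θ.toFun (h1.toFun x) := fun x hx => (hΨ none).1 hx
  have hlift : ∀ s, LiftOut (part Q h1.toFun (D s)) (L s) h2.toFun X (k s) (k' s) (lo s) (hi s)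
      (lo' s) (hi' s) (Γ s) Ψ.toFun := fun s =>
    ⟨(hΦ s).maps, (hΦ s).cont, (hΦ s).con, (hΦ s).gam,
      fun x hx => by rw [hs s hx]; exact (hΦ s).lift x hx,
      fun x hx j b hb => by rw [hs s hx]; exact (hΦ s).pos x hx j b hb⟩
  refine ⟨hlift, fun x hx h3 => hn x ⟨hx, h3⟩, fun s x hx he => P.lift_eq (hlift s) hx he,
    fun Y hY hYc hYΓ hYI => ?_⟩
  -- images
  have hYcov : Y = (Y ∩ R) ∪ ⋃ s, (Y ∩ C s) := by
    apply Subset.antisymm
    · intro x hx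
      have h3 : x ∈ ⋃ o, XX o := by rw [hcov]; exact hY hx
      obtain ⟨o, ho⟩ := mem_iUnion.1 h3
      cases o with
      | none => exact Or.inl ⟨hx, ho⟩
      | some s => exact Or.inr (mem_iUnion.2 ⟨s, hx, ho⟩)
    · rintro x (hx | hx)
      · exact hx.1
      · obtain ⟨s, hx⟩ := mem_iUnion.1 hx
        exact hx.1
  have e1 : Ψ.toFun '' (Y ∩ R) = Pre κ Λ h2 (Y ∩ R) := by
    have h3 : Inv κ Θ.toFun Λ (h1.toFun '' (Y ∩ R)) := P.image_rest hY hYI
    rw [← P.pre_rest inter_subset_right, ← image_theta (inter_subset_left.trans (hY.trans P.sub)) h3]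
    exact image_congr fun x hx => hn x hx.2
  have e2 : ∀ s, Ψ.toFun '' (Y ∩ C s) = Pre κ Λ h2 (Y ∩ C s) := by
    intro s
    rw [← himgC s (Y ∩ C s) inter_subset_right fun x hx => by
      have h5 := (hΦ s).maps hx
      have h6 := hYΓ s x hx
      exact ⟨fun h => ⟨h6.1 h.1, h5⟩, fun h => ⟨h6.2 h.1, hx⟩⟩]
    exact image_congr fun x hx => hs s hx.2
  have e3 : Pre κ Λ h2 Y = Pre κ Λ h2 (Y ∩ R) ∪ ⋃ s, Pre κ Λ h2 (Y ∩ C s) := by
    rw [← Pre.iUnion]
    conv_lhs => rw [hYcov]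
    ext y
    simp only [Pre, image_union, mem_inter_iff, mem_preimage, mem_union]
    tauto
  show Ψ.toFun '' Y = Pre κ Λ h2 Y
  rw [e3, ← e1]
  conv_lhs => rw [hYcov]
  rw [image_union, image_iUnion]
  congr 1
  exact iUnion_congr e2

end PIn

end P073.H196
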