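import Vale.Agent.P073.H196.Theta
import Vale.Agent.P073.H142.FaceTail

/-!
# P073, H196, (T7) [THETA], [PCELL]: stacks of vertical maps

`Vrt G j al be lo hi φ`: in the big box `b` the map `G` changes only the coordinate `j b`, into
`φ b y (y (j b))`; off the big boxes it is the identity. Compositions, local and global Lipschitz
bounds, and the four-step formula `T_fix ∘ H_1 ∘ H_α ∘ Θ`.
-/

open Set Metric Topology Filter

namespace P073.H196

open P073 P073.H236

variable {n : ℕ} {ι : Type*}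

/-- vertical maps -/
structure Vrt (G : (Fin n → ℝ) → Fin n → ℝ) (j : ι → Fin n) (al be : ι → ℝ) (lo hi : ι → Fin n → ℝ)
    (φ : ι → (Fin n → ℝ) → ℝ → ℝ) : Prop where
  on : ∀ b, ∀ y ∈ bigBox (j b) (al b) (be b) (lo b) (hi b),
    G y = Function.update y (j b) (φ b y (y (j b)))
  win : ∀ b, ∀ y ∈ bigBox (j b) (al b) (be b) (lo b) (hi b),
    φ b y (y (j b)) ∈ Icc (al b) (be b)
  ind : ∀ b y t, φ b (Function.update y (j b) t) = φ b y
  off : ∀ y, (∀ b, y ∉ bigBox (j b) (al b) (be b) (lo b) (hi b)) → G y = y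

variable {j : ι → Fin n} {al be : ι → ℝ} {lo hi : ι → Fin n → ℝ} {Λ : Set (Fin n → ℝ)}

theorem update_mem_bigBox {j : Fin n} {al be : ℝ} {lo hi : Fin n → ℝ} {y : Fin n → ℝ}
    (hy : y ∈ bigBox j al be lo hi) {t : ℝ} (ht : t ∈ Icc al be) :
    Function.update y j t ∈ bigBox j al be lo hi := by
  refine ⟨?_, fun i hi' => by rw [Function.update_of_ne hi']; exact hy.2 i hi'⟩
  rw [Function.update_self]; exact ht

theorem isClosed_bigBox (j : Fin n) (al be : ℝ) (lo hi : Fin n → ℝ) :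
    IsClosed (bigBox j al be lo hi) := by
  have : bigBox j al be lo hi = ({y | al ≤ y j} ∩ {y | y j ≤ be}) ∩
      ⋂ i, ⋂ (_ : i ≠ j), ({y | lo i ≤ y i} ∩ {y | y i ≤ hi i}) := by
    ext y; simp [bigBox]
  rw [this]
  refine IsClosed.inter (IsClosed.inter ?_ ?_) (isClosed_iInter fun i => isClosed_iInter fun _ => ?_)
  · exact isClosed_le continuous_const (continuous_apply j)
  · exact isClosed_le (continuous_apply j) continuous_const
  · exact (isClosed_le continuous_const (continuous_apply i)).inter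
      (isClosed_le (continuous_apply i) continuous_const)

theorem Vrt.mem {G : (Fin n → ℝ) → Fin n → ℝ} {φ : ι → (Fin n → ℝ) → ℝ → ℝ}
    (H : Vrt G j al be lo hi φ) {b : ι} {y : Fin n → ℝ}
    (hy : y ∈ bigBox (j b) (al b) (be b) (lo b) (hi b)) :
    G y ∈ bigBox (j b) (al b) (be b) (lo b) (hi b) := by
  rw [H.on b y hy]
  exact update_mem_bigBox hy (H.win b y hy)

theorem Vrt.id (j : ι → Fin n) (al be : ι → ℝ) (lo hi : ι → Fin n → ℝ) :
    Vrt (fun y => y) j al be lo hi fun _ _ t => t where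
  on := fun _ _ _ => (Function.update_eq_self _ _).symm
  win := fun _ _ hy => hy.1
  ind := fun _ _ _ => rfl
  off := fun _ _ => rfl

theorem Vrt.comp {G G' : (Fin n → ℝ) → Fin n → ℝ} {φ φ' : ι → (Fin n → ℝ) → ℝ → ℝ}
    (H' : Vrt G' j al be lo hi φ') (H : Vrt G j al be lo hi φ) :
    Vrt (fun y => G' (G y)) j al be lo hi fun b y t => φ' b y (φ b y t) where
  on := fun b y hy => by
    have h1 := H'.on b _ (H.mem hy)
    have h2 := H.on b y hy
    show G' (G y) = _
    rw [h1, h2, H'.ind, Function.update_self, Function.update_idem]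
  win := fun b y hy => by
    have h1 := H'.win b _ (H.mem hy)
    have h2 := H.on b y hy
    rwa [h2, H'.ind, Function.update_self] at h1
  ind := fun b y t => by
    show (fun s => φ' b (Function.update y (j b) t) (φ b (Function.update y (j b) t) s)) = _
    rw [H'.ind, H.ind]
  off := fun y hy => by
    show G' (G y) = y
    rw [H.off y hy, H'.off y hy]

/-- the glued map of a family -/
theorem Over.vrt {F : HFam n ι Λ} {S : ConHomeo Λ Λ} (O : Over F j al be lo hi) (hS : F.IsH S) :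
    Vrt S.toFun j al be lo hi fun b y t => cl (F.X b).k ((F.X b).m y) t where
  on := fun _ _ hy => O.eq hS hy
  win := fun b y hy => by
    have := (O.mem hS hy).1
    rwa [O.eq hS hy, Function.update_self] at this
  ind := fun b y t => by
    show (fun s => cl (F.X b).k ((F.X b).m (Function.update y (j b) t)) s) = _
    rw [O.m_update]
  off := fun _ hy => O.off hS hy

/-- **local Lipschitz bound** -/
theorem Vrt.local_lip {G : (Fin n → ℝ) → Fin n → ℝ} {φ : ι → (Fin n → ℝ) → ℝ → ℝ}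
    (H : Vrt G j al be lo hi φ) (hΛ : IsOpen Λ) (hG : ContinuousOn G Λ) {C : ℝ} (hC : 1 ≤ C)
    (lf : ∀ z ∈ Λ, ∃ U ∈ 𝓝 z, {b | (bigBox (j b) (al b) (be b) (lo b) (hi b) ∩ U).Nonempty}.Finite)
    (hL : ∀ b, ∀ y ∈ bigBox (j b) (al b) (be b) (lo b) (hi b),
      ∀ y' ∈ bigBox (j b) (al b) (be b) (lo b) (hi b),
      |φ b y (y (j b)) - φ b y' (y' (j b))| ≤ C * ‖y - y'‖) {y : Fin n → ℝ} (hy : y ∈ Λ) :
    ∀ᶠ y' in 𝓝 y, ‖G y' - G y‖ ≤ C * ‖y' - y‖ := by
  classical
  set P : ι → Set (Fin n → ℝ) := fun b => bigBox (j b) (al b) (be b) (lo b) (hi b) with hP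
  have hbox : ∀ b, ∀ z ∈ P b, ∀ z' ∈ P b, ‖G z' - G z‖ ≤ C * ‖z' - z‖ := by
    intro b z hz z' hz'
    rw [H.on b z hz, H.on b z' hz']
    have hC0 : 0 ≤ C * ‖z' - z‖ := by positivity
    rw [pi_norm_le_iff_of_nonneg hC0]
    intro i
    by_cases hi' : i = j b
    · subst hi'
      rw [Pi.sub_apply, Function.update_self, Function.update_self, Real.norm_eq_abs]
      exact hL b z' hz' z hz
    · rw [Pi.sub_apply, Function.update_of_ne hi', Function.update_of_ne hi']
      have h1 := norm_le_pi_norm (z' - z) i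
      rw [Pi.sub_apply] at h1
      nlinarith [norm_nonneg (z' - z)]
  obtain ⟨U, hU, hfin⟩ := lf y hy
  -- points near `y` are only in boxes which contain `y`
  have hev : ∀ᶠ y' in 𝓝 y, ∀ b, y' ∈ P b → y ∈ P b := by
    have h1 : ∀ b ∈ {b | (P b ∩ U).Nonempty}, ∀ᶠ y' in 𝓝 y, y' ∈ P b → y ∈ P b := by
      intro b _
      by_cases hb : y ∈ P b
      · exact Eventually.of_forall fun _ _ => hb
      · have h2 : (P b)ᶜ ∈ 𝓝 y := (isClosed_bigBox _ _ _ _ _).isOpen_compl.mem_nhds hb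
        filter_upwards [h2] with y' hy' hy''
        exact absurd hy'' hy'
    have h2 := (hfin.eventually_all).2 h1
    filter_upwards [h2, hU] with y' h3 hyU b hb
    exact h3 b ⟨y', hb, hyU⟩ hb
  have hΛy : Λ ∈ 𝓝 y := hΛ.mem_nhds hy
  by_cases hcl : ∀ᶠ y' in 𝓝 y, ∃ b, y' ∈ P b
  · filter_upwards [hev, hcl] with y' h1 ⟨b, hb⟩
    exact hbox b y (h1 b hb) y' hb
  · -- then `G y = y`
    have hfr : ∃ᶠ y' in 𝓝 y, ∀ b, y' ∉ P b := by
      intro hcon
      exact hcl (hcon.mono fun y' h => by push Not at h; exact h)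
    have hGy : G y = y := by
      have hc : ContinuousAt G y := hG.continuousAt hΛy
      by_contra hne
      have h3 : ∀ᶠ y' in 𝓝 y, G y' ≠ y' := by
        have h4 : Tendsto (fun y' => (G y', y')) (𝓝 y) (𝓝 (G y, y)) := hc.prodMk_nhds tendsto_id
        have h5 : {p : (Fin n → ℝ) × (Fin n → ℝ) | p.1 ≠ p.2} ∈ 𝓝 (G y, y) :=
          (isOpen_ne_fun continuous_fst continuous_snd).mem_nhds hne
        exact h4 h5
      obtain ⟨y', h4, h5⟩ := (hfr.and_eventually h3).exists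
      exact h5 (H.off y' h4)
    filter_upwards [hev] with y' h1
    by_cases hb : ∃ b, y' ∈ P b
    · obtain ⟨b, hb⟩ := hb
      exact hbox b y (h1 b hb) y' hb
    · push Not at hb
      rw [hGy, H.off y' hb]
      nlinarith [norm_nonneg (y' - y)]

/-- **global Lipschitz bound on convex sets** -/
theorem Vrt.lip {G : (Fin n → ℝ) → Fin n → ℝ} {φ : ι → (Fin n → ℝ) → ℝ → ℝ}
    (H : Vrt G j al be lo hi φ) (hΛ : IsOpen Λ) (hG : ContinuousOn G Λ) {C : ℝ} (hC : 1 ≤ C)
    (lf : ∀ z ∈ Λ, ∃ U ∈ 𝓝 z, {b | (bigBox (j b) (al b) (be b) (lo b) (hi b) ∩ U).Nonempty}.Finite)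
    (hL : ∀ b, ∀ y ∈ bigBox (j b) (al b) (be b) (lo b) (hi b),
      ∀ y' ∈ bigBox (j b) (al b) (be b) (lo b) (hi b),
      |φ b y (y (j b)) - φ b y' (y' (j b))| ≤ C * ‖y - y'‖) {A : Set (Fin n → ℝ)}
    (hA : Convex ℝ A) (hAΛ : A ⊆ Λ) {y y' : Fin n → ℝ} (hy : y ∈ A) (hy' : y' ∈ A) :
    ‖G y - G y'‖ ≤ C * ‖y - y'‖ :=
  P073.H142.lip_of_local hA (fun _ hx => (H.local_lip hΛ hG hC lf hL (hAΛ hx)).filter_mono
    nhdsWithin_le_nhds) y hy y' hy'

/-- **three step estimate** -/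
theorem abs_comp_gen {σ τ f P P' : ℝ → ℝ} {A T Δ m m' s t : ℝ} (hf : |f s - f t| ≤ A * |s - t|)
    (hσ : |σ (f s) - σ (f t)| ≤ A * |s - t|) (hT : 1 ≤ T)
    (hτ : ∀ s t, |τ s - τ t| ≤ T * |s - t|) (hm : 0 ≤ m) (hm' : 0 ≤ m')
    (h2 : 0 < m → P s = f s) (h2' : 0 < m' → P' t = f t)
    (hP : |P s - P' t| ≤ A * |s - t| + Δ) (hΔ : 0 ≤ Δ) :
    |cl τ m (cl σ m (P s)) - cl τ m' (cl σ m' (P' t))| ≤
      T * (A * |s - t| + 2 * |m - m'| + Δ) + |m - m'| := by
  refine (abs_cl_sub_cl_le hT (hτ _ _)).trans (add_le_add_left ?_ _)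
  refine mul_le_mul_of_nonneg_left ?_ (by linarith)
  rcases hm.eq_or_lt with e | e
  · rcases hm'.eq_or_lt with e' | e'
    · rw [← e, ← e', cl_zero, cl_zero, sub_self, abs_zero]
      linarith
    · rw [← e, cl_zero]
      have a1 := abs_cl_sub_le (k := σ) (t := P' t) hm'
      have a2 : |(0:ℝ) - m'| = m' := by rw [zero_sub, abs_neg, abs_of_nonneg hm']
      have a3 : P s - cl σ m' (P' t) = (P s - P' t) - (cl σ m' (P' t) - P' t) := by ring
      rw [a2, a3]
      refine (abs_sub _ _).trans ?_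
      linarith
  · rcases hm'.eq_or_lt with e' | e'
    · rw [← e', cl_zero]
      have a1 := abs_cl_sub_le (k := σ) (t := P s) hm
      have a2 : |m - (0:ℝ)| = m := by rw [sub_zero, abs_of_nonneg hm]
      have a3 : cl σ m (P s) - P' t = (P s - P' t) + (cl σ m (P s) - P s) := by ring
      rw [a2, a3]
      refine (abs_add_le _ _).trans ?_
      linarith
    · rw [h2 e, h2' e']
      have := abs_cl_comp_le (m := m) (m' := m') hf hσ
      linarith [abs_nonneg (m - m')]

end P073.H196
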