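import Vale.Agent.P073.H196.PEdge
import Vale.Agent.P073.H196.Stack

/-!
# P073, H196, [PCELL], Round T: the given maps of the protected cells

`Inv κ Θ Λ A`: the insertion map `κ` and the homeomorphism `Θ` preserve the set `A`. This holds for
rectangles whose ends are off the cells (`Rct`), and for sets which miss the boxes. For all such
images `A = h (X)` the map `Θ ∘ h` is a homeomorphism of `X` onto `Pre κ Λ h X` (`psi`).
-/

open Set Metric Topology Filter

namespace P073.H196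

open P073 P073.H236 P073.H579

/-- `κ` and `Θ` preserve `A` -/
def Inv (κ Θ : (Fin 3 → ℝ) → Fin 3 → ℝ) (Λ A : Set (Fin 3 → ℝ)) : Prop :=
  ∀ y ∈ Λ, (κ y ∈ A ↔ y ∈ A) ∧ (Θ y ∈ A ↔ y ∈ A)

theorem Inv.inter {κ Θ : (Fin 3 → ℝ) → Fin 3 → ℝ} {Λ A A' : Set (Fin 3 → ℝ)} (h : Inv κ Θ Λ A)
    (h' : Inv κ Θ Λ A') : Inv κ Θ Λ (A ∩ A') :=
  fun y hy => ⟨and_congr (h y hy).1 (h' y hy).1, and_congr (h y hy).2 (h' y hy).2⟩

theorem Inv.iUnion {κ Θ : (Fin 3 → ℝ) → Fin 3 → ℝ} {Λ : Set (Fin 3 → ℝ)} {α : Type*}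
    {A : α → Set (Fin 3 → ℝ)} (h : ∀ i, Inv κ Θ Λ (A i)) : Inv κ Θ Λ (⋃ i, A i) := by
  intro y hy
  simp only [mem_iUnion]
  exact ⟨exists_congr fun i => (h i y hy).1, exists_congr fun i => (h i y hy).2⟩

/-- a point with `Inv` is fixed -/
theorem Inv.fix {κ Θ : (Fin 3 → ℝ) → Fin 3 → ℝ} {Λ : Set (Fin 3 → ℝ)} {y : Fin 3 → ℝ}
    (h : Inv κ Θ Λ {y}) (hy : y ∈ Λ) : κ y = y ∧ Θ y = y :=
  ⟨(h y hy).1.2 rfl, (h y hy).2.2 rfl⟩

section psi
variable {E : Type*} [NormedAddCommGroup E] [NormedSpace ℝ E] {Ω X : Set E}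
  {Λ : Set (Fin 3 → ℝ)} {κ : (Fin 3 → ℝ) → Fin 3 → ℝ}

theorem image_theta {h : ConHomeo Ω Λ} {Θ : ConHomeo Λ Λ} (hX : X ⊆ Ω)
    (hI : Inv κ Θ.toFun Λ (h.toFun '' X)) :
    (fun x => Θ.toFun (h.toFun x)) '' X = Pre κ Λ h X :=
  theta_image hX (fun y hy => (hI y hy).1) (fun y hy => (hI y hy).2)

/-- **the given map** `Θ ∘ h` on `X` -/
noncomputable def psi (h : ConHomeo Ω Λ) (Θ : ConHomeo Λ Λ) (hX : X ⊆ Ω) (hXc : ConicalSet X)
    (hI : Inv κ Θ.toFun Λ (h.toFun '' X)) : ConHomeo X (Pre κ Λ h X) :=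
  ((h.trans Θ).restr hXc hX).cast rfl (image_theta hX hI)

theorem psi_toFun (h : ConHomeo Ω Λ) (Θ : ConHomeo Λ Λ) (hX : X ⊆ Ω) (hXc : ConicalSet X)
    (hI : Inv κ Θ.toFun Λ (h.toFun '' X)) (x : E) :
    (psi h Θ hX hXc hI).toFun x = Θ.toFun (h.toFun x) := rfl

/-- at the points where both maps are trivial -/
theorem kappa_psi (h : ConHomeo Ω Λ) (Θ : ConHomeo Λ Λ) {x : E} (hx : x ∈ Ω)
    (hI : Inv κ Θ.toFun Λ {h.toFun x}) : κ (Θ.toFun (h.toFun x)) = h.toFun x := by
  obtain ⟨h1, h2⟩ := hI.fix (h.mapsTo hx)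
  rw [h2, h1]

end psi

/-! ### rectangles -/

/-- rectangles whose ends are off the cells of the boxes which they meet -/
def Rct {γ : Type*} (B : γ → BX 3) (K' : γ → Set (Fin 3 → ℝ)) (A : Set (Fin 3 → ℝ)) : Prop :=
  ∃ p q : Fin 3 → ℝ, A = Icc p q ∧ ∀ g, (A ∩ K' g).Nonempty → ∀ v ∈ (B g).lvs.L,
    2 * (B g).c < |p (B g).j - v| ∧ 2 * (B g).c < |q (B g).j - v|

theorem Rct.inter {γ : Type*} {B : γ → BX 3} {K' : γ → Set (Fin 3 → ℝ)} {A A' : Set (Fin 3 → ℝ)}
    (h : Rct B K' A) (h' : Rct B K' A') : Rct B K' (A ∩ A') := by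
  obtain ⟨p, q, rfl, h1⟩ := h
  obtain ⟨p', q', rfl, h2⟩ := h'
  refine ⟨p ⊔ p', q ⊓ q', Icc_inter_Icc, fun g hg v hv => ?_⟩
  have a1 := h1 g (hg.mono (inter_subset_inter_left _ inter_subset_left)) v hv
  have a2 := h2 g (hg.mono (inter_subset_inter_left _ inter_subset_right)) v hv
  constructor
  · rcases max_choice (p (B g).j) (p' (B g).j) with h3 | h3
    · show _ < |max (p (B g).j) (p' (B g).j) - v|
      rw [h3]; exact a1.1
    · show _ < |max (p (B g).j) (p' (B g).j) - v|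
      rw [h3]; exact a2.1
  · rcases min_choice (q (B g).j) (q' (B g).j) with h3 | h3
    · show _ < |min (q (B g).j) (q' (B g).j) - v|
      rw [h3]; exact a1.2
    · show _ < |min (q (B g).j) (q' (B g).j) - v|
      rw [h3]; exact a2.2

theorem not_mem_cell {p v c : ℝ} (h : 2 * c < |p - v|) : p ∉ Icc (v - 2 * c) (v + 2 * c) := by
  rintro ⟨h1, h2⟩
  have : |p - v| ≤ 2 * c := by rw [abs_le]; constructor <;> linarith
  linarith

/-- a rectangle is invariant in the cells -/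
theorem Rct.mv {γ : Type*} {B : γ → BX 3} {lo' hi' r' : γ → Fin 3 → ℝ} {A : Set (Fin 3 → ℝ)}
    (h : Rct B (fun g => kbox (B g).j (B g).al (B g).be (lo' g) (hi' g) (r' g)) A) {g : γ}
    {y : Fin 3 → ℝ} (hy : y ∈ kbox (B g).j (B g).al (B g).be (lo' g) (hi' g) (r' g)) {v : ℝ}
    (hv : v ∈ (B g).lvs.L) :
    MvInv A (B g).j (Icc (v - 2 * (B g).c) (v + 2 * (B g).c)) {y} := by
  obtain ⟨p, q, rfl, h1⟩ := h
  rintro z rfl hz t ht
  by_cases hne : (Icc p q ∩ kbox (B g).j (B g).al (B g).be (lo' g) (hi' g) (r' g)).Nonempty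
  · obtain ⟨a1, a2⟩ := h1 g hne v hv
    exact mvInv_icc ordConnected_Icc (not_mem_cell a1) (not_mem_cell a2) univ z (mem_univ _) hz t ht
  · have h2 : Function.update z (B g).j t ∈
        kbox (B g).j (B g).al (B g).be (lo' g) (hi' g) (r' g) := by
      obtain ⟨k, hk, rfl⟩ := (B g).lvs.mem_L.1 hv
      have e1 := (B g).lvs.first_le hk
      have e2 := (B g).lvs.le_last hk
      refine ⟨?_, fun i hi => by rw [Function.update_of_ne hi]; exact hy.2 i hi⟩
      rw [Function.update_self]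
      exact ⟨by linarith [ht.1], by linarith [ht.2]⟩
    constructor
    · intro h3; exact absurd ⟨_, h3, h2⟩ hne
    · intro h3; exact absurd ⟨_, h3, hy⟩ hne

/-- **rectangles are preserved** -/
theorem inv_of_rct {γ : Type*} {Λ : Set (Fin 3 → ℝ)} {B : γ → BX 3} {c : γ → ℝ}
    {h0 : ∀ g, 0 < c g} {h1 : ∀ g, c g ≤ (B g).c} {κ : (Fin 3 → ℝ) → Fin 3 → ℝ}
    (hκ : H345.IsQ (fun g => H345.thin (B g) (c g) (h0 g) (h1 g)) κ) {lam : γ → ℝ}
    (l0 : ∀ g, 0 < lam g) (l1 : ∀ g, lam g ≤ 1) {lo' hi' r' : γ → Fin 3 → ℝ}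
    {F : HFam 3 γ Λ} {Θ : ConHomeo Λ Λ} (hΘ : F.IsH Θ)
    (hF : ∀ g, ∃ hr, F.X g = thHX (B g) (lam g) (l0 g) (l1 g) (lo' g) (hi' g) (r' g) hr)
    (hK : ∀ g, (B g).K ⊆ kbox (B g).j (B g).al (B g).be (lo' g) (hi' g) (r' g))
    {A : Set (Fin 3 → ℝ)}
    (hA : Rct B (fun g => kbox (B g).j (B g).al (B g).be (lo' g) (hi' g) (r' g)) A) :
    Inv κ Θ.toFun Λ A := by
  intro y _
  constructor
  · refine IsQ.mem_iff_of hκ fun g hg v hv _ => ?_
    have hg' : y ∈ (B g).K := hg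
    refine (hA.mv (hK g hg') (v := v) hv).mono (Icc_subset_Icc ?_ ?_) Subset.rfl
    · have := h1 g
      show v - 2 * (B g).c ≤ v - 2 * c g
      linarith
    · have := h1 g
      show v + 2 * c g ≤ v + 2 * (B g).c
      linarith
  · refine thFam_mem_iff hΘ B lam l0 l1 (fun g => ?_) fun g hg v hv _ => ?_
    · obtain ⟨hr, e⟩ := hF g
      rw [e]; rfl
    · obtain ⟨hr, e⟩ := hF g
      rw [e] at hg ⊢
      exact hA.mv (g := g) hg hv

/-- **sets which miss the boxes are preserved** -/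
theorem inv_of_miss {γ : Type*} {Λ : Set (Fin 3 → ℝ)} {B : γ → BX 3} {c : γ → ℝ}
    {h0 : ∀ g, 0 < c g} {h1 : ∀ g, c g ≤ (B g).c} {κ : (Fin 3 → ℝ) → Fin 3 → ℝ}
    (hκ : H345.IsQ (fun g => H345.thin (B g) (c g) (h0 g) (h1 g)) κ)
    {F : HFam 3 γ Λ} {Θ : ConHomeo Λ Λ} (hΘ : F.IsH Θ) (hK : ∀ g, (B g).K ⊆ (F.X g).K)
    {A : Set (Fin 3 → ℝ)} (hA : ∀ g, Disjoint (F.X g).K A) : Inv κ Θ.toFun Λ A := by
  intro y _
  constructor
  · by_cases hy : ∃ g, y ∈ (B g).K
    · obtain ⟨g, hg⟩ := hy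
      have h2 : κ y ∈ (B g).K := hκ.mapsK (g := g) hg
      exact ⟨fun h => absurd h (Set.disjoint_left.1 (hA g) (hK g h2)),
        fun h => absurd h (Set.disjoint_left.1 (hA g) (hK g hg))⟩
    · push Not at hy
      rw [hκ.off y hy]
  · rcases hΘ.cases y with ⟨g, hg, -⟩ | ⟨-, e⟩
    · have h2 := hΘ.mem hg
      exact ⟨fun h => absurd h (Set.disjoint_left.1 (hA g) h2),
        fun h => absurd h (Set.disjoint_left.1 (hA g) hg)⟩
    · rw [e]

/-! ### the correction after the staircase -/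

/-- the data of the correction: mesh coordinates `V b`, gaps `g b`, displacement `d b` -/
structure FixD {n : ℕ} {ι : Type*} {Λ : Set (Fin n → ℝ)} (F : HFam n ι Λ) (V : ι → Finset ℝ) where
  g : ι → ℝ
  d : ι → ℝ
  g0 : ∀ b, 0 < g b
  win : ∀ b, (F.X b).al + g b ≤ (F.X b).be
  mem : ∀ b, ∀ v ∈ V b, (F.X b).al + g b ≤ v ∧ v + g b ≤ (F.X b).be
  sep : ∀ b, ∀ v ∈ V b, ∀ w ∈ V b, v < w → v + g b ≤ w
  d0 : ∀ b, 0 ≤ d b
  near : ∀ b, ∀ v ∈ V b, |(F.X b).k v - v| ≤ d b
  dg : ∀ b, 4 * d b ≤ g b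
  dD : ∀ b, d b ≤ (F.X b).D

namespace FixD

variable {n : ℕ} {ι : Type*} {Λ : Set (Fin n → ℝ)} {F : HFam n ι Λ} {V : ι → Finset ℝ}
  (X : FixD F V)

theorem ex (b : ι) : ∃ τ τ' : ℝ → ℝ, Fix (F.X b).al (F.X b).be (V b) (F.X b).k (X.d b)
    (4 * X.d b / X.g b) τ τ' :=
  exists_fix (X.g0 b) (X.win b) (X.mem b) (X.sep b) ((F.X b).l1.out _ (Or.inl le_rfl))
    ((F.X b).l1.out _ (Or.inr le_rfl)) (X.d0 b) (X.near b) (X.dg b)

noncomputable def τ (b : ι) : ℝ → ℝ := (X.ex b).choose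
noncomputable def τ' (b : ι) : ℝ → ℝ := (X.ex b).choose_spec.choose

theorem fix (b : ι) : Fix (F.X b).al (F.X b).be (V b) (F.X b).k (X.d b)
    (4 * X.d b / X.g b) (X.τ b) (X.τ' b) := (X.ex b).choose_spec.choose_spec

/-- the family of the corrections: the same boxes and heights -/
noncomputable def hfam : HFam n ι Λ where
  X := fun b =>
    { j := (F.X b).j
      al := (F.X b).al
      be := (F.X b).be
      k := X.τ b
      k' := X.τ' b
      l1 :=
        { kc := (X.fix b).cont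
          kk := (X.fix b).con
          km := (X.fix b).mono
          kc' := (X.fix b).cont'
          kk' := (X.fix b).con'
          km' := (X.fix b).mono'
          left := (X.fix b).left
          right := (X.fix b).right
          out := (X.fix b).out }
      hab := (F.X b).hab
      lo := (F.X b).lo
      hi := (F.X b).hi
      r := (F.X b).r
      hr := (F.X b).hr
      D := (F.X b).D
      hD := fun t => ((X.fix b).disp t).trans (X.dD b) }
  sub := F.sub
  lf := F.lf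
  dis := F.dis

theorem hfam_m (b : ι) (y : Fin n → ℝ) : (X.hfam.X b).m y = (F.X b).m y := rfl

theorem hfam_K (b : ι) : (X.hfam.X b).K = (F.X b).K := rfl

theorem hfam_j (b : ι) : (X.hfam.X b).j = (F.X b).j := rfl

theorem hfam_k (b : ι) : (X.hfam.X b).k = X.τ b := rfl

/-- **the mesh planes are fixed** by the composition -/
theorem comp_fix {S T : ConHomeo Λ Λ} (hS : F.IsH S) (hT : X.hfam.IsH T) {b : ι}
    {y : Fin n → ℝ} (hy : y ∈ (F.X b).K) (hv : y (F.X b).j ∈ V b) : T.toFun (S.toFun y) = y := by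
  have h1 : S.toFun y = Function.update y (F.X b).j (cl (F.X b).k ((F.X b).m y) (y (F.X b).j)) := by
    rw [hS.on b y hy, (F.X b).H_toFun, vc]
  have h2 : S.toFun y ∈ (X.hfam.X b).K := hS.mem hy
  have h3 : T.toFun (S.toFun y) = Function.update (S.toFun y) (F.X b).j
      (cl (X.τ b) ((F.X b).m (S.toFun y)) (S.toFun y (F.X b).j)) := by
    rw [hT.on b _ h2]; rfl
  have h4 : (F.X b).m (S.toFun y) = (F.X b).m y := by
    rw [h1]; exact (F.X b).vd.mj y _
  have h5 : S.toFun y (F.X b).j = cl (F.X b).k ((F.X b).m y) (y (F.X b).j) := by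
    rw [h1, Function.update_self]
  rw [h3, h4, h5, cl_cl_fix (X.fix b).mono.monotone ((F.X b).vd.m0 y) ((X.fix b).fix _ hv), h1,
    Function.update_idem, Function.update_eq_self]

/-- **rectangles with ends in the mesh coordinates are preserved** -/
theorem comp_mem_iff {S T : ConHomeo Λ Λ} (hS : F.IsH S) (hT : X.hfam.IsH T) {p q : Fin n → ℝ}
    (hpq : ∀ b, (Icc p q ∩ (F.X b).K).Nonempty →
      (p (F.X b).j ∈ V b ∨ p (F.X b).j ≤ (F.X b).al ∨ (F.X b).be ≤ p (F.X b).j) ∧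
      (q (F.X b).j ∈ V b ∨ q (F.X b).j ≤ (F.X b).al ∨ (F.X b).be ≤ q (F.X b).j))
    (y : Fin n → ℝ) : T.toFun (S.toFun y) ∈ Icc p q ↔ y ∈ Icc p q := by
  by_cases hb : ∃ b, y ∈ (F.X b).K
  · obtain ⟨b, hb⟩ := hb
    set j := (F.X b).j with hj
    -- the vertical map
    set φ : ℝ → ℝ := fun t => cl (X.τ b) ((F.X b).m y) (cl (F.X b).k ((F.X b).m y) t) with hφ
    have hm0 : 0 ≤ (F.X b).m y := (F.X b).vd.m0 y
    have hφm : StrictMono φ :=
      (cl_strictMono (X.fix b).mono _).comp (cl_strictMono (F.X b).l1.km _)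
    have hφv : ∀ v ∈ V b, φ v = v := fun v hv =>
      cl_cl_fix (X.fix b).mono.monotone hm0 ((X.fix b).fix v hv)
    have hφo : ∀ t, t ≤ (F.X b).al ∨ (F.X b).be ≤ t → φ t = t := fun t ht => by
      show cl (X.τ b) _ (cl (F.X b).k _ t) = t
      rw [cl_fix hm0 ((F.X b).l1.out t ht), cl_fix hm0 ((X.fix b).out t ht)]
    have hTS : T.toFun (S.toFun y) = Function.update y j (φ (y j)) := by
      have h1 : S.toFun y = Function.update y j (cl (F.X b).k ((F.X b).m y) (y j)) := by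
        rw [hS.on b y hb, (F.X b).H_toFun, vc]
      have h2 : S.toFun y ∈ (X.hfam.X b).K := hS.mem hb
      have h3 : T.toFun (S.toFun y) = Function.update (S.toFun y) j
          (cl (X.τ b) ((F.X b).m (S.toFun y)) (S.toFun y j)) := by
        rw [hT.on b _ h2]; rfl
      have h4 : (F.X b).m (S.toFun y) = (F.X b).m y := by
        rw [h1]; exact (F.X b).vd.mj y _
      rw [h3, h4, h1, Function.update_self, Function.update_idem]
    rw [hTS]
    -- the image is in the box too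
    have hmem : Function.update y j (φ (y j)) ∈ (F.X b).K := by
      rw [← hTS]
      exact hT.mem (b := b) (hS.mem hb)
    by_cases hne : (Icc p q ∩ (F.X b).K).Nonempty
    · obtain ⟨hp, hq⟩ := hpq b hne
      have ep : φ (p j) = p j := by
        rcases hp with h | h
        · exact hφv _ h
        · exact hφo _ h
      have eq : φ (q j) = q j := by
        rcases hq with h | h
        · exact hφv _ h
        · exact hφo _ h
      have e1 : p j ≤ φ (y j) ↔ p j ≤ y j := by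
        conv_lhs => rw [← ep]
        exact hφm.le_iff_le
      have e2 : φ (y j) ≤ q j ↔ y j ≤ q j := by
        conv_lhs => rw [← eq]
        exact hφm.le_iff_le
      simp only [mem_Icc, Pi.le_def]
      constructor
      · rintro ⟨a1, a2⟩
        refine ⟨fun i => ?_, fun i => ?_⟩
        · by_cases hi : i = j
          · rw [hi]
            have := a1 j
            rw [Function.update_self] at this
            exact e1.1 this
          · have := a1 i; rwa [Function.update_of_ne hi] at this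
        · by_cases hi : i = j
          · rw [hi]
            have := a2 j
            rw [Function.update_self] at this
            exact e2.1 this
          · have := a2 i; rwa [Function.update_of_ne hi] at this
      · rintro ⟨a1, a2⟩
        refine ⟨fun i => ?_, fun i => ?_⟩
        · by_cases hi : i = j
          · rw [hi, Function.update_self]; exact e1.2 (a1 j)
          · rw [Function.update_of_ne hi]; exact a1 i
        · by_cases hi : i = j
          · rw [hi, Function.update_self]; exact e2.2 (a2 j)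
          · rw [Function.update_of_ne hi]; exact a2 i
    · constructor
      · intro h; exact absurd ⟨_, h, hmem⟩ hne
      · intro h; exact absurd ⟨_, h, hb⟩ hne
  · push Not at hb
    rw [hS.off y hb, hT.off y hb]

end FixD

end P073.H196
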