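import Vale.Agent.P073.H196.RTProt

/-!
# P073, H196, **[RT-P]**: the numbers `λ b` for cells and faces
-/

open Set Metric Topology Filter

namespace P073.H196

open _root_.P073 _root_.P073.Net _root_.P073.PA691 _root_.P073.H579 _root_.P073.H236
open _root_.P073.PR720 (LF)
open Vale.Agent.P073.St (V)
open Vale.Agent.P073.H471 Vale.Agent.P073.H267 Vale.Agent.P073.H267.Geo
open Vale.Agent.P073.H73 (Mesh usq)
open Vale.Agent.P073.H193 (Edges mesh_sub)
open Vale.Agent.P073.H669 (TLv)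

/-- a face has two points -/
theorem exists_two_face {Ω : Set V} (M : Mesh Ω) (k : M.κ) : ∃ x ∈ M.F k, ∃ y ∈ M.F k, x ≠ y := by
  obtain ⟨φ, -, -⟩ := (M.fat k).chart
  have h1 : ∃ x ∈ usq, ∃ y ∈ usq, x ≠ y := by
    refine ⟨(0, 0), ⟨by norm_num, by norm_num⟩, (1, 1), ⟨by norm_num, by norm_num⟩, fun h => ?_⟩
    have := congrArg Prod.fst h
    norm_num at this
  obtain ⟨x, hx, y, hy, hxy⟩ := h1
  exact ⟨φ.toFun x, φ.mapsTo hx, φ.toFun y, φ.mapsTo hy, fun h => hxy (φ.injOn hx hy h)⟩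

variable {Ω Λ : Set V} {v : V} {K : BoxCx Λ v} {S₀ : Rad K} {Wd : Wid K S₀} {B : Boxes Wd}

/-- **the numbers `λ b`**: smaller than every Lipschitz constant of `h` on a cell or face which
meets the box -/
theorem exists_lamHF (G : Geo B) (M : Mesh Ω) (h : ConHomeo Ω Λ) :
    ∃ lam : TBx K → ℝ, (∀ b, 0 < lam b) ∧
      (∀ b i, (h.toFun '' M.Q i ∩ G.TB false b).Nonempty → ∀ q : ℝ,
        (∀ x ∈ M.Q i, ∀ y ∈ M.Q i, ‖h.toFun x - h.toFun y‖ ≤ q * ‖x - y‖) → lam b ≤ q) ∧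
      ∀ b k, (h.toFun '' M.F k ∩ G.TB false b).Nonempty → ∀ q : ℝ,
        (∀ x ∈ M.F k, ∀ y ∈ M.F k, ‖h.toFun x - h.toFun y‖ ≤ q * ‖x - y‖) → lam b ≤ q := by
  obtain ⟨l₁, hl₁, hq₁⟩ := exists_lamH G M h
  have hfin : ∀ b, {k | (h.toFun '' M.F k ∩ G.TB false b).Nonempty}.Finite := fun b =>
    Croft.finite_image_inter h (fun k => mesh_sub M k) (fun X hX hXc => M.ffin X hX hXc)
      (show IsCompact (G.TB false b) from isCompact_Icc) (TB_sub b)
  have hnum : ∀ k, ∃ s : ℝ, 0 < s ∧ ∀ q : ℝ, (∀ x ∈ M.F k, ∀ y ∈ M.F k,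
      ‖h.toFun x - h.toFun y‖ ≤ q * ‖x - y‖) → s ≤ q := by
    intro k
    obtain ⟨x, hx, y, hy, hxy⟩ := exists_two_face M k
    have h1 : h.toFun x ≠ h.toFun y := fun he => hxy (h.injOn (mesh_sub M k hx)
      (mesh_sub M k hy) he)
    have h2 : 0 < ‖x - y‖ := norm_pos_iff.2 (sub_ne_zero.2 hxy)
    have h3 : 0 < ‖h.toFun x - h.toFun y‖ := norm_pos_iff.2 (sub_ne_zero.2 h1)
    refine ⟨‖h.toFun x - h.toFun y‖ / ‖x - y‖, by positivity, fun q hq => ?_⟩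
    rw [div_le_iff₀ h2]
    exact hq x hx y hy
  choose s hs hsq using hnum
  have hmin : ∀ b, ∃ l : ℝ, 0 < l ∧ ∀ k ∈ {k | (h.toFun '' M.F k ∩ G.TB false b).Nonempty},
      l ≤ s k := by
    intro b
    by_cases hne : (hfin b).toFinset.Nonempty
    · refine ⟨(hfin b).toFinset.inf' hne s, ?_, fun i hi =>
        Finset.inf'_le _ ((hfin b).mem_toFinset.2 hi)⟩
      rw [Finset.lt_inf'_iff]
      exact fun i _ => hs i
    · refine ⟨1, one_pos, fun i hi => absurd ⟨i, (hfin b).mem_toFinset.2 hi⟩ hne⟩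
  choose l hl hls using hmin
  exact ⟨fun b => min (l₁ b) (l b), fun b => lt_min (hl₁ b) (hl b),
    fun b i hi q hq => (min_le_left _ _).trans (hq₁ b i hi q hq),
    fun b k hk q hq => (min_le_right _ _).trans ((hls b k hk).trans (hsq k q hq))⟩

end P073.H196
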