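import Vale.Agent.P073.H196.RTRect
import Vale.Agent.P073.H142.FaceTail
import Vale.Agent.P073.H155.RT3D

/-!
# P073, H196, **[RT-P] protv, protu** and **lip3** in ROUND T of `K3C`

From the local Lipschitz bound [LIP-H1]: `protv_of`, `lip3_of`; `exists_lamH`: the numbers `λ b`.
From the verticality (ptv) on the protected cells: `protu_of`.
-/

open Set Metric Topology Filter

namespace P073.H196

open _root_.P073 _root_.P073.Net _root_.P073.PA691 _root_.P073.H579 _root_.P073.H236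
open _root_.P073.PR720 (LF)
open Vale.Agent.P073.St (V)
open Vale.Agent.P073.H471 Vale.Agent.P073.H267 Vale.Agent.P073.H267.Geo
open Vale.Agent.P073.H73 (Mesh)
open Vale.Agent.P073.H193 (Edges)
open Vale.Agent.P073.H304 (Nb InW)
open Vale.Agent.P073.H669 (TLv)

section diag

variable {Ω Λ : Set V} {M : Mesh Ω} {h : ConHomeo Ω Λ} {η δ c₀ : ℝ} {v₀ w : V}
  {ρ : V → ℝ} {J₀ J : Set (ℕ × (Fin 3 → ℤ))} {Pr Z : Set M.ι} {i : M.ι}

/-- on a protected cell the map is a similarity -/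
theorem prot_sim (hη : η < 1) (hin : InW (Λ := Λ) η δ c₀ v₀ w ρ M h.toFun J₀ J Pr Z)
    (hi : i ∈ Pr) : ∃ q : ℝ, 0 < q ∧ ∀ x ∈ M.Q i, ∀ y ∈ M.Q i,
      ‖h.toFun x - h.toFun y‖ = q * ‖x - y‖ := by
  obtain ⟨t, -, a, r, s, hr, hs, hQi, hh⟩ := hin.prot i hi
  have h2 : (0:ℝ) < 1 - η := by linarith
  have hq : 0 < (1 - η) / 2 / 2 ^ t.1 / r := by positivity
  refine ⟨(1 - η) / 2 / 2 ^ t.1 / r, hq, fun x hx y hy => ?_⟩
  set q := (1 - η) / 2 / 2 ^ t.1 / r with hqd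
  have key : ∀ j, |(h.toFun x - h.toFun y) j| = q * |(x - y) j| := by
    intro j
    rw [Pi.sub_apply, Pi.sub_apply, hh x hx, hh y hy]
    have e : Vale.Agent.P073.H73.ctr w t.1 t.2 j + q * s j * (x j - a j) -
        (Vale.Agent.P073.H73.ctr w t.1 t.2 j + q * s j * (y j - a j)) =
        q * s j * (x j - y j) := by ring
    rw [e, abs_mul, abs_mul, abs_of_pos hq]
    have h3 : |s j| = 1 := by
      rcases hs j with h | h <;> rw [h]
      · exact abs_one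
      · rw [abs_neg, abs_one]
    rw [h3, mul_one]
  apply le_antisymm
  · rw [pi_norm_le_iff_of_nonneg (by positivity)]
    intro j
    rw [Real.norm_eq_abs, key]
    have := norm_le_pi_norm (x - y) j
    rw [Real.norm_eq_abs] at this
    exact mul_le_mul_of_nonneg_left this hq.le
  · rw [mul_comm, ← le_div_iff₀ hq, pi_norm_le_iff_of_nonneg (by positivity)]
    intro j
    rw [Real.norm_eq_abs, le_div_iff₀ hq, mul_comm, ← key]
    have := norm_le_pi_norm (h.toFun x - h.toFun y) j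
    rwa [Real.norm_eq_abs] at this

/-- the part of a protected cell in a convex set of the target is convex -/
theorem prot_convex (hη : η < 1) (hin : InW (Λ := Λ) η δ c₀ v₀ w ρ M h.toFun J₀ J Pr Z)
    (hi : i ∈ Pr) {T : Set V} (hT : Convex ℝ T) : Convex ℝ {x | x ∈ M.Q i ∧ h.toFun x ∈ T} := by
  obtain ⟨c, lam, a, r, hr, hlam, hQi, hg⟩ := prot_diag hη hin hi
  rintro x ⟨hx, hxT⟩ y ⟨hy, hyT⟩ α β hα hβ hαβ
  have hz : α • x + β • y ∈ M.Q i := by
    rw [hQi] at hx hy ⊢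
    exact convex_closedBall a r hx hy hα hβ hαβ
  refine ⟨hz, ?_⟩
  have e : h.toFun (α • x + β • y) = α • h.toFun x + β • h.toFun y := by
    ext j
    rw [hg _ hz]
    simp only [Pi.add_apply, Pi.smul_apply, smul_eq_mul]
    rw [hg x hx, hg y hy]
    have hb : β = 1 - α := by linarith
    subst hb
    ring
  rw [e]
  exact hT hxT hyT hα hβ hαβ

/-- **protv** from [LIP-H1]: `f` is the coordinate `l` of the output -/
theorem protv_of (hη : η < 1) (hin : InW (Λ := Λ) η δ c₀ v₀ w ρ M h.toFun J₀ J Pr Z)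
    (hi : i ∈ Pr) {T : Set V} (hT : Convex ℝ T) {f : V → ℝ} {A lam : ℝ}
    (hlam : ∀ x ∈ M.Q i, ∀ y ∈ M.Q i, lam * ‖x - y‖ ≤ ‖h.toFun x - h.toFun y‖)
    (H : ∀ x ∈ M.Q i, h.toFun x ∈ T → ∀ᶠ y in 𝓝[M.Q i] x,
      |f y - f x| ≤ A * ‖h.toFun y - h.toFun x‖ + lam * ‖y - x‖) :
    ∀ x ∈ M.Q i, ∀ y ∈ M.Q i, h.toFun x ∈ T → h.toFun y ∈ T →
      |f x - f y| ≤ (A + 1) * ‖h.toFun x - h.toFun y‖ := by
  obtain ⟨q, hq, hsim⟩ := prot_sim hη hin hi
  intro x hx y hy hxT hyT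
  have key := H142.lip_of_local (prot_convex hη hin hi hT) (g := f) (K := (A + 1) * q)
    (fun z hz => by
      filter_upwards [nhdsWithin_mono z (fun z' hz' => hz'.1) (H z hz.1 hz.2),
        self_mem_nhdsWithin] with z' h1 h2
      rw [Real.norm_eq_abs]
      refine h1.trans ?_
      have h4 := hsim z' h2.1 z hz.1
      have h5 := hlam z' h2.1 z hz.1
      rw [h4] at h5 ⊢
      linarith) x ⟨hx, hxT⟩ y ⟨hy, hyT⟩
  rw [Real.norm_eq_abs] at key
  refine key.trans (le_of_eq ?_)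
  rw [hsim x hx y hy]; ring

end diag

/-- a cell has two points -/
theorem exists_two {Ω : Set V} (M : Mesh Ω) (i : M.ι) : ∃ x ∈ M.Q i, ∃ y ∈ M.Q i, x ≠ y := by
  obtain ⟨x, hx⟩ := (M.poly i).int
  obtain ⟨r, hr, hb⟩ := Metric.isOpen_iff.1 isOpen_interior x hx
  refine ⟨x, interior_subset hx, x + fun _ => r / 2, interior_subset (hb ?_), fun h => ?_⟩
  · rw [mem_ball, dist_eq_norm, add_sub_cancel_left, pi_norm_lt_iff hr]
    intro j
    rw [Real.norm_eq_abs, abs_of_pos (by positivity)]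
    linarith
  · have := congrFun h 0
    simp only [Pi.add_apply] at this
    linarith

variable {Ω Λ : Set V} {v : V} {K : BoxCx Λ v} {S₀ : Rad K} {Wd : Wid K S₀} {B : Boxes Wd}
  {G : Geo B} {M : Mesh Ω} {E : Edges M} {h h' : ConHomeo Ω Λ} {ω : TBx K → ℝ}
  {T : TBx K → Finset (ℝ × ℝ)} {η : ℝ} {τ : Type*} {A : τ → Set V} {C : Set ℝ} {εE : E.ε → ℝ}
  {δ : TBx K → ℝ} {L : TLv G E h ω T η A C εE δ} {G₀ : Set (TBx K)}

/-- **the numbers `λ b`**: smaller than every Lipschitz constant of `h` on a cell which meets the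
box -/
theorem exists_lamH (G : Geo B) (M : Mesh Ω) (h : ConHomeo Ω Λ) :
    ∃ lam : TBx K → ℝ, (∀ b, 0 < lam b) ∧
      ∀ b i, (h.toFun '' M.Q i ∩ G.TB false b).Nonempty → ∀ q : ℝ,
        (∀ x ∈ M.Q i, ∀ y ∈ M.Q i, ‖h.toFun x - h.toFun y‖ ≤ q * ‖x - y‖) → lam b ≤ q := by
  have hfin : ∀ b, {i | (h.toFun '' M.Q i ∩ G.TB false b).Nonempty}.Finite := fun b =>
    Croft.finite_image_inter h (fun i => M.sub i) (fun X hX hXc => M.fin X hX hXc)
      (show IsCompact (G.TB false b) from isCompact_Icc) (TB_sub b)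
  have hnum : ∀ i, ∃ s : ℝ, 0 < s ∧ ∀ q : ℝ, (∀ x ∈ M.Q i, ∀ y ∈ M.Q i,
      ‖h.toFun x - h.toFun y‖ ≤ q * ‖x - y‖) → s ≤ q := by
    intro i
    obtain ⟨x, hx, y, hy, hxy⟩ := exists_two M i
    have h1 : h.toFun x ≠ h.toFun y := fun he => hxy (h.injOn (M.sub i hx) (M.sub i hy) he)
    have h2 : 0 < ‖x - y‖ := norm_pos_iff.2 (sub_ne_zero.2 hxy)
    have h3 : 0 < ‖h.toFun x - h.toFun y‖ := norm_pos_iff.2 (sub_ne_zero.2 h1)
    refine ⟨‖h.toFun x - h.toFun y‖ / ‖x - y‖, by positivity, fun q hq => ?_⟩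
    rw [div_le_iff₀ h2]
    exact hq x hx y hy
  choose s hs hsq using hnum
  have hmin : ∀ b, ∃ l : ℝ, 0 < l ∧ ∀ i ∈ {i | (h.toFun '' M.Q i ∩ G.TB false b).Nonempty},
      l ≤ s i := by
    intro b
    by_cases hne : (hfin b).toFinset.Nonempty
    · refine ⟨(hfin b).toFinset.inf' hne s, ?_, fun i hi =>
        Finset.inf'_le _ ((hfin b).mem_toFinset.2 hi)⟩
      rw [Finset.lt_inf'_iff]
      exact fun i _ => hs i
    · refine ⟨1, one_pos, fun i hi => absurd ⟨i, (hfin b).mem_toFinset.2 hi⟩ hne⟩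
  choose l hl hls using hmin
  exact ⟨l, hl, fun b i hi q hq => (hls b i hi).trans (hsq i q hq)⟩

/-- **lip3** from [LIP-H1] -/
theorem lip3_of {i : M.ι} {f : V → ℝ} {A lam : ℝ} (hA : 0 ≤ A)
    (hlam : ∀ q : ℝ, (∀ x ∈ M.Q i, ∀ y ∈ M.Q i, ‖h.toFun x - h.toFun y‖ ≤ q * ‖x - y‖) →
      lam ≤ q) {q : ℝ}
    (hq : ∀ x ∈ M.Q i, ∀ y ∈ M.Q i, ‖h.toFun x - h.toFun y‖ ≤ q * ‖x - y‖) {x : V}
    (hx : x ∈ M.Q i) (H : ∀ᶠ y in 𝓝[M.Q i] x,
      |f y - f x| ≤ A * ‖h.toFun y - h.toFun x‖ + lam * ‖y - x‖) :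
    ∀ᶠ y in 𝓝[M.Q i] x, |f y - f x| ≤ (A + 1) * q * ‖y - x‖ := by
  filter_upwards [H, self_mem_nhdsWithin] with y h1 h2
  refine h1.trans ?_
  have h4 := mul_le_mul_of_nonneg_left (hq y h2 x hx) hA
  have h5 := mul_le_mul_of_nonneg_right (hlam q hq) (norm_nonneg (y - x))
  linarith

/-- **protv**, the field of `TOut3`: with the numbers `λ b` of `exists_lamH` -/
theorem protv_field {Pr : Set M.ι} {η' δ' c₀ : ℝ} {v₀ w : V} {ρ : V → ℝ}
    {J₀ J : Set (ℕ × (Fin 3 → ℤ))} {Z : Set M.ι} (hη : η' < 1)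
    (hin : InW (Λ := Λ) η' δ' c₀ v₀ w ρ M h.toFun J₀ J Pr Z) {A C₀ : ℝ} (_hA : 0 ≤ A)
    (hC : A + 1 ≤ C₀) {lam : TBx K → ℝ}
    (hlam : ∀ b i, (h.toFun '' M.Q i ∩ G.TB false b).Nonempty → ∀ q : ℝ,
      (∀ x ∈ M.Q i, ∀ y ∈ M.Q i, ‖h.toFun x - h.toFun y‖ ≤ q * ‖x - y‖) → lam b ≤ q)
    {h1 : V → V}
    (H : ∀ i ∈ Pr, ∀ b ∈ G₀, ∀ x ∈ M.Q i, h.toFun x ∈ G.TB false b → ∀ᶠ y in 𝓝[M.Q i] x,
      |h1 y b.ax - h1 x b.ax| ≤ A * ‖h.toFun y - h.toFun x‖ + lam b * ‖y - x‖) :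
    ∀ i ∈ Pr, ∀ b ∈ G₀, ∀ x ∈ M.Q i, ∀ y ∈ M.Q i, h.toFun x ∈ G.TB false b →
      h.toFun y ∈ G.TB false b → |h1 x b.ax - h1 y b.ax| ≤ C₀ * ‖h.toFun x - h.toFun y‖ := by
  intro i hi b hb x hx y hy hxT hyT
  obtain ⟨q, hq, hsim⟩ := prot_sim hη hin hi
  have hl := hlam b i ⟨_, ⟨x, hx, rfl⟩, hxT⟩ q fun x hx y hy => (hsim x hx y hy).le
  have h2 := protv_of hη hin hi (T := G.TB false b) (convex_Icc _ _) (f := fun x => h1 x b.ax)
    (A := A) (lam := lam b) (fun x hx y hy => by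
      rw [hsim x hx y hy]
      exact mul_le_mul_of_nonneg_right hl (norm_nonneg _)) (fun x hx hxT => H i hi b hb x hx hxT)
    x hx y hy hxT hyT
  exact h2.trans (mul_le_mul_of_nonneg_right hC (norm_nonneg _))

/-- **lip3**, the field of `TOut3` -/
theorem lip3_field {Wc : Set M.ι} {A C₀ : ℝ} (hA : 0 ≤ A) (hC : A + 1 ≤ C₀) {lam : TBx K → ℝ}
    (hlam : ∀ b i, (h.toFun '' M.Q i ∩ G.TB false b).Nonempty → ∀ q : ℝ,
      (∀ x ∈ M.Q i, ∀ y ∈ M.Q i, ‖h.toFun x - h.toFun y‖ ≤ q * ‖x - y‖) → lam b ≤ q)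
    {h1 : V → V}
    (H : ∀ i ∈ Wc, ∀ b ∈ G₀, ∀ x ∈ M.Q i, h.toFun x ∈ G.TB false b → ∀ᶠ y in 𝓝[M.Q i] x,
      |h1 y b.ax - h1 x b.ax| ≤ A * ‖h.toFun y - h.toFun x‖ + lam b * ‖y - x‖) :
    ∀ i ∈ Wc, ∀ L > 0, (∀ i', (M.Q i ∩ M.Q i').Nonempty →
      ∀ x ∈ M.Q i', ∀ y ∈ M.Q i', ‖h.toFun x - h.toFun y‖ ≤ L * ‖x - y‖) →
    ∀ b ∈ G₀, ∀ x ∈ M.Q i, h.toFun x ∈ G.TB false b →
    ∀ᶠ x' in 𝓝[M.Q i] x, |h1 x' b.ax - h1 x b.ax| ≤ C₀ * L * ‖x' - x‖ := by
  intro i hi L hL hLip b hb x hx hxT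
  have hq := hLip i ⟨x, hx, hx⟩
  have h2 := lip3_of (f := fun x => h1 x b.ax) hA
    (hlam b i ⟨_, ⟨x, hx, rfl⟩, hxT⟩) hq hx (H i hi b hb x hx hxT)
  filter_upwards [h2] with y hy
  refine hy.trans (mul_le_mul_of_nonneg_right (mul_le_mul_of_nonneg_right hC hL.le)
    (norm_nonneg _))

section protu

variable {V₀ : G₀ → Finset ℝ}

/-- a point of the box `b` in the supports of another box is at an end of the window of that box -/
theorem end_of_other (L : TLv G E h ω T η A C εE δ) {b b' : TBx K} (hne : b' ≠ b) {y : V}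
    (hy : y ∈ G.TB false b) (hy' : y ∈ rtK G ω b' 60) :
    y b'.ax ≤ G.tlo true b' b'.ax ∨ G.thi true b' b'.ax ≤ y b'.ax := by
  by_contra hcon
  push Not at hcon
  refine (disjoint_TB (G := G) hne).notMem_of_mem_left ?_ hy
  have h0 := L.ω0 b'
  have h3 := L.ωo b'
  refine mem_interior.2 ⟨{z | ∀ i, (if i = b'.ax then G.tlo true b' b'.ax else
      G.tlo true b' i - 61 * ω b') < z i ∧ z i < (if i = b'.ax then G.thi true b' b'.ax else
      G.thi true b' i + 61 * ω b')}, fun z hz => ?_, ?_, fun i => ?_⟩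
  · refine rtK_sub L (u := 61) (by norm_num) ⟨?_, fun i hi => ?_⟩
    · have := hz b'.ax
      rw [if_pos rfl, if_pos rfl] at this
      exact ⟨this.1.le, this.2.le⟩
    · have := hz i
      rw [if_neg hi, if_neg hi] at this
      exact ⟨this.1.le, this.2.le⟩
  · rw [Set.ofPred_forall]
    exact isOpen_iInter_of_finite fun i => (isOpen_lt continuous_const (continuous_apply i)).inter
      (isOpen_lt (continuous_apply i) continuous_const)
  · by_cases hi : i = b'.ax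
    · subst hi
      rw [if_pos rfl, if_pos rfl]
      exact hcon
    · rw [if_neg hi, if_neg hi]
      have := hy'.2 i hi
      constructor <;> linarith

/-- in the box `b` the staircase moves only the coordinate of the box -/
theorem vrt_upd (L : TLv G E h ω T η A C εE δ) {F : V → V}
    {φ : G₀ → V → ℝ → ℝ} (HF : Vrt F jR (alR G) (beR G) (loR G ω) (hiR G ω) φ)
    (hφ : VFx (WR G V₀) φ) {b : TBx K} {y : V} (hy : y ∈ G.TB false b) {l : Fin 3}
    (hl : l ≠ b.ax) : F y l = y l := by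
  by_cases hex : ∃ b' : G₀, y ∈ rtK G ω b'.1 60
  · obtain ⟨b', hb'⟩ := hex
    have e := HF.on b' y hb'
    by_cases hbb : b'.1 = b
    · rw [e]
      exact Function.update_of_ne (by show l ≠ b'.1.ax; rw [hbb]; exact hl) _ _
    · have h1 := end_of_other L hbb hy hb'
      have h2 : φ b' y (y b'.1.ax) = y b'.1.ax := hφ.fix b' y _ (Or.inr h1)
      have h3 : F y = y := by
        rw [e, h2, Function.update_eq_self]
      rw [h3]
  · push Not at hex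
    rw [HF.off y hex]

/-- **protu** from the verticality (ptv) on the protected cells -/
theorem protu_of (L : TLv G E h ω T η A C εE δ) {g S : V → V}
    {φ : G₀ → V → ℝ → ℝ} (HF : Vrt S jR (alR G) (beR G) (loR G ω) (hiR G ω) φ)
    (hφ : VFx (WR G V₀) φ) {x : V} {r : G₀ → ℝ}
    (hpt : H155.PtOk h.toFun g (fun b : G₀ => rtK G ω b.1 60) r x)
    (hptv : ∀ b ∈ G₀, h.toFun x ∈ G.TB false b → ∀ l, l ≠ b.ax → g x l = h.toFun x l)
    {b : TBx K} (hb : b ∈ G₀) (hxb : h.toFun x ∈ G.TB false b) {l : Fin 3} (hl : l ≠ b.ax) :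
    S (g x) l = h.toFun x l := by
  rcases hpt with ⟨b₁, h1, h2, -⟩ | he
  · have h3 : h.toFun x ∈ G.TB false b₁.1 := rtK_sub L (u := 60) (by norm_num) h1
    have e := HF.on b₁ (g x) h2
    by_cases hax : b₁.1.ax = b.ax
    · rw [e, Function.update_of_ne (by show l ≠ b₁.1.ax; rw [hax]; exact hl)]
      exact hptv b hb hxb l hl
    · have h4 : g x = h.toFun x := by
        ext k
        by_cases hk : k = b.ax
        · exact hptv b₁.1 b₁.2 h3 k (by rw [hk]; exact fun h => hax h.symm)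
        · exact hptv b hb hxb k hk
      rw [h4]
      exact vrt_upd L HF hφ hxb hl
  · rw [he]
    exact vrt_upd L HF hφ hxb hl

end protu

end P073.H196
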