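import Vale.Agent.P073.H196.Stack
import Vale.Agent.P073.H196.PStair

/-!
# P073, H196, [THETA-P]: the maps `Θ` of one family of boxes, below staircases with half the fade

`halfX B`: the box `B` with half of the fade radii. `thetaX B lam`: the map `th` (slope `lam` on the
thick flats), support `B.K`, full on the support of `halfX B`. So `S ∘ Θ` is Lipschitz for every
staircase `S` with boxes `halfX (thin B)`.
-/

open Set Metric Topology Filter

namespace P073.H196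

open P073 P073.H236

variable {n : ℕ} {γ : Type*} {Λ : Set (Fin n → ℝ)}

/-- the box with half of the fade -/
noncomputable def halfX (B : BX n) : BX n where
  j := B.j
  N := B.N
  a := B.a
  c := B.c
  al := B.al
  be := B.be
  lvs := B.lvs
  lo := B.lo
  hi := B.hi
  r := fun i => B.r i / 2
  hr := fun i => half_pos (B.hr i)

theorem halfX_K_sub (B : BX n) : (halfX B).K ⊆ B.K := by
  rintro y ⟨h1, h2⟩
  refine ⟨h1, fun i hi => ?_⟩
  have h3 := h2 i hi
  have h4 := B.hr i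
  change B.lo i - B.r i / 2 ≤ y i ∧ y i ≤ B.hi i + B.r i / 2 at h3
  constructor <;> linarith [h3.1, h3.2]

/-- the box of `Θ` -/
noncomputable def thetaX (B : BX n) (lam : ℝ) (h0 : 0 < lam) (h1 : lam ≤ 1) : HX n :=
  thHX B lam h0 h1 (fun i => B.lo i - B.r i / 2) (fun i => B.hi i + B.r i / 2)
    (fun i => B.r i / 2) (fun i => half_pos (B.hr i))

theorem thetaX_K {B : BX n} {lam : ℝ} {h0 : 0 < lam} {h1 : lam ≤ 1} :
    (thetaX B lam h0 h1).K = B.K := by
  have h : ∀ y i, (B.lo i - B.r i / 2 - B.r i / 2 ≤ (y : Fin n → ℝ) i ∧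
      y i ≤ B.hi i + B.r i / 2 + B.r i / 2) ↔ (B.lo i - B.r i ≤ y i ∧ y i ≤ B.hi i + B.r i) := by
    intro y i
    constructor <;> rintro ⟨a, b⟩ <;> constructor <;> linarith
  ext y
  show (_ ∧ ∀ i, i ≠ B.j → (B.lo i - B.r i / 2 - B.r i / 2 ≤ y i ∧
      y i ≤ B.hi i + B.r i / 2 + B.r i / 2)) ↔ (_ ∧ ∀ i, i ≠ B.j → _)
  exact and_congr_right fun _ => forall_congr' fun i => imp_congr_right fun _ => h y i

/-- the family of `Θ` -/
noncomputable def thetaFam (B : γ → BX n) (lam : γ → ℝ) (h0 : ∀ b, 0 < lam b)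
    (h1 : ∀ b, lam b ≤ 1) (sub : ∀ b, (B b).K ⊆ Λ)
    (lf : ∀ z ∈ Λ, ∃ U ∈ 𝓝 z, {b | ((B b).K ∩ U).Nonempty}.Finite)
    (dis : ∀ b b', b ≠ b' → Disjoint (B b).K (B b').K) : HFam n γ Λ where
  X := fun b => thetaX (B b) (lam b) (h0 b) (h1 b)
  sub := fun b => by rw [thetaX_K]; exact sub b
  lf := fun z hz => by
    obtain ⟨U, hU, hf⟩ := lf z hz
    refine ⟨U, hU, hf.subset ?_⟩
    rintro b ⟨x, hx, hxU⟩
    rw [thetaX_K] at hx
    exact ⟨x, hx, hxU⟩
  dis := fun b b' hb => by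
    rw [thetaX_K, thetaX_K]
    exact (dis b b' hb).mono_left interior_subset

/-- shape of a family of staircases over `B`, with half of the fade -/
structure SShape (B : γ → BX n) (F : BFam n γ Λ) : Prop where
  j : ∀ b, (F.B b).j = (B b).j
  al : ∀ b, (F.B b).al = (B b).al
  be : ∀ b, (F.B b).be = (B b).be
  lo : ∀ b, (F.B b).lo = (B b).lo
  hi : ∀ b, (F.B b).hi = (B b).hi
  r : ∀ b, (F.B b).r = fun i => (B b).r i / 2

/-- the big boxes are the supports -/
theorem bigBox_eq_K (B : BX n) : bigBox B.j B.al B.be (fun i => B.lo i - B.r i)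
    (fun i => B.hi i + B.r i) = B.K := rfl

section

variable {B : γ → BX n} {lam : γ → ℝ} {h0 : ∀ b, 0 < lam b} {h1 : ∀ b, lam b ≤ 1}
  {sub : ∀ b, (B b).K ⊆ Λ} {lf : ∀ z ∈ Λ, ∃ U ∈ 𝓝 z, {b | ((B b).K ∩ U).Nonempty}.Finite}
  {dis : ∀ b b', b ≠ b' → Disjoint (B b).K (B b').K} {F : BFam n γ Λ}

theorem over_theta : Over (thetaFam B lam h0 h1 sub lf dis) (fun b => (B b).j)
    (fun b => (B b).al) (fun b => (B b).be) (fun b i => (B b).lo i - (B b).r i)
    (fun b i => (B b).hi i + (B b).r i) where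
  hj := fun _ => rfl
  hal := fun _ => rfl
  hbe := fun _ => rfl
  hlo := fun b i _ => by
    show (B b).lo i - (B b).r i ≤ (B b).lo i - (B b).r i / 2 - (B b).r i / 2
    linarith
  hhi := fun b i _ => by
    show (B b).hi i + (B b).r i / 2 + (B b).r i / 2 ≤ (B b).hi i + (B b).r i
    linarith
  dis := fun b b' hb y hy hy' => by
    have h2 : y ∈ (B b').K := by
      have := interior_subset hy
      rwa [show ((thetaFam B lam h0 h1 sub lf dis).X b').K = (B b').K from thetaX_K] at this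
    exact Set.disjoint_left.1 (dis b b' hb) hy' h2

theorem SShape.K_sub (H : SShape B F) (b : γ) : (F.B b).K ⊆ (B b).K := by
  rintro y ⟨h2, h3⟩
  rw [H.j, H.al, H.be] at h2
  refine ⟨h2, fun i hi => ?_⟩
  have h4 := h3 i (by rw [H.j]; exact hi)
  rw [H.lo, H.hi, H.r] at h4
  have h5 := (B b).hr i
  constructor <;> linarith [h4.1, h4.2]

theorem SShape.over (H : SShape B F) (dis : ∀ b b', b ≠ b' → Disjoint (B b).K (B b').K) :
    Over F.hfam (fun b => (B b).j)
    (fun b => (B b).al) (fun b => (B b).be) (fun b i => (B b).lo i - (B b).r i)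
    (fun b i => (B b).hi i + (B b).r i) where
  hj := H.j
  hal := H.al
  hbe := H.be
  hlo := fun b i _ => by
    show (B b).lo i - (B b).r i ≤ (F.B b).lo i - (F.B b).r i
    rw [H.lo, H.r]
    have := (B b).hr i
    linarith
  hhi := fun b i _ => by
    show (F.B b).hi i + (F.B b).r i ≤ (B b).hi i + (B b).r i
    rw [H.hi, H.r]
    have := (B b).hr i
    linarith
  dis := fun b b' hb y hy hy' =>
    Set.disjoint_left.1 (dis b b' hb) hy' (H.K_sub b' (interior_subset hy))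

/-- where the staircase moves, `Θ` is full -/
theorem SShape.full (H : SShape B F) {b : γ} {y : Fin n → ℝ} (hy : 0 < (F.hx b).m y) :
    (B b).c ≤ (thetaX (B b) (lam b) (h0 b) (h1 b)).m y := by
  have key : ∀ i, i ≠ (B b).j → (B b).lo i - (B b).r i / 2 ≤ y i ∧
      y i ≤ (B b).hi i + (B b).r i / 2 := by
    intro i hi
    by_contra hcon
    have h3 : (F.hx b).m y = 0 := by
      refine bmp_zero (F.B b).hr (i := i) (show i ≠ (F.B b).j by rw [H.j]; exact hi) ?_
      show y i ≤ (F.B b).lo i - (F.B b).r i ∨ (F.B b).hi i + (F.B b).r i ≤ y i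
      rw [H.lo, H.hi, H.r]
      by_contra h4
      push Not at h4
      exact hcon ⟨h4.1.le, h4.2.le⟩
    exact hy.ne' h3
  have h2 : (thetaX (B b) (lam b) (h0 b) (h1 b)).m y = (B b).c :=
    bmp_full (thetaX (B b) (lam b) (h0 b) (h1 b)).hr key
  rw [h2]

/-- the vertical function of `S ∘ Θ` -/
noncomputable def φΘ (B : γ → BX n) (lam : γ → ℝ) (h0 : ∀ b, 0 < lam b) (h1 : ∀ b, lam b ≤ 1)
    (F : BFam n γ Λ) (b : γ) (y : Fin n → ℝ) (t : ℝ) : ℝ :=
  cl (F.σ b) ((F.hx b).m y) (cl (th (B b).lvs.L (B b).c (lam b))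
    ((thetaX (B b) (lam b) (h0 b) (h1 b)).m y) t)

theorem SShape.vrt (H : SShape B F) {S Θ : ConHomeo Λ Λ} (hS : F.IsS S)
    (hΘ : (thetaFam B lam h0 h1 sub lf dis).IsH Θ) :
    Vrt (fun y => S.toFun (Θ.toFun y)) (fun b => (B b).j)
    (fun b => (B b).al) (fun b => (B b).be) (fun b i => (B b).lo i - (B b).r i)
    (fun b i => (B b).hi i + (B b).r i) (φΘ B lam h0 h1 F) :=
  ((H.over dis).vrt (BFam.isH hS)).comp (over_theta.vrt hΘ)

/-- **the estimate for one box** -/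
theorem SShape.abs_φ_sub_le (H : SShape B F) {b : γ} {A : ℝ} (hA : 2 ≤ A)
    (hσ : ∀ s t, |F.σ b (th (B b).lvs.L (B b).c (lam b) s) -
      F.σ b (th (B b).lvs.L (B b).c (lam b) t)| ≤ A * |s - t|) {ρ d : ℝ} (hρ : 0 < ρ)
    (hr : ∀ i, ρ ≤ (B b).r i / 2) {y y' : Fin n → ℝ}
    (hd : ∀ i, i ≠ (B b).j → |y i - y' i| ≤ d) (hd0 : 0 ≤ d) (s t : ℝ) :
    |φΘ B lam h0 h1 F b y s - φΘ B lam h0 h1 F b y' t| ≤
      A * |s - t| + (3 * F.D b + (B b).c) * (d / ρ) := by
  have hc := (B b).lvs.c0.le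
  have e1 := abs_comp_le (σ := F.σ b) (τ := fun x => x) (T := 1) hc (B b).lvs.sepd (h0 b) (h1 b)
    hA hσ le_rfl (fun s t => by rw [one_mul]) ((F.hx b).vd.m0 y) ((F.hx b).vd.m0 y')
    (m₁ := (thetaX (B b) (lam b) (h0 b) (h1 b)).m y)
    (m₁' := (thetaX (B b) (lam b) (h0 b) (h1 b)).m y')
    (fun h => H.full h) (fun h => H.full h) s t
  have m0 : 0 ≤ (F.hx b).m y := (F.hx b).vd.m0 y
  have m0' : 0 ≤ (F.hx b).m y' := (F.hx b).vd.m0 y'
  rw [cl_fix m0 rfl, cl_fix m0' rfl] at e1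
  have e2 : |(F.hx b).m y - (F.hx b).m y'| ≤ F.D b * (d / ρ) :=
    abs_bmp_sub_le (F.D0 b) hρ (fun i => by
      show ρ ≤ (F.B b).r i
      rw [H.r]; exact hr i) (fun i hi => hd i (by rw [← H.j]; exact hi)) hd0
  have e3 : |(thetaX (B b) (lam b) (h0 b) (h1 b)).m y -
      (thetaX (B b) (lam b) (h0 b) (h1 b)).m y'| ≤ (B b).c * (d / ρ) :=
    abs_bmp_sub_le hc hρ (fun i => hr i) hd hd0
  unfold φΘ
  linarith

end

/-! ### the slope -/

/-- **the staircase over thin flats, after `th`, is Lipschitz** -/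
theorem abs_sm_th_sub_le {N : ℕ} {a : ℕ → ℝ} {c c' lam al be t₀ om e : ℝ} (hL : Lvs N a c al be)
    (hL' : Lvs N a c' al be) (hT : Tgt N al be t₀ om e) (hl0 : 0 < lam) (hl1 : lam ≤ 1)
    (hcl : c' = lam * c) {q : ℝ} (hq : om ≤ q * c) (hom : 2 * e ≤ om)
    (h0 : t₀ + e - al ≤ a 0 - c' - al) (hgap : ∀ k, k + 1 < N → 2 * e ≤ a (k + 1) - a k - 2 * c')
    (h3 : be - (t₀ + N * om - e) ≤ be - (a (N - 1) + c')) (s t : ℝ) :
    |sm N a c' al be t₀ om e (th hL.L c lam s) - sm N a c' al be t₀ om e (th hL.L c lam t)| ≤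
      (q / 2 + 2) * |s - t| := by
  have hc := hL.c0
  have hc' := hL'.c0
  have he := hT.e0
  have h4 := lvLip_sm hL' hT (B := 1) le_rfl (by rw [one_mul]; exact h0)
    (fun k hk => by rw [one_mul]; exact hgap k hk) (by rw [one_mul]; exact h3)
  have eL : hL'.L = hL.L := rfl
  rw [eL] at h4
  have h5 := h4.comp_th hc.le hL.sepd hl0 hl1 hcl
    (div_nonneg (by linarith) (by linarith)) zero_le_one s t
  refine h5.trans (mul_le_mul_of_nonneg_right ?_ (abs_nonneg _))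
  have h6 : (om - 2 * e) / (2 * c') * lam ≤ q / 2 := by
    rw [hcl, div_mul_eq_mul_div, div_le_div_iff₀ (by positivity) (by norm_num)]
    nlinarith
  linarith

end P073.H196
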