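import Vale.Agent.P073.H880.RP0
import Vale.Agent.P073.H196.Theta2
import Vale.Agent.P073.H196.PInMk

/-!
# P073, H196, **[THETA-P], [PROT-P]**: the maps `Θ` of ROUND P

`Θ β` (`β = false, true`): the family of the maps `th` of the boxes `L.bx β s`, `s ∈ S₀`, thick flats
to thin flats, support `K` of the box, full on the supports of the staircases `T β`, whose boxes
are `halfX (thinL ..)`.
-/

open Set Metric Topology Filter

namespace P073.H196

open _root_.P073 _root_.P073.Net _root_.P073.PA691 _root_.P073.H236 _root_.P073.H579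
  _root_.P073.H345 _root_.P073.H880
open Vale.Agent.P073.St (V)
open Vale.Agent.P073.H471 Vale.Agent.P073.H267 Vale.Agent.P073.H267.Geo

variable {Ω Λ : Set V} {v : V} {K : BoxCx Λ v} {S : Rad K} {W : Wid K S} {B : Boxes W}
  {G : Geo B}

/-! ### the family -/

theorem K_disjoint (L : PLev G) (S₀ : Set K.S) (β : Bool) (b b' : S₀) (h : b ≠ b') :
    Disjoint (L.bx β b.1).K (L.bx β b'.1).K :=
  Set.disjoint_left.2 fun _ hy hy' => h (Subtype.ext
    (PK_unique (PLev.mem_bxK.1 hy).1 (PLev.mem_bxK.1 hy').1))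

/-- the slope of `Θ` on the thick flats -/
noncomputable def lamP (L : PLev G) (c : K.S → Bool → ℝ) (s : K.S) (β : Bool) : ℝ :=
  c s β / L.c s β

section

variable {L : PLev G} {c : K.S → Bool → ℝ}

theorem lamP_pos (h0 : ∀ s β, 0 < c s β) (s : K.S) (β : Bool) : 0 < lamP L c s β :=
  div_pos (h0 s β) (L.lvs s β).c0

theorem lamP_le (h1 : ∀ s β, c s β ≤ L.c s β) (s : K.S) (β : Bool) : lamP L c s β ≤ 1 :=
  (div_le_one (L.lvs s β).c0).2 (h1 s β)

theorem lamP_mul (s : K.S) (β : Bool) : lamP L c s β * L.c s β = c s β :=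
  div_mul_cancel₀ _ (L.lvs s β).c0.ne'

end

/-- **the family of `Θ β`** -/
noncomputable def thP (L : PLev G) (c : K.S → Bool → ℝ) (h0 : ∀ s β, 0 < c s β)
    (h1 : ∀ s β, c s β ≤ L.c s β) (hΛ : IsOpen Λ) (S₀ : Set K.S) (β : Bool) : HFam 3 S₀ Λ :=
  thetaFam (fun s : S₀ => L.bx β s.1) (fun s => lamP L c s.1 β) (fun s => lamP_pos h0 s.1 β)
    (fun s => lamP_le h1 s.1 β) (PLev.fam_sub L hΛ β S₀).sub (PLev.fam_sub L hΛ β S₀).lf
    (K_disjoint L S₀ β)

/-- the staircases of ROUND P over thin flats, with half of the fade, and `Θ` -/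
structure ThP (L : PLev G) (c : K.S → Bool → ℝ) (h0 : ∀ s β, 0 < c s β)
    (h1 : ∀ s β, c s β ≤ L.c s β) (hΛ : IsOpen Λ) (S₀ : Set K.S) (F : Bool → BFam 3 S₀ Λ)
    (T Θ : Bool → ConHomeo Λ Λ) (A : ℝ) : Prop where
  shape : ∀ β, SShape (fun s : S₀ => L.bx β s.1) (F β)
  isS : ∀ β, (F β).IsS (T β)
  isΘ : ∀ β, (thP L c h0 h1 hΛ S₀ β).IsH (Θ β)
  A2 : 2 ≤ A
  slope : ∀ β (s : S₀) t t',
    |(F β).σ s (th (L.bx β s.1).lvs.L (L.bx β s.1).c (lamP L c s.1 β) t) -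
      (F β).σ s (th (L.bx β s.1).lvs.L (L.bx β s.1).c (lamP L c s.1 β) t')| ≤ A * |t - t'|

theorem sshape_of_eq {L : PLev G} {c : K.S → Bool → ℝ} {h0 : ∀ s β, 0 < c s β}
    {h1 : ∀ s β, c s β ≤ L.c s β} {S₀ : Set K.S} {β : Bool} {F : BFam 3 S₀ Λ}
    (h : ∀ s : S₀, F.B s = halfX ((RP.thinL L c h0 h1).bx β s.1)) :
    SShape (fun s : S₀ => L.bx β s.1) F where
  j := fun b => by rw [h b]; rfl
  al := fun b => by rw [h b]; rfl
  be := fun b => by rw [h b]; rfl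
  lo := fun b => by rw [h b]; rfl
  hi := fun b => by rw [h b]; rfl
  r := fun b => by rw [h b]; rfl

/-! ### invariance -/

section

variable {L : PLev G} {c : K.S → Bool → ℝ} {h0 : ∀ s β, 0 < c s β}
  {h1 : ∀ s β, c s β ≤ L.c s β} {hΛ : IsOpen Λ} {S₀ : Set K.S} {A : Set V} {y : V} {β : Bool}

/-- **`Θ` preserves the invariant sets** -/
theorem theta_mem_iff {Θ : ConHomeo Λ Λ} (hΘ : (thP L c h0 h1 hΛ S₀ β).IsH Θ)
    (hA : RP.Inv L S₀ A) (y : V) : Θ.toFun y ∈ A ↔ y ∈ A := by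
  refine thFam_mem_iff hΘ (fun s : S₀ => L.bx β s.1) (fun s => lamP L c s.1 β)
    (fun s => lamP_pos h0 s.1 β) (fun s => lamP_le h1 s.1 β) (fun b => rfl) fun b hb v hv _ => ?_
  obtain ⟨n, hn, rfl⟩ := (L.lvs b.1 β).mem_L.1 hv
  have hy : y ∈ (L.bx β b.1).K := by
    rwa [show ((thP L c h0 h1 hΛ S₀ β).X b).K = (L.bx β b.1).K from thetaX_K] at hb
  exact (hA b.1 b.2 β n hn).mono Subset.rfl (singleton_subset_iff.2 (PLev.mem_bxK.1 hy).1)

/-- **the insertion maps preserve the invariant sets** -/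
theorem kap_mem_iff {κ : V → V}
    (hκ : IsQ (fun s : S₀ => (RP.thinL L c h0 h1).bx β s.1) κ) (hA : RP.Inv L S₀ A) (y : V) :
    κ y ∈ A ↔ y ∈ A := by
  refine IsQ.mem_iff_of hκ fun b hb v hv _ => ?_
  obtain ⟨n, hn, rfl⟩ := (L.lvs b.1 β).mem_L.1 hv
  have hc := h1 b.1 β
  refine (hA b.1 b.2 β n hn).mono ?_ (singleton_subset_iff.2 (PLev.mem_bxK.1 hb).1)
  refine Icc_subset_Icc ?_ ?_
  · show L.a b.1 β n - 2 * L.c b.1 β ≤ L.a b.1 β n - 2 * c b.1 β
    linarith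
  · show L.a b.1 β n + 2 * c b.1 β ≤ L.a b.1 β n + 2 * L.c b.1 β
    linarith

end

/-! ### the plates -/

/-- the map of one variable of `Θ` -/
noncomputable def θP (L : PLev G) (c : K.S → Bool → ℝ) (s : K.S) (j : Fin 3) : ℝ → ℝ :=
  if j = K.nrm s then id else th (L.lvs s (bt s j)).L (L.c s (bt s j)) (lamP L c s (bt s j))

section

variable {L : PLev G} {c : K.S → Bool → ℝ}

theorem θP_nrm (s : K.S) : θP L c s (K.nrm s) = id := if_pos rfl

theorem θP_tg (s : K.S) (β : Bool) :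
    θP L c s (tg s β) = th (L.lvs s β).L (L.c s β) (lamP L c s β) := by
  have key : ∀ γ, γ = β → th (L.lvs s γ).L (L.c s γ) (lamP L c s γ) =
      th (L.lvs s β).L (L.c s β) (lamP L c s β) := by rintro _ rfl; rfl
  unfold θP
  rw [if_neg (tg_ne s β)]
  exact key _ (bt_tg s β)

variable {h0 : ∀ s β, 0 < c s β} {h1 : ∀ s β, c s β ≤ L.c s β}

theorem thinL_kP_tg (s : K.S) (β : Bool) :
    (RP.thinL L c h0 h1).kP s (tg s β) = qm (L.lvs s β).L (c s β) := by
  rw [PLev.kP_tg]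
  exact kQ_self _

/-- the thick insertion map, as a composition -/
theorem ins1_θP (h0 : ∀ s β, 0 < c s β) (h1 : ∀ s β, c s β ≤ L.c s β) (s : K.S) (j : Fin 3) :
    Ins1 (fun t => (RP.thinL L c h0 h1).kP s j (θP L c s j t)) (L.lv s j : Set ℝ)
      (fun b => b - L.c s (bt s j)) (fun b => b + L.c s (bt s j)) := by
  by_cases h : j = K.nrm s
  · subst h
    rw [PLev.lv_nrm, θP_nrm, PLev.kP_nrm]
    exact ins1_id _ _
  · obtain ⟨β, rfl⟩ : ∃ β, j = tg s β := ⟨bt s j, (tg_bt s h).symm⟩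
    rw [PLev.lv_tg, θP_tg, thinL_kP_tg, bt_tg]
    have := ins1_qm_th (L.lvs s β).c0 (L.lvs s β).sepd (lamP_pos h0 s β) (lamP_le h1 s β)
    rw [lamP_mul] at this
    exact this

/-- positions in the thin and in the thick flats -/
theorem pos_θP (h0 : ∀ s β, 0 < c s β) (h1 : ∀ s β, c s β ≤ L.c s β) (s : K.S) (j : Fin 3)
    {b : ℝ} (hb : b ∈ L.lv s j) (t : ℝ) :
    pos ((RP.thinL L c h0 h1).loP s j) ((RP.thinL L c h0 h1).hiP s j) b (θP L c s j t) =
      pos (fun b => b - L.c s (bt s j)) (fun b => b + L.c s (bt s j)) b t := by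
  by_cases h : j = K.nrm s
  · subst h
    rw [PLev.lv_nrm] at hb
    simp at hb
  · obtain ⟨β, rfl⟩ : ∃ β, j = tg s β := ⟨bt s j, (tg_bt s h).symm⟩
    rw [PLev.lv_tg] at hb
    rw [θP_tg, bt_tg]
    have := pos_th (L.lvs s β).c0 (L.lvs s β).sepd (lamP_pos h0 s β) (lamP_le h1 s β) hb t
    rw [lamP_mul] at this
    have e1 : (RP.thinL L c h0 h1).loP s (tg s β) = fun b => b - c s β := by
      unfold PLev.loP; rw [bt_tg]; rfl
    have e2 : (RP.thinL L c h0 h1).hiP s (tg s β) = fun b => b + c s β := by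
      unfold PLev.hiP; rw [bt_tg]; rfl
    rw [e1, e2]
    exact this

/-- off the cells `Θ` is the identity -/
theorem θP_off (s : K.S) (j : Fin 3) {t : ℝ} (ht : ∀ b ∈ L.lv s j, 2 * L.c s (bt s j) ≤ |t - b|) :
    θP L c s j t = t := by
  by_cases h : j = K.nrm s
  · subst h; rw [θP_nrm]; rfl
  · obtain ⟨β, rfl⟩ : ∃ β, j = tg s β := ⟨bt s j, (tg_bt s h).symm⟩
    rw [PLev.lv_tg, bt_tg] at ht
    rw [θP_tg]
    exact th_off (L.lvs s β).c0.le ht

end

end P073.H196
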