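import Vale.Agent.P073.H196.ThetaQ2
import Vale.Agent.P073.H142.Face3W

/-!
# P073, H196: local estimates of the two-stage staircases after `Θ`, one coordinate

`LocJ1 T A q y j`: near `y` the coordinate `j` of `T` changes at most by `A` times the change of
the same coordinate, plus `q` times the norm.  `ThP2.locJ1`: for `j` off the windows, `q` is small;
`ThP2.locJ`: all coordinates, everywhere.
-/

open Set Metric Topology Filter

namespace P073.H196

open _root_.P073 _root_.P073.Net _root_.P073.PA691 _root_.P073.H236 _root_.P073.H579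
  _root_.P073.H345 _root_.P073.H880 _root_.P073.H190 _root_.P073.H142
open Vale.Agent.P073.St (V)
open Vale.Agent.P073.H471 Vale.Agent.P073.H267 Vale.Agent.P073.H267.Geo

/-- near `y` the coordinate `j` of `T` changes at most by `A` times the change of the same
coordinate, plus `q` times the norm -/
def LocJ1 (T : V → V) (A q : ℝ) (y : V) (j : Fin 3) : Prop :=
  ∀ᶠ y' in 𝓝 y, |T y' j - T y j| ≤ A * |y' j - y j| + q * ‖y' - y‖

theorem locJ_iff {T : V → V} {A q : ℝ} {y : V} : LocJ T A q y ↔ ∀ j, LocJ1 T A q y j :=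
  eventually_all

theorem LocJ1.mono {T : V → V} {A A' q q' : ℝ} {y : V} {j : Fin 3} (h : LocJ1 T A q y j)
    (hA : A ≤ A') (hq : q ≤ q') : LocJ1 T A' q' y j := by
  filter_upwards [h] with y' h1
  have h2 := mul_le_mul_of_nonneg_right hA (abs_nonneg (y' j - y j))
  have h3 := mul_le_mul_of_nonneg_right hq (norm_nonneg (y' - y))
  linarith

/-- **gluing** over disjoint closed sets, locally finite, for one statement near `y` -/
theorem ev_glue {ι : Type*} {P : ι → Set V} {Λ : Set V} {T : V → V} {y : V}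
    (hΛ : IsOpen Λ) (hy : y ∈ Λ) (hT : ContinuousOn T Λ) (hP : ∀ i, IsClosed (P i))
    (hdis : ∀ i i', (P i ∩ P i').Nonempty → i = i')
    (hlf : ∃ U ∈ 𝓝 y, {i | (P i ∩ U).Nonempty}.Finite) (hoff : ∀ z, (∀ i, z ∉ P i) → T z = z)
    {E : V → Prop} (hin : ∀ i, y ∈ P i → ∀ᶠ z in 𝓝 y, z ∈ P i → E z)
    (hid : T y = y → ∀ᶠ z in 𝓝 y, T z = z → E z) : ∀ᶠ z in 𝓝 y, E z := by
  -- near `y` only the sets which contain `y`
  have hnear : ∀ᶠ z in 𝓝 y, ∀ i, z ∈ P i → y ∈ P i := by
    obtain ⟨U, hU, hfin⟩ := hlf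
    have h1 : ∀ᶠ z in 𝓝 y, ∀ i ∈ {i | (P i ∩ U).Nonempty}, y ∉ P i → z ∉ P i := by
      rw [eventually_all_finite hfin]
      intro i _
      by_cases hyi : y ∈ P i
      · exact Eventually.of_forall fun z h => absurd hyi h
      · filter_upwards [(hP i).isOpen_compl.mem_nhds hyi] with z hz _
        exact hz
    filter_upwards [h1, hU] with z h2 h3 i hz
    by_contra hyi
    exact h2 i ⟨z, hz, h3⟩ hyi hz
  by_cases hyP : ∃ i, y ∈ P i
  · obtain ⟨i, hi⟩ := hyP
    have honly : ∀ᶠ z in 𝓝 y, z ∉ P i → ∀ i', z ∉ P i' := by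
      filter_upwards [hnear] with z hz hzi i' hzi'
      have h1 := hdis i' i ⟨y, hz i' hzi', hi⟩
      subst h1
      exact hzi hzi'
    by_cases hint : y ∈ interior (P i)
    · filter_upwards [mem_interior_iff_mem_nhds.1 hint, hin i hi] with z hz h1
      exact h1 hz
    · -- `y` is a limit of fixed points
      have hTy : T y = y := by
        have hcl : y ∈ closure (P i)ᶜ := by
          rw [closure_compl]
          exact hint
        have h1 : (𝓝[(P i)ᶜ] y).NeBot := mem_closure_iff_nhdsWithin_neBot.1 hcl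
        have h2 : Tendsto T (𝓝[(P i)ᶜ] y) (𝓝 (T y)) :=
          ((hT y hy).continuousAt (hΛ.mem_nhds hy)).tendsto.mono_left nhdsWithin_le_nhds
        have h3 : Tendsto T (𝓝[(P i)ᶜ] y) (𝓝 y) := by
          refine Tendsto.congr' ?_ (tendsto_id.mono_left nhdsWithin_le_nhds)
          filter_upwards [nhdsWithin_le_nhds honly, self_mem_nhdsWithin] with z h4 h5
          exact (hoff z (h4 h5)).symm
        exact tendsto_nhds_unique h2 h3
      filter_upwards [hid hTy, honly, hin i hi] with z h1 h2 h3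
      by_cases hz : z ∈ P i
      · exact h3 hz
      · exact h1 (hoff z (h2 hz))
  · push Not at hyP
    have hTy : T y = y := hoff y hyP
    filter_upwards [hid hTy, hnear] with z h1 h2
    exact h1 (hoff z fun i hi => hyP i (h2 i hi))

namespace ThP2

variable {Λ : Set V} {v : V} {K : BoxCx Λ v} {S : Rad K} {W : Wid K S} {B : Boxes W}
  {G : Geo B} {L : PLev G} {c : K.S → Bool → ℝ} {h0 : ∀ s β, 0 < c s β}
  {h1 : ∀ s β, c s β ≤ L.c s β} {hΛ : IsOpen Λ} {S₀ : Set K.S} {F : Bool → BFam 3 S₀ Λ}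
  {μ : Bool → S₀ → ℝ} {T Θ : Bool → ConHomeo Λ Λ} {A : ℝ}
  (H : ThP2 L c h0 h1 hΛ S₀ F μ T Θ A)

include H

/-- **one coordinate**: `q = εθ (A + εq)`, where `εθ` is the slope of the fade in the direction of
this coordinate: `6 μ + c` in place of `6 D + c` if the point is off the windows -/
theorem locJ1 {y : V} (hy : y ∈ Λ) (j : Fin 3) {εθ εq : ℝ} (hεθ0 : 0 ≤ εθ) (hεq0 : 0 ≤ εq)
    (hεq : ∀ s : S₀, y ∈ PK G s.1 → ∀ β,
      (6 * (F β).D s + L.c s.1 β) * (4 / B.τ s.1) ≤ εq)
    (hεθ : ∀ s : S₀, y ∈ PK G s.1 → ∀ β, j = tg s.1 β →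
      (6 * (F β).D s + L.c s.1 β) * (4 / B.τ s.1) ≤ εθ ∨
      ((6 * μ β s + L.c s.1 β) * (4 / B.τ s.1) ≤ εθ ∧ ∃ r₀, L.c s.1 β < r₀ ∧
        ∀ t, |t - y j| ≤ r₀ → |(F β).σ s t - t| ≤ μ β s)) :
    LocJ1 (fun y => (T true).toFun ((T false).toFun ((Θ true).toFun ((Θ false).toFun y)))) A
      (εθ * (A + εq)) y j := by
  have hA := H.A2
  refine ev_glue (P := fun s : S₀ => PK G s.1) hΛ hy ThP.map_cont (fun s => isClosed_PK G s.1)
    P073.H142.PK_disj (lf_PK_sub G S₀ y hy) (fun z hz => H.map_off fun s hs => hz ⟨s, hs⟩)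
    (fun s hs => ?_) fun hTy => ?_
  · by_cases hj : j = K.nrm s.1
    · subst hj
      refine Eventually.of_forall fun z hz => ?_
      show |(T true).toFun ((T false).toFun ((Θ true).toFun ((Θ false).toFun z))) (K.nrm s.1) -
        (T true).toFun ((T false).toFun ((Θ true).toFun ((Θ false).toFun y))) (K.nrm s.1)| ≤ _
      rw [H.map_nrm s hz, H.map_nrm s hs]
      have h2 := abs_nonneg (z (K.nrm s.1) - y (K.nrm s.1))
      have h3 : 0 ≤ εθ * (A + εq) * ‖z - y‖ := by positivity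
      nlinarith
    · obtain ⟨β, rfl⟩ : ∃ β, j = tg s.1 β := ⟨bt s.1 j, (tg_bt s.1 hj).symm⟩
      rcases hεθ s hs β rfl with h | ⟨h, r₀, hr₀, ho⟩
      · exact Eventually.of_forall fun z hz => H.map_tg_le' s hεθ0 (hεq s hs) hz hs β (Or.inl h)
      · have hev : ∀ᶠ z in 𝓝 y, |z (tg s.1 β) - y (tg s.1 β)| < r₀ - L.c s.1 β := by
          have hc : Continuous fun z : V => |z (tg s.1 β) - y (tg s.1 β)| := by fun_prop
          refine hc.continuousAt.eventually (gt_mem_nhds ?_)
          beta_reduce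
          rw [sub_self, abs_zero]
          linarith
        filter_upwards [hev] with z h2 hz
        refine H.map_tg_le' s hεθ0 (hεq s hs) hz hs β (Or.inr ⟨h, fun t ht => ?_, fun t ht => ?_⟩)
        · refine ho t ?_
          have h3 := abs_sub_le t (z (tg s.1 β)) (y (tg s.1 β))
          linarith
        · exact ho t (by linarith)
  · refine Eventually.of_forall fun z hz => ?_
    beta_reduce at hTy hz ⊢
    rw [hTy, hz]
    have h2 := abs_nonneg (z j - y j)
    have h3 : 0 ≤ εθ * (A + εq) * ‖z - y‖ := by positivity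
    nlinarith

/-- **all coordinates, everywhere** -/
theorem locJ {y : V} (hy : y ∈ Λ) {ε : ℝ} (hε0 : 0 ≤ ε)
    (hε : ∀ s : S₀, y ∈ PK G s.1 → ∀ β, (6 * (F β).D s + L.c s.1 β) * (4 / B.τ s.1) ≤ ε) :
    LocJ (fun y => (T true).toFun ((T false).toFun ((Θ true).toFun ((Θ false).toFun y)))) A
      (ε * (A + ε)) y :=
  locJ_iff.2 fun j => H.locJ1 hy j hε0 hε0 hε fun s hs β _ => Or.inl (hε s hs β)

/-- the norm -/
theorem loc_norm {y : V} (hy : y ∈ Λ) {ε : ℝ} (hε0 : 0 ≤ ε)
    (hε : ∀ s : S₀, y ∈ PK G s.1 → ∀ β, (6 * (F β).D s + L.c s.1 β) * (4 / B.τ s.1) ≤ ε) :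
    ∀ᶠ y' in 𝓝 y,
      ‖(T true).toFun ((T false).toFun ((Θ true).toFun ((Θ false).toFun y'))) -
        (T true).toFun ((T false).toFun ((Θ true).toFun ((Θ false).toFun y)))‖ ≤
        (A + ε * (A + ε)) * ‖y' - y‖ := by
  have hA := H.A2
  exact (H.locJ hy hε0 hε).norm (by linarith) (by positivity)

end ThP2

end P073.H196
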