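import Vale.Agent.P073.H579.HFaceA
import Vale.Agent.P073.H236.Stair1

/-!
# P073, H196, (T7) [THETA]: vertical crossings give the numbers of an edge map

`VertAt`: near the crossing point `x` of the level `X x j` the edge is vertical: only the coordinate
`j` of `X` changes, monotonically and `Λ`-Lipschitz, from one end of the cell
`[X x j - 2 c, X x j + 2 c]` to the other. `exists_edgeNum`: the numbers `EdgeNum` of H579 for every
edge map `f` which is in the flats the affine function of `X`.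
-/

open Set Metric Topology Filter

namespace P073.H196

open P073 P073.H579

variable {E : Type*} [NormedAddCommGroup E] [NormedSpace ℝ E] {m : ℕ}

/-- a vertical crossing of the cell of the level `X x j` -/
structure VertAt (a b : E) (X : E → Fin m → ℝ) (L : Fin m → Finset ℝ) (c : Fin m → ℝ) (Λ : ℝ)
    (x : E) (j : Fin m) (t₁ t₄ : ℝ) : Prop where
  pos : 0 < t₁
  lt_one : t₄ < 1
  mem : ∃ s ∈ Ioo t₁ t₄, (AffineMap.lineMap a b s : E) = x
  cst : ∀ i, i ≠ j → ∀ s ∈ Icc t₁ t₄, X (AffineMap.lineMap a b s) i = X x i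
  off : ∀ i, i ≠ j → ∀ β ∈ L i, c i < |X x i - β|
  lip : ∀ s ∈ Icc t₁ t₄, ∀ s' ∈ Icc t₁ t₄,
    |X (AffineMap.lineMap a b s) j - X (AffineMap.lineMap a b s') j| ≤ Λ * |s - s'|
  mono : (StrictMonoOn (fun s : ℝ => X (AffineMap.lineMap a b s) j) (Icc t₁ t₄) ∧
      X (AffineMap.lineMap a b t₁) j = X x j - 2 * c j ∧
      X (AffineMap.lineMap a b t₄) j = X x j + 2 * c j) ∨
    (StrictAntiOn (fun s : ℝ => X (AffineMap.lineMap a b s) j) (Icc t₁ t₄) ∧
      X (AffineMap.lineMap a b t₁) j = X x j + 2 * c j ∧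
      X (AffineMap.lineMap a b t₄) j = X x j - 2 * c j)

namespace VertAt

variable {a b : E} {X : E → Fin m → ℝ} {L : Fin m → Finset ℝ} {c : Fin m → ℝ} {Λ : ℝ}
  {x : E} {j : Fin m} {t₁ t₄ : ℝ}

theorem lt (H : VertAt a b X L c Λ x j t₁ t₄) : t₁ < t₄ := by
  obtain ⟨s, hs, -⟩ := H.mem; exact hs.1.trans hs.2

theorem injOn (H : VertAt a b X L c Λ x j t₁ t₄) :
    InjOn (fun s : ℝ => X (AffineMap.lineMap a b s) j) (Icc t₁ t₄) := by
  rcases H.mono with ⟨h, -, -⟩ | ⟨h, -, -⟩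
  · exact h.injOn
  · exact h.injOn

theorem cont (H : VertAt a b X L c Λ x j t₁ t₄) :
    ContinuousOn (fun s : ℝ => X (AffineMap.lineMap a b s) j) (Icc t₁ t₄) := by
  intro s hs
  rw [ContinuousWithinAt, tendsto_iff_dist_tendsto_zero]
  have h1 : Tendsto (fun s' : ℝ => Λ * |s' - s|) (𝓝[Icc t₁ t₄] s) (𝓝 0) := by
    have h2 : Tendsto (fun s' : ℝ => Λ * |s' - s|) (𝓝 s) (𝓝 (Λ * |s - s|)) := by
      have : Continuous fun s' : ℝ => Λ * |s' - s| := by fun_prop
      exact this.tendsto s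
    rw [sub_self, abs_zero, mul_zero] at h2
    exact h2.mono_left nhdsWithin_le_nhds
  refine squeeze_zero' (Eventually.of_forall fun _ => dist_nonneg) ?_ h1
  filter_upwards [self_mem_nhdsWithin] with s' hs'
  rw [Real.dist_eq]
  exact H.lip s' hs' s hs

/-- inside the interval the values are inside the cell -/
theorem mem_cell (H : VertAt a b X L c Λ x j t₁ t₄) {s : ℝ} (hs : s ∈ Ioo t₁ t₄) :
    |X (AffineMap.lineMap a b s) j - X x j| < 2 * c j := by
  have h0 := H.lt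
  have l1 : t₁ ∈ Icc t₁ t₄ := left_mem_Icc.2 h0.le
  have l4 : t₄ ∈ Icc t₁ t₄ := right_mem_Icc.2 h0.le
  have ls : s ∈ Icc t₁ t₄ := Ioo_subset_Icc_self hs
  rw [abs_lt]
  rcases H.mono with ⟨h, h1, h4⟩ | ⟨h, h1, h4⟩
  · have a1 := h l1 ls hs.1
    have a2 := h ls l4 hs.2
    simp only at a1 a2
    constructor <;> linarith
  · have a1 := h l1 ls hs.1
    have a2 := h ls l4 hs.2
    simp only at a1 a2
    constructor <;> linarith

theorem end1 (H : VertAt a b X L c Λ x j t₁ t₄) (hc : 0 < c j) :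
    |X (AffineMap.lineMap a b t₁) j - X x j| = 2 * c j := by
  rcases H.mono with ⟨-, h1, -⟩ | ⟨-, h1, -⟩
  · rw [h1]
    have : X x j - 2 * c j - X x j = -(2 * c j) := by ring
    rw [this, abs_neg, abs_of_pos (by linarith)]
  · rw [h1]
    have : X x j + 2 * c j - X x j = 2 * c j := by ring
    rw [this, abs_of_pos (by linarith)]

theorem end4 (H : VertAt a b X L c Λ x j t₁ t₄) (hc : 0 < c j) :
    |X (AffineMap.lineMap a b t₄) j - X x j| = 2 * c j := by
  rcases H.mono with ⟨-, -, h1⟩ | ⟨-, -, h1⟩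
  · rw [h1]
    have : X x j + 2 * c j - X x j = 2 * c j := by ring
    rw [this, abs_of_pos (by linarith)]
  · rw [h1]
    have : X x j - 2 * c j - X x j = -(2 * c j) := by ring
    rw [this, abs_neg, abs_of_pos (by linarith)]

/-- two vertical crossings are disjoint -/
theorem disj {y : E} {j' : Fin m} {u₁ u₄ : ℝ} (H : VertAt a b X L c Λ x j t₁ t₄)
    (H' : VertAt a b X L c Λ y j' u₁ u₄) (hc : ∀ i, 0 < c i)
    (hsep : ∀ i, H236.Sepd (L i) (c i)) (hx : X x j ∈ L j) (hy : X y j' ∈ L j') (hxy : x ≠ y) :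
    t₄ ≤ u₁ ∨ u₄ ≤ t₁ := by
  by_contra hcon
  push Not at hcon
  obtain ⟨h1, h2⟩ := hcon
  -- two points of the overlap
  have hov : max t₁ u₁ < min t₄ u₄ := max_lt (lt_min H.lt h2) (lt_min h1 H'.lt)
  obtain ⟨s, hs1, hs2⟩ := exists_between hov
  obtain ⟨s', hs1', hs2'⟩ := exists_between hs2
  have m1 : s ∈ Ioo t₁ t₄ := ⟨(le_max_left _ _).trans_lt hs1, hs2.trans_le (min_le_left _ _)⟩
  have m2 : s ∈ Ioo u₁ u₄ := ⟨(le_max_right _ _).trans_lt hs1, hs2.trans_le (min_le_right _ _)⟩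
  have m1' : s' ∈ Ioo t₁ t₄ := ⟨m1.1.trans hs1', hs2'.trans_le (min_le_left _ _)⟩
  have m2' : s' ∈ Ioo u₁ u₄ := ⟨m2.1.trans hs1', hs2'.trans_le (min_le_right _ _)⟩
  by_cases hj : j = j'
  · subst hj
    -- the same level
    have e : X x j = X y j := by
      by_contra hne
      have b1 := abs_lt.1 (H.mem_cell m1)
      have b2 := abs_lt.1 (H'.mem_cell m2)
      rcases lt_or_gt_of_ne hne with h3 | h3
      · have := hsep j _ hx _ hy h3; linarith
      · have := hsep j _ hy _ hx h3; linarith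
    have e1 : t₁ = u₁ := by
      rcases lt_trichotomy t₁ u₁ with h3 | h3 | h3
      · have := H.mem_cell ⟨h3, h1⟩
        rw [e, H'.end1 (hc j)] at this
        exact absurd this (lt_irrefl _)
      · exact h3
      · have := H'.mem_cell ⟨h3, h2⟩
        rw [← e, H.end1 (hc j)] at this
        exact absurd this (lt_irrefl _)
    have e4 : t₄ = u₄ := by
      rcases lt_trichotomy t₄ u₄ with h3 | h3 | h3
      · have := H'.mem_cell ⟨h1, h3⟩
        rw [← e, H.end4 (hc j)] at this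
        exact absurd this (lt_irrefl _)
      · exact h3
      · have := H.mem_cell ⟨h2, h3⟩
        rw [e, H'.end4 (hc j)] at this
        exact absurd this (lt_irrefl _)
    obtain ⟨p, hp, hpx⟩ := H.mem
    obtain ⟨q, hq, hqy⟩ := H'.mem
    rw [← e1, ← e4] at hq
    have : p = q := H.injOn (Ioo_subset_Icc_self hp) (Ioo_subset_Icc_self hq) (by
      show X (AffineMap.lineMap a b p) j = X (AffineMap.lineMap a b q) j
      rw [hpx, hqy, e])
    exact hxy (by rw [← hpx, ← hqy, this])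
  · have e1 := H'.cst j hj s (Ioo_subset_Icc_self m2)
    have e2 := H'.cst j hj s' (Ioo_subset_Icc_self m2')
    have := H.injOn (Ioo_subset_Icc_self m1) (Ioo_subset_Icc_self m1') (e1.trans e2.symm)
    exact absurd this hs1'.ne

/-- the subinterval of the flat -/
theorem exists_flat (H : VertAt a b X L c Λ x j t₁ t₄) (hc : 0 < c j) :
    ∃ t₂ t₃, t₁ < t₂ ∧ t₂ < t₃ ∧ t₃ < t₄ ∧
      (∀ s ∈ Icc t₁ t₄, |X (AffineMap.lineMap a b s) j - X x j| ≤ c j ↔ t₂ ≤ s ∧ s ≤ t₃) ∧
      (∀ t, |t - X x j| ≤ c j → ∃ s ∈ Icc t₁ t₄, X (AffineMap.lineMap a b s) j = t) ∧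
      c j ≤ Λ * (t₂ - t₁) ∧ c j ≤ Λ * (t₄ - t₃) := by
  have h0 := H.lt
  have l1 : t₁ ∈ Icc t₁ t₄ := left_mem_Icc.2 h0.le
  have l4 : t₄ ∈ Icc t₁ t₄ := right_mem_Icc.2 h0.le
  rcases H.mono with ⟨h, h1, h4⟩ | ⟨h, h1, h4⟩
  · have hval : ∀ t, |t - X x j| ≤ 2 * c j → ∃ s ∈ Icc t₁ t₄,
        X (AffineMap.lineMap a b s) j = t := by
      intro t ht
      obtain ⟨b1, b2⟩ := abs_le.1 ht
      obtain ⟨s, hs, hst⟩ := intermediate_value_Icc h0.le H.cont
        (show t ∈ Icc (X (AffineMap.lineMap a b t₁) j) (X (AffineMap.lineMap a b t₄) j) by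
          rw [h1, h4]; exact ⟨by linarith, by linarith⟩)
      exact ⟨s, hs, hst⟩
    obtain ⟨t₂, m2, e2⟩ := hval (X x j - c j) (by
      rw [show X x j - c j - X x j = -(c j) by ring, abs_neg, abs_of_pos hc]; linarith)
    obtain ⟨t₃, m3, e3⟩ := hval (X x j + c j) (by
      rw [show X x j + c j - X x j = c j by ring, abs_of_pos hc]; linarith)
    have d12 : t₁ < t₂ := (h.lt_iff_lt l1 m2).1 (by show X _ j < X _ j; rw [h1, e2]; linarith)
    have d23 : t₂ < t₃ := (h.lt_iff_lt m2 m3).1 (by show X _ j < X _ j; rw [e2, e3]; linarith)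
    have d34 : t₃ < t₄ := (h.lt_iff_lt m3 l4).1 (by show X _ j < X _ j; rw [e3, h4]; linarith)
    refine ⟨t₂, t₃, d12, d23, d34, fun s hs => ?_, fun t ht => hval t (by linarith), ?_, ?_⟩
    · rw [← h.le_iff_le m2 hs, ← h.le_iff_le hs m3]
      simp only [e2, e3]
      rw [abs_le]
      constructor <;> rintro ⟨b1, b2⟩ <;> constructor <;> linarith
    · have := H.lip t₂ m2 t₁ l1
      rw [e2, h1, show X x j - c j - (X x j - 2 * c j) = c j by ring, abs_of_pos hc,
        abs_of_pos (by linarith)] at this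
      exact this
    · have := H.lip t₄ l4 t₃ m3
      rw [e3, h4, show X x j + 2 * c j - (X x j + c j) = c j by ring, abs_of_pos hc,
        abs_of_pos (by linarith)] at this
      exact this
  · have hval : ∀ t, |t - X x j| ≤ 2 * c j → ∃ s ∈ Icc t₁ t₄,
        X (AffineMap.lineMap a b s) j = t := by
      intro t ht
      obtain ⟨b1, b2⟩ := abs_le.1 ht
      obtain ⟨s, hs, hst⟩ := intermediate_value_Icc' h0.le H.cont
        (show t ∈ Icc (X (AffineMap.lineMap a b t₄) j) (X (AffineMap.lineMap a b t₁) j) by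
          rw [h1, h4]; exact ⟨by linarith, by linarith⟩)
      exact ⟨s, hs, hst⟩
    obtain ⟨t₂, m2, e2⟩ := hval (X x j + c j) (by
      rw [show X x j + c j - X x j = c j by ring, abs_of_pos hc]; linarith)
    obtain ⟨t₃, m3, e3⟩ := hval (X x j - c j) (by
      rw [show X x j - c j - X x j = -(c j) by ring, abs_neg, abs_of_pos hc]; linarith)
    have d12 : t₁ < t₂ := (h.lt_iff_gt m2 l1).1 (by show X _ j < X _ j; rw [h1, e2]; linarith)
    have d23 : t₂ < t₃ := (h.lt_iff_gt m3 m2).1 (by show X _ j < X _ j; rw [e2, e3]; linarith)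
    have d34 : t₃ < t₄ := (h.lt_iff_gt l4 m3).1 (by show X _ j < X _ j; rw [e3, h4]; linarith)
    refine ⟨t₂, t₃, d12, d23, d34, fun s hs => ?_, fun t ht => hval t (by linarith), ?_, ?_⟩
    · rw [← h.le_iff_ge hs m2, ← h.le_iff_ge m3 hs]
      simp only [e2, e3]
      rw [abs_le]
      constructor <;> rintro ⟨b1, b2⟩ <;> constructor <;> linarith
    · have := H.lip t₁ l1 t₂ m2
      rw [e2, h1, show X x j + 2 * c j - (X x j + c j) = c j by ring, abs_of_pos hc,
        abs_sub_comm, abs_of_pos (by linarith)] at this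
      exact this
    · have := H.lip t₃ m3 t₄ l4
      rw [e3, h4, show X x j - c j - (X x j - 2 * c j) = c j by ring, abs_of_pos hc,
        abs_sub_comm, abs_of_pos (by linarith)] at this
      exact this

end VertAt

/-- **[VERT ⟹ EdgeNum]** -/
theorem exists_edgeNum {a b : E} {h X f : E → Fin m → ℝ} {k k' : Fin m → ℝ → ℝ}
    {L : Fin m → Finset ℝ} {lo hi om : Fin m → ℝ → ℝ} {c : Fin m → ℝ} {Λ La : ℝ}
    (hI' : ∀ j, Ins1 (k' j) (L j : Set ℝ) (fun β => β - c j) (fun β => β + c j))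
    (hc : ∀ j, 0 < c j) (hsep : ∀ j, H236.Sepd (L j) (c j))
    (hinj : InjOn (fun s : ℝ => X (AffineMap.lineMap a b s)) (Icc 0 1))
    (hlev : ∀ x ∈ segment ℝ a b, ∀ j, h x j ∈ L j → X x j = h x j)
    (hV : ∀ x ∈ segment ℝ a b, ∀ j, h x j ∈ L j → ∃ t₁ t₄, VertAt a b X L c Λ x j t₁ t₄)
    (hfib : ∀ x, CrsPt a b h L x → ∀ s ∈ Icc (0:ℝ) 1,
      (prodK k (f (AffineMap.lineMap a b s)) = h x ↔
        prodK k' (X (AffineMap.lineMap a b s)) = prodK k' (X x)))
    (hpos : ∀ x ∈ segment ℝ a b, ∀ j, h x j ∈ L j → ∀ s ∈ Icc (0:ℝ) 1,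
      prodK k (f (AffineMap.lineMap a b s)) = h x → 2 * c j * (f (AffineMap.lineMap a b s) j) =
        2 * c j * lo j (h x j) + (hi j (h x j) - lo j (h x j)) *
          (X (AffineMap.lineMap a b s) j - (h x j - c j)))
    (hlt : ∀ j, ∀ β ∈ L j, lo j β ≤ hi j β) (hom : ∀ j, ∀ β ∈ L j, 0 ≤ om j β)
    (hLa0 : 0 ≤ La) (hLa : ∀ j, ∀ β ∈ L j, om j β * Λ ≤ La * ‖b - a‖ * c j) :
    ∃ s1 s2 s3 s4 : E → ℝ, EdgeNum a b h k L lo hi om La f s1 s2 s3 s4 := by
  classical
  have key : ∀ x, ∃ t₁ t₂ t₃ t₄ : ℝ, CrsPt a b h L x → ∃ j, h x j ∈ L j ∧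
      (∀ i, i ≠ j → h x i ∉ L i) ∧ VertAt a b X L c Λ x j t₁ t₄ ∧ t₁ < t₂ ∧ t₂ < t₃ ∧ t₃ < t₄ ∧
      (∀ s ∈ Icc t₁ t₄, |X (AffineMap.lineMap a b s) j - X x j| ≤ c j ↔ t₂ ≤ s ∧ s ≤ t₃) ∧
      (∀ t, |t - X x j| ≤ c j → ∃ s ∈ Icc t₁ t₄, X (AffineMap.lineMap a b s) j = t) ∧
      c j ≤ Λ * (t₂ - t₁) ∧ c j ≤ Λ * (t₄ - t₃) := by
    intro x
    by_cases hx : CrsPt a b h L x
    · obtain ⟨hxs, j, hj⟩ := hx
      obtain ⟨t₁, t₄, H⟩ := hV x hxs j hj
      obtain ⟨t₂, t₃, h1, h2, h3, h4, h5, h6, h7⟩ := H.exists_flat (hc j)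
      refine ⟨t₁, t₂, t₃, t₄, fun _ => ⟨j, hj, fun i hi hiL => ?_, H, h1, h2, h3, h4, h5, h6, h7⟩⟩
      have := H.off i hi _ hiL
      rw [hlev x hxs i hiL, sub_self, abs_zero] at this
      linarith [hc i]
    · exact ⟨0, 0, 0, 0, fun h => absurd h hx⟩
  choose s1 s2 s3 s4 key using key
  -- the fibre
  have hmem : ∀ x, CrsPt a b h L x → ∀ s ∈ Icc (0:ℝ) 1,
      (prodK k (f (AffineMap.lineMap a b s)) = h x ↔ s2 x ≤ s ∧ s ≤ s3 x) := by
    intro x hx s hs
    obtain ⟨j, hj, hoff, H, h1, h2, h3, h4, h5, h6, h7⟩ := key x hx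
    have hXx := hlev x hx.1 j hj
    have hk'x : k' j (X x j) = h x j := by
      rw [hXx]
      exact ((hI' j).flat _ hj _).2 ⟨by linarith [hc j], by linarith [hc j]⟩
    rw [hfib x hx s hs]
    constructor
    · intro he
      have hej : k' j (X (AffineMap.lineMap a b s) j) = h x j := by
        rw [← hk'x]; exact congrFun he j
      have hfl := ((hI' j).flat _ hj _).1 hej
      have habs : |X (AffineMap.lineMap a b s) j - X x j| ≤ c j := by
        rw [hXx, abs_le]; constructor <;> linarith [hfl.1, hfl.2]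
      obtain ⟨s', hs', he'⟩ := h5 _ habs
      have hs'1 : s' ∈ Icc (0:ℝ) 1 := ⟨H.pos.le.trans hs'.1, hs'.2.trans H.lt_one.le⟩
      have hXX : X (AffineMap.lineMap a b s') = X (AffineMap.lineMap a b s) := by
        funext i
        by_cases hi : i = j
        · subst hi; exact he'
        · rw [H.cst i hi s' hs']
          have e1 : k' i (X (AffineMap.lineMap a b s) i) = k' i (X x i) := congrFun he i
          have hnot : k' i (X x i) ∉ (L i : Set ℝ) := fun hmem => by
            have h8 := ((hI' i).flat _ hmem _).1 rfl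
            have h9 := H.off i hi _ hmem
            have h10 : |X x i - k' i (X x i)| ≤ c i := abs_le.2 ⟨by linarith, by linarith⟩
            linarith
          exact ((hI' i).inj _ _ e1 (by rw [e1]; exact hnot)).symm
      have hss : s' = s := hinj hs'1 hs hXX
      subst hss
      exact (h4 s' hs').1 habs
    · intro hs23
      have hsI : s ∈ Icc (s1 x) (s4 x) := ⟨h1.le.trans hs23.1, hs23.2.trans h3.le⟩
      have habs := (h4 s hsI).2 hs23
      rw [hXx] at habs
      obtain ⟨b1, b2⟩ := abs_le.1 habs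
      funext i
      by_cases hi : i = j
      · subst hi
        show k' i (X (AffineMap.lineMap a b s) i) = k' i (X x i)
        rw [hk'x]
        exact ((hI' i).flat _ hj _).2 ⟨by linarith, by linarith⟩
      · show k' i (X (AffineMap.lineMap a b s) i) = k' i (X x i)
        rw [H.cst i hi s hsI]
  -- the direction is unique
  have hdir : ∀ x, CrsPt a b h L x → ∀ j, h x j ∈ L j →
      VertAt a b X L c Λ x j (s1 x) (s4 x) ∧ c j ≤ Λ * (s2 x - s1 x) ∧
        c j ≤ Λ * (s4 x - s3 x) ∧ s1 x < s2 x ∧ s2 x < s3 x ∧ s3 x < s4 x := by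
    intro x hx j hj
    obtain ⟨j', hj', hoff, H, h1, h2, h3, h4, h5, h6, h7⟩ := key x hx
    have : j = j' := by
      by_contra hne
      exact hoff j hne hj
    subst this
    exact ⟨H, h6, h7, h1, h2, h3⟩
  refine ⟨s1, s2, s3, s4, fun x hx => ?_, fun x hx => ?_, fun x hx => ?_, fun x hx => ?_,
    fun x hx => ?_, fun x y hx hy hxy => ?_, hmem, fun x hxs j hj => ?_, fun x hxs j hj => ?_,
    fun x hxs j hj s hs s' hs' => ?_⟩
  · obtain ⟨j, hj⟩ := hx.2; exact (hdir x hx j hj).1.pos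
  · obtain ⟨j, hj⟩ := hx.2; exact (hdir x hx j hj).2.2.2.1
  · obtain ⟨j, hj⟩ := hx.2; exact (hdir x hx j hj).2.2.2.2.1
  · obtain ⟨j, hj⟩ := hx.2; exact (hdir x hx j hj).2.2.2.2.2
  · obtain ⟨j, hj⟩ := hx.2; exact (hdir x hx j hj).1.lt_one
  · obtain ⟨j, hj⟩ := hx.2
    obtain ⟨j', hj'⟩ := hy.2
    exact (hdir x hx j hj).1.disj (hdir y hy j' hj').1 hc hsep
      (by rw [hlev x hx.1 j hj]; exact hj) (by rw [hlev y hy.1 j' hj']; exact hj') hxy
  · obtain ⟨H, h6, h7, h1, h2, h3⟩ := hdir x ⟨hxs, j, hj⟩ j hj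
    have e1 := hLa j _ hj
    have e2 := mul_le_mul_of_nonneg_left h6 (hom j _ hj)
    have e3 : om j (h x j) * c j ≤ (La * ‖b - a‖ * (s2 x - s1 x)) * c j := by
      calc om j (h x j) * c j ≤ om j (h x j) * (Λ * (s2 x - s1 x)) := e2
        _ = (om j (h x j) * Λ) * (s2 x - s1 x) := by ring
        _ ≤ (La * ‖b - a‖ * c j) * (s2 x - s1 x) :=
          mul_le_mul_of_nonneg_right e1 (by linarith)
        _ = _ := by ring
    exact le_of_mul_le_mul_right e3 (hc j)
  · obtain ⟨H, h6, h7, h1, h2, h3⟩ := hdir x ⟨hxs, j, hj⟩ j hj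
    have e1 := hLa j _ hj
    have e2 := mul_le_mul_of_nonneg_left h7 (hom j _ hj)
    have e3 : om j (h x j) * c j ≤ (La * ‖b - a‖ * (s4 x - s3 x)) * c j := by
      calc om j (h x j) * c j ≤ om j (h x j) * (Λ * (s4 x - s3 x)) := e2
        _ = (om j (h x j) * Λ) * (s4 x - s3 x) := by ring
        _ ≤ (La * ‖b - a‖ * c j) * (s4 x - s3 x) :=
          mul_le_mul_of_nonneg_right e1 (by linarith)
        _ = _ := by ring
    exact le_of_mul_le_mul_right e3 (hc j)
  · obtain ⟨H, h6, h7, h1, h2, h3⟩ := hdir x ⟨hxs, j, hj⟩ j hj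
    have hx : CrsPt a b h L x := ⟨hxs, j, hj⟩
    have i1 : s ∈ Icc (0:ℝ) 1 :=
      ⟨(H.pos.trans h1).le.trans hs.1, hs.2.trans (h3.le.trans H.lt_one.le)⟩
    have i2 : s' ∈ Icc (0:ℝ) 1 :=
      ⟨(H.pos.trans h1).le.trans hs'.1, hs'.2.trans (h3.le.trans H.lt_one.le)⟩
    have p1 := hpos x hxs j hj s i1 ((hmem x hx s i1).2 hs)
    have p2 := hpos x hxs j hj s' i2 ((hmem x hx s' i2).2 hs')
    have p3 := H.lip s ⟨h1.le.trans hs.1, hs.2.trans h3.le⟩ s'
      ⟨h1.le.trans hs'.1, hs'.2.trans h3.le⟩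
    have hcj := hc j
    have hd : 0 ≤ hi j (h x j) - lo j (h x j) := sub_nonneg.2 (hlt j _ hj)
    have e4 : 2 * c j * |f (AffineMap.lineMap a b s) j - f (AffineMap.lineMap a b s') j| =
        (hi j (h x j) - lo j (h x j)) *
          |X (AffineMap.lineMap a b s) j - X (AffineMap.lineMap a b s') j| := by
      have q1 : 2 * c j * |f (AffineMap.lineMap a b s) j - f (AffineMap.lineMap a b s') j| =
          |2 * c j * f (AffineMap.lineMap a b s) j - 2 * c j * f (AffineMap.lineMap a b s') j| := by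
        rw [← mul_sub, abs_mul, abs_of_pos (by linarith : 0 < 2 * c j)]
      have q2 : (hi j (h x j) - lo j (h x j)) *
          |X (AffineMap.lineMap a b s) j - X (AffineMap.lineMap a b s') j| =
          |(hi j (h x j) - lo j (h x j)) *
            (X (AffineMap.lineMap a b s) j - X (AffineMap.lineMap a b s') j)| := by
        rw [abs_mul, abs_of_nonneg hd]
      rw [q1, q2, p1, p2]
      congr 1
      ring
    have e1 := hLa j _ hj
    have e5 : (2 * c j) * (om j (h x j) *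
        |f (AffineMap.lineMap a b s) j - f (AffineMap.lineMap a b s') j|) ≤
        (2 * c j) * ((hi j (h x j) - lo j (h x j)) * (La * ‖b - a‖ * |s - s'|)) := by
      calc (2 * c j) * (om j (h x j) *
            |f (AffineMap.lineMap a b s) j - f (AffineMap.lineMap a b s') j|)
          = om j (h x j) * ((hi j (h x j) - lo j (h x j)) *
            |X (AffineMap.lineMap a b s) j - X (AffineMap.lineMap a b s') j|) := by
            rw [← e4]; ring
        _ ≤ om j (h x j) * ((hi j (h x j) - lo j (h x j)) * (Λ * |s - s'|)) :=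
            mul_le_mul_of_nonneg_left (mul_le_mul_of_nonneg_left p3 hd) (hom j _ hj)
        _ = (hi j (h x j) - lo j (h x j)) * |s - s'| * (om j (h x j) * Λ) := by ring
        _ ≤ (hi j (h x j) - lo j (h x j)) * |s - s'| * (La * ‖b - a‖ * c j) :=
            mul_le_mul_of_nonneg_left e1 (mul_nonneg hd (abs_nonneg _))
        _ = (hi j (h x j) - lo j (h x j)) * (La * ‖b - a‖ * |s - s'|) * c j := by ring
        _ ≤ _ := by
          have : 0 ≤ (hi j (h x j) - lo j (h x j)) * (La * ‖b - a‖ * |s - s'|) * c j := by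
            positivity
          linarith
    exact le_of_mul_le_mul_left e5 (by linarith)

end P073.H196
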